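import Crest.Agent.R062.State
import Crest.Agent.Lib.PT.Mat

/-! The algorithm runs in polynomial time. -/

open Matrix Finset Crest.Agent.Lib.PT

namespace Crest.Agent.R062

section general

variable {α : Type} [Enc α]

lemma alg_findGreatest {n : α → ℕ} {P : α → ℕ → Prop} [∀ a, DecidablePred (P a)] (hn : PT n)
    (hb : PB n) (hP : PT fun p : α × ℕ => decide (P p.1 p.2)) :
    PT fun a => Nat.findGreatest (P a) (n a) := by
  have key : ∀ a i, (Nat.rec 0 (fun j acc => if P a (j + 1) then j + 1 else acc) i : ℕ)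
      = Nat.findGreatest (P a) i := by
    intro a i
    induction i with
    | zero => rfl
    | succ i ih => rw [Nat.findGreatest_succ, ← ih]
  have h1 : PT fun p : α × ℕ × ℕ => decide (P p.1 (p.2.1 + 1)) :=
    hP.comp (f := fun p : α × ℕ × ℕ => (p.1, p.2.1 + 1)) (by fun_prop)
  refine (PT.natRec (f := fun a j acc => if P a (j + 1) then j + 1 else acc) (ini := fun _ => 0)
    (fun a => sz (n a)) (PT.ite h1 (by fun_prop) (by fun_prop)) hn hb (PT.const 0) (PB.sz hn)
    fun a i hi => ?_).congr fun a => (key a _).symm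
  rw [key]
  exact sz_nat_mono ((Nat.findGreatest_le i).trans hi)

variable {m : α → ℕ}

lemma alg_one (hm : PT m) (hb : PB m) :
    PT fun a => enc (1 : Matrix (Fin (m a)) (Fin (m a)) ℚ) := by
  refine PT.mat hm hb hm hb ?_
  simp only [Matrix.one_apply]
  exact PT.ite (PT.fin_decide_eq (by fun_prop) (by fun_prop)) (PT.const 1) (PT.const 0)

lemma alg_matPow {X : (a : α) → Matrix (Fin (m a)) (Fin (m a)) ℚ} (hX : PT fun a => enc (X a))
    (j : ℕ) : PT fun a => enc (X a ^ j) := by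
  induction j with
  | zero => simpa only [pow_zero] using alg_one (PT.mat_dim hX) (PB.mat_dim hX)
  | succ j ih =>
    simpa only [pow_succ] using ih.rat_matMul hX (PT.mat_dim hX) (PB.mat_dim hX)

lemma alg_diag {X : (a : α) → Matrix (Fin (m a)) (Fin (m a)) ℚ} (hX : PT fun a => enc (X a)) :
    PT fun q : Σ a, Fin (m a) => X q.1 q.2 q.2 :=
  PT.entry (hX.comp PT.id.sigmaFst) PT.id.sigmaFinVal PT.id.sigmaFinVal

lemma alg_trace {X : (a : α) → Matrix (Fin (m a)) (Fin (m a)) ℚ} (hX : PT fun a => enc (X a)) :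
    PT fun a => trace (X a) :=
  PT.rat_sum_fin (f := fun a i => X a i i) (PT.mat_dim hX) (PB.mat_dim hX) (alg_diag hX)

lemma alg_tr {X : (a : α) → Matrix (Fin (m a)) (Fin (m a)) ℚ} (hX : PT fun a => enc (X a))
    (j : ℕ) : PT fun a => tr (X a) j := alg_trace (alg_matPow hX j)

lemma alg_RR {X : (a : α) → Matrix (Fin (m a)) (Fin (m a)) ℚ} (hX : PT fun a => enc (X a)) :
    PT fun a => RR (X a) :=
  PT.rat_sum_fin (f := fun a i => X a i i ^ 2) (PT.mat_dim hX) (PB.mat_dim hX)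
    ((alg_diag hX).ratPow (PT.const 2) (PB.const 2))

lemma alg_DD {X Y : (a : α) → Matrix (Fin (m a)) (Fin (m a)) ℚ} (hX : PT fun a => enc (X a))
    (hY : PT fun a => enc (Y a)) : PT fun a => DD (X a) (Y a) :=
  alg_trace ((alg_matPow hX 2).rat_matMul (alg_matPow hY 2) (PT.mat_dim hX) (PB.mat_dim hX))

lemma alg_VV {X : (a : α) → Matrix (Fin (m a)) (Fin (m a)) ℚ} (hX : PT fun a => enc (X a))
    {T : (a : α) → Finset (Fin (m a))} (hT : PT fun q : Σ a, Fin (m a) => decide (q.2 ∈ T q.1))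
    {c : α → ℚ} (hc : PT c) : PT fun a => VV (X a) (T a) (c a) := by
  have h := PT.rat_sum_fin (f := fun a i => if i ∈ T a then ((X a ^ 2) i i - c a) ^ 2 else 0)
    (PT.mat_dim hX) (PB.mat_dim hX)
    (PT.ite hT (((alg_diag (alg_matPow hX 2)).ratSub (hc.comp PT.id.sigmaFst)).ratPow
      (PT.const 2) (PB.const 2)) (PT.const 0))
  exact h.congr fun a => sum_finset_eq_sum_ite _ _

/-- All five parameters are computable in polynomial time. -/
structure PPar (p : α → Par ℚ) : Prop where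
  N : PT fun a => (p a).N
  n : PT fun a => (p a).n
  M : PT fun a => (p a).M
  m : PT fun a => (p a).m
  T3 : PT fun a => (p a).T3

lemma alg_pot1 {p : α → Par ℚ} (hp : PPar p) {k : α → ℚ} (hk : PT k)
    {T : (a : α) → Finset (Fin (m a))} (hT : PT fun q : Σ a, Fin (m a) => decide (q.2 ∈ T q.1))
    {X : (a : α) → Matrix (Fin (m a)) (Fin (m a)) ℚ} (hX : PT fun a => enc (X a)) :
    PT fun a => pot1 (p a) (k a) (T a) (X a) := by
  have hN := hp.N
  have hn := hp.n
  have hM := hp.M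
  have hT3 := hp.T3
  have hk1 : PT fun a => (p a).k1 := hN.ratPow (PT.const _) (PB.const _)
  have hkb : PT fun a => (p a).kb (k a) := hk.ratAdd hM
  have hF : PT fun a => (p a).F (k a) := hk.ratDiv (hk.ratAdd hM)
  have pw : ∀ {f : α → ℚ}, PT f → ∀ j : ℕ, PT fun a => f a ^ j := fun hf j =>
    hf.ratPow (PT.const j) (PB.const j)
  have hg : PT fun a => (p a).gtau (k a) :=
    (pw hN _).ratMul ((PT.const 1).ratMin ((PT.const 0).ratMax ((hk.ratSub hk1).ratDiv hk1)))
  have h1 : PT fun a => P1 (p a) (k a) (X a) :=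
    ((pw (((alg_tr hX 1).ratSub hg).ratMax (PT.const 0)) 2).ratAdd
      (pw ((alg_tr hX 1).ratNeg.ratMax (PT.const 0)) 2)).ratDiv ((pw hN _).ratMul hF)
  have h2 : PT fun a => P2 (p a) (k a) (X a) :=
    (pw ((alg_tr hX 2).ratSub (hk.ratMul hF)) 2).ratDiv (pw ((pw hN _).ratMul hF) 2)
  have h2l : PT fun a => P2l (p a) (k a) (X a) :=
    (alg_tr hX 2).ratDiv ((hN.ratMul hk).ratMul hF)
  have h3 : PT fun a => P3 (p a) (k a) (X a) :=
    (pw (alg_tr hX 3) 2).ratDiv
      ((((pw hN 2).ratMul (pw hn 2)).ratMul (pw hF 6)).ratAdd ((pw hM 2).ratMul (pw hF 3)))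
  have h4 : PT fun a => P4 (p a) (k a) (X a) :=
    (alg_tr hX 4).ratDiv ((pw hN 20).ratMul
      ((((pw hn 2).ratMul (pw hF 4)).ratDiv hkb).ratAdd (hM.ratMul (pw hF 2))))
  have h5 : PT fun a => P5 (p a) (k a) (T a) (X a) :=
    (alg_VV hX hT hF).ratDiv (((pw hN 3).ratMul hM).ratMul (pw hF 2))
  have h6 : PT fun a => P6 (p a) (k a) (X a) := (alg_RR hX).ratDiv ((pw hN 40).ratMul hF)
  have h8 : PT fun a => P8 (p a) (k a) (X a) :=
    PT.ite (hk1.rat_decide_le hk)
      ((pw ((alg_tr hX 3).ratSub hT3) 2).ratDiv (pw (hn.ratDiv (pw hN 2)) 2)) (PT.const 0)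
  exact ((((((h1.ratAdd h2).ratAdd h2l).ratAdd h3).ratAdd h4).ratAdd h5).ratAdd h6).ratAdd h8

lemma alg_pot {p : α → Par ℚ} (hp : PPar p) {k : α → ℚ} (hk : PT k)
    {T : (a : α) → Finset (Fin (m a))} (hT : PT fun q : Σ a, Fin (m a) => decide (q.2 ∈ T q.1))
    {X Y : (a : α) → Matrix (Fin (m a)) (Fin (m a)) ℚ} (hX : PT fun a => enc (X a))
    (hY : PT fun a => enc (Y a)) : PT fun a => pot (p a) (k a) (T a) (X a) (Y a) := by
  have hk1 : PT fun a => (p a).k1 := hp.N.ratPow (PT.const _) (PB.const _)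
  have h9 : PT fun a => P9 (p a) (k a) (X a) (Y a) :=
    PT.ite (hk1.rat_decide_le hk)
      ((alg_DD hX hY).ratDiv ((hp.N.ratPow (PT.const _) (PB.const _)).ratMul hp.n)) (PT.const 0)
  exact ((alg_pot1 hp hk hT hX).ratAdd (alg_pot1 hp hk hT hY)).ratAdd h9

variable {n : α → ℕ} {l : α → St}

lemma alg_NN (hn : PT n) (hb : PB n) : PT fun a => NN (n a) :=
  alg_findGreatest (P := fun a N => N ^ 10000 ≤ n a) hn hb
    ((PT.id.snd.pow (PT.const _) (PB.const _)).decide_le (hn.comp PT.id.fst))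

lemma alg_NN_pb (hb : PB n) : PB fun a => NN (n a) := hb.of_le fun _ => Nat.findGreatest_le _

lemma alg_LL (hn : PT n) (hb : PB n) : PT fun a => LL (n a) :=
  (alg_NN hn hb).pow (PT.const _) (PB.const _)

lemma alg_LL_pb (hb : PB n) : PB fun a => LL (n a) := (alg_NN_pb hb).pow _

lemma alg_jj (d : ℕ) (hn : PT n) (hb : PB n) : PT fun a => jj d (n a) :=
  alg_findGreatest (P := fun a j => (d - 1) * j ^ 2 ≤ LL (n a) ^ 2) (alg_LL hn hb) (alg_LL_pb hb)
    (((PT.const _).mul (PT.id.snd.pow (PT.const _) (PB.const _))).decide_le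
      (((alg_LL hn hb).comp PT.id.fst).pow (PT.const _) (PB.const _)))

lemma alg_mm (d : ℕ) (hn : PT n) (hb : PB n) : PT fun a => mm d (n a) :=
  ((alg_jj d hn hb).ratNatCast.ratSub (PT.const 1)).ratDiv (alg_LL hn hb).ratNatCast

lemma alg_cc (d : ℕ) (hn : PT n) (hb : PB n) : PT fun a => cc d (n a) :=
  (alg_mm d hn hb).ratAdd
    ((PT.const _).ratDiv ((alg_LL hn hb).ratNatCast.ratPow (PT.const 2) (PB.const 2)))

lemma alg_pp (d : ℕ) (hn : PT n) (hb : PB n) : PT fun a => pp d (n a) :=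
  (PT.const _).ratMul ((alg_mm d hn hb).ratPow (PT.const 2) (PB.const 2))

lemma alg_par (d : ℕ) (hn : PT n) (hb : PB n) : PPar fun a => par d (n a) where
  N := (alg_NN hn hb).ratNatCast
  n := hn.ratNatCast
  M := ((hn.ratNatCast.ratMul (PT.const _)).ratMul
    ((PT.const 1).ratSub (alg_pp d hn hb))).ratDiv (alg_pp d hn hb)
  m := alg_mm d hn hb
  T3 := ((hn.ratNatCast.ratSub (PT.const 1)).ratMul
    ((((alg_cc d hn hb).ratMul (PT.const _)).ratSub (alg_mm d hn hb)).ratPow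
      (PT.const 3) (PB.const 3))).ratSub
    ((hn.ratNatCast.ratMul (PT.const _)).ratMul ((alg_mm d hn hb).ratPow (PT.const 3) (PB.const 3)))

lemma alg_steps (d : ℕ) (hn : PT n) (hb : PB n) : PT fun a => steps d (n a) :=
  (((hn.mul (PT.const d)).sub ((alg_NN hn hb).pow (PT.const _) (PB.const _))).add
    (PT.const 1)).div (PT.const 2)

lemma alg_steps_pb (d : ℕ) (hb : PB n) : PB fun a => steps d (n a) :=
  (((hb.mul (PB.const d)).sub _).add (PB.const 1)).div _

lemma alg_used (hl : PT l) : PT fun a => used (l a) :=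
  hl.flatMap (g := fun _ (e : ℕ × ℕ) => [e.1, e.2]) (by fun_prop)

lemma alg_notUsed (hl : PT l) {z : α → ℕ} (hz : PT z) : PT fun a => decide (z a ∉ used (l a)) :=
  PT.decide_not (hz.decide_mem (alg_used hl))

lemma alg_kf {k : α → ℕ} (hk : PT k) (hl : PT l) : PT fun a => kf (k a) (l a) :=
  hk.sub ((PT.const 2).mul hl.length)

lemma alg_Pm (hm : PT m) (hb : PB m) (hl : PT l) : PT fun a => enc (Pm (m a) (l a)) := by
  refine PT.mat hm hb hm hb ?_
  simp only [Pm, Matrix.of_apply]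
  have h1 : PT fun p : Σ q : (Σ a, Fin (m a)), Fin (m q.1) => (p.1.2 : ℕ) :=
    PT.id.sigmaFst.sigmaFinVal
  have h2 : PT fun p : Σ q : (Σ a, Fin (m a)), Fin (m q.1) => (p.2 : ℕ) := PT.id.sigmaFinVal
  have h3 : PT fun p : Σ q : (Σ a, Fin (m a)), Fin (m q.1) => l p.1.1 :=
    hl.comp PT.id.sigmaFst.sigmaFst
  exact PT.ite (PT.decide_or ((h1.pair h2).decide_mem h3) ((h2.pair h1).decide_mem h3))
    (PT.const 1) (PT.const 0)

lemma alg_K0 (d : ℕ) (s : ℚ) (hn : PT n) (hb : PB n) : PT fun a => enc (K0 d (n a) s) := by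
  have hm : PT fun a => n a * d := hn.mul (PT.const d)
  have hmb : PB fun a => n a * d := hb.mul (PB.const d)
  refine PT.mat hm hmb hm hmb ?_
  simp only [K0, Matrix.of_apply]
  have h1 : PT fun p : Σ q : (Σ a, Fin (n a * d)), Fin (n q.1 * d) => (p.1.2 : ℕ) :=
    PT.id.sigmaFst.sigmaFinVal
  have h2 : PT fun p : Σ q : (Σ a, Fin (n a * d)), Fin (n q.1 * d) => (p.2 : ℕ) :=
    PT.id.sigmaFinVal
  have h0 : PT fun p : Σ q : (Σ a, Fin (n a * d)), Fin (n q.1 * d) => p.1.1 :=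
    PT.id.sigmaFst.sigmaFst
  have hc := (alg_cc d hn hb).comp h0
  have hmm := (alg_mm d hn hb).comp h0
  exact ((PT.ite ((h1.div (PT.const d)).decide_eq (h2.div (PT.const d))) hc (PT.const 0)).ratSub
    (PT.ite (h1.decide_eq h2) hmm (PT.const 0))).ratAdd
    (((hmm.ratSub (hc.ratMul (PT.const _))).ratAdd (PT.const s)).ratDiv
      ((hn.comp h0).ratNatCast.ratMul (PT.const _)))

lemma alg_Kt (d : ℕ) (s : ℚ) (hn : PT n) (hb : PB n) (hl : PT l) :
    PT fun a => enc (Kt d (n a) s (l a)) := by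
  have hm : PT fun a => n a * d := hn.mul (PT.const d)
  have hmb : PB fun a => n a * d := hb.mul (PB.const d)
  have h1 := (alg_K0 d s hn hb).rat_matMul (alg_Pm hm hmb hl) hm hmb
  have h2 : PT fun a => enc (1 - s • (K0 d (n a) s * Pm (n a * d) (l a))) := by
    refine PT.mat hm hmb hm hmb ?_
    simp only [Matrix.sub_apply, Matrix.smul_apply, smul_eq_mul]
    exact (alg_one hm hmb).entries.ratSub ((PT.const s).ratMul h1.entries)
  exact h2.rat_matInv.rat_matMul (alg_K0 d s hn hb) hm hmb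

lemma alg_Xs (d : ℕ) (s : ℚ) (hn : PT n) (hb : PB n) (hl : PT l) :
    PT fun a => enc (Xs d (n a) s (l a)) := by
  have hm : PT fun a => n a * d := hn.mul (PT.const d)
  have hmb : PB fun a => n a * d := hb.mul (PB.const d)
  refine PT.mat hm hmb hm hmb ?_
  simp only [Xs, Matrix.of_apply]
  have h1 : PT fun p : Σ q : (Σ a, Fin (n a * d)), Fin (n q.1 * d) => (p.1.2 : ℕ) :=
    PT.id.sigmaFst.sigmaFinVal
  have h2 : PT fun p : Σ q : (Σ a, Fin (n a * d)), Fin (n q.1 * d) => (p.2 : ℕ) :=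
    PT.id.sigmaFinVal
  have h0 : PT fun p : Σ q : (Σ a, Fin (n a * d)), Fin (n q.1 * d) => p.1.1 :=
    PT.id.sigmaFst.sigmaFst
  exact PT.ite (PT.decide_and (alg_notUsed (hl.comp h0) h1) (alg_notUsed (hl.comp h0) h2))
    ((alg_Kt d s hn hb hl).entries.ratSub
      ((PT.const s).ratDiv ((alg_kf hm hl).comp h0).ratNatCast)) (PT.const 0)

lemma alg_Phi (d : ℕ) (hn : PT n) (hb : PB n) (hl : PT l) : PT fun a => Phi d (n a) (l a) := by
  have hm : PT fun a => n a * d := hn.mul (PT.const d)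
  refine alg_pot (alg_par d hn hb) (alg_kf hm hl).ratNatCast
    (T := fun a => free (n a * d) (l a)) ?_ (alg_Xs d 1 hn hb hl) (alg_Xs d (-1) hn hb hl)
  refine (alg_notUsed (hl.comp PT.id.sigmaFst)
    (PT.sigmaFinVal (n := fun a => n a * d) PT.id)).congr fun q => ?_
  simp [free]

lemma alg_adjV (d : ℕ) (hl : PT l) {u v : α → ℕ} (hu : PT u) (hv : PT v) :
    PT fun a => adjV d (l a) (u a) (v a) := by
  have h1 : PT fun p : α × ℕ × ℕ => p.2.1 / d := PT.id.snd.fst.div (PT.const d)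
  have h2 : PT fun p : α × ℕ × ℕ => p.2.2 / d := PT.id.snd.snd.div (PT.const d)
  have h3 : PT fun p : α × ℕ × ℕ => u p.1 := hu.comp PT.id.fst
  have h4 : PT fun p : α × ℕ × ℕ => v p.1 := hv.comp PT.id.fst
  exact hl.any (g := fun a e => (e.1 / d == u a && e.2 / d == v a) ||
    (e.1 / d == v a && e.2 / d == u a))
    (((h1.beq h3).and (h2.beq h4)).or ((h1.beq h4).and (h2.beq h3)))

lemma alg_okPair (d : ℕ) (hl : PT l) {x y : α → ℕ} (hx : PT x) (hy : PT y) :
    PT fun a => okPair d (l a) (x a) (y a) :=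
  ((hx.div (PT.const d)).beq (hy.div (PT.const d))).not.and
    (alg_adjV d hl (hx.div (PT.const d)) (hy.div (PT.const d))).not

lemma alg_DelQ (d : ℕ) (s : ℚ) (hn : PT n) (hb : PB n) (hl : PT l)
    {x y : (a : α) → Fin (n a * d)} (hx : PT fun a => (x a : ℕ)) (hy : PT fun a => (y a : ℕ)) :
    PT fun a => DelQ d (n a) s (l a) (x a) (y a) := by
  have hK := alg_Kt d s hn hb hl
  exact (((PT.const s).ratSub (hK.entry hx hy)).ratPow (PT.const 2) (PB.const 2)).ratSub
    ((hK.entry hx hx).ratMul (hK.entry hy hy))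

lemma alg_valid (d : ℕ) (hn : PT n) (hb : PB n) (hl : PT l)
    {x y : (a : α) → Fin (n a * d)} (hx : PT fun a => (x a : ℕ)) (hy : PT fun a => (y a : ℕ)) :
    PT fun a => decide (valid d (n a) (l a) (x a) (y a)) := by
  have h := PT.decide_and (alg_notUsed hl hx) (PT.decide_and (alg_notUsed hl hy)
    (PT.decide_and (alg_okPair d hl hx hy).decide_eq_true
      (PT.decide_and ((PT.const 0).rat_decide_lt (alg_DelQ d 1 hn hb hl hx hy))
        ((PT.const 0).rat_decide_lt (alg_DelQ d (-1) hn hb hl hx hy)))))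
  exact h.congr fun a => decide_eq_decide.2 Iff.rfl

lemma alg_cands (d : ℕ) (hn : PT n) (hb : PB n) (hl : PT l) : PT fun a => cands d (n a) (l a) := by
  have hm : PT fun a => n a * d := hn.mul (PT.const d)
  have hmb : PB fun a => n a * d := hb.mul (PB.const d)
  have h1 : PT fun p : Σ q : (Σ a, Fin (n a * d)), Fin (n q.1 * d) => (p.1.2 : ℕ) :=
    PT.id.sigmaFst.sigmaFinVal
  have h2 : PT fun p : Σ q : (Σ a, Fin (n a * d)), Fin (n q.1 * d) => (p.2 : ℕ) :=
    PT.id.sigmaFinVal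
  have h0 : PT fun p : Σ q : (Σ a, Fin (n a * d)), Fin (n q.1 * d) => p.1.1 :=
    PT.id.sigmaFst.sigmaFst
  have h3 := alg_valid d (hn.comp h0) (hb.comp h0) (hl.comp h0) (x := fun p => p.1.2)
    (y := fun p => p.2) h1 h2
  have h4 := PT.ofFn (α := Σ a, Fin (n a * d)) (n := fun q => n q.1 * d)
    (f := fun q y => if valid d (n q.1) (l q.1) q.2 y then [((q.2 : ℕ), (y : ℕ))] else [])
    (hm.comp PT.id.sigmaFst) (hmb.comp PT.id.sigmaFst)
    (PT.ite h3 ((h1.pair h2).cons (PT.const [])) (PT.const []))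
  exact (PT.ofFn (f := fun a (x : Fin (n a * d)) => (List.ofFn fun y : Fin (n a * d) =>
    if valid d (n a) (l a) x y then [((x : ℕ), (y : ℕ))] else []).flatten) hm hmb
    h4.flatten).flatten

lemma alg_gstep (d : ℕ) (hn : PT n) (hb : PB n) (hl : PT l) : PT fun a => gstep d (n a) (l a) :=
  ((alg_cands d hn hb hl).argmin_rat (f := fun a e => Phi d (n a) (e :: l a))
    (alg_Phi d (hn.comp PT.id.fst) (hb.comp PT.id.fst)
      (PT.id.snd.cons (hl.comp PT.id.fst)))).optionToList.append hl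

lemma alg_mem_cands {d n : ℕ} {l : St} {e : ℕ × ℕ} (h : e ∈ cands d n l) :
    e.1 < n * d ∧ e.2 < n * d := by
  simp only [cands, List.mem_flatten, List.mem_ofFn] at h
  obtain ⟨_, ⟨x, rfl⟩, h⟩ := h
  simp only [List.mem_flatten, List.mem_ofFn] at h
  obtain ⟨_, ⟨y, rfl⟩, h⟩ := h
  split_ifs at h
  · rw [List.mem_singleton] at h
    subst h
    exact ⟨x.2, y.2⟩
  · simp at h

lemma alg_sz_gstep (d n : ℕ) (l : St) : sz (gstep d n l) ≤ sz l + (2 * sz (n * d) + 2) := by
  unfold gstep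
  rcases h : (cands d n l).argmin fun e => Phi d n (e :: l) with _ | e
  · simp
  · obtain ⟨h1, h2⟩ := alg_mem_cands (List.argmin_mem h)
    have h3 := sz_nat_mono h1.le
    have h4 := sz_nat_mono h2.le
    have h5 := sz_prod e
    simp only [Option.toList_some, List.singleton_append, sz_cons]
    omega

lemma alg_run (d : ℕ) (hn : PT n) (hb : PB n) {i : α → ℕ} (hi : PT i) (hib : PB i) :
    PT fun a => run d (n a) (i a) :=
  PT.iterate_add (f := fun a => gstep d (n a)) (ini := fun _ => [])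
    (fun a => 2 * sz (n a * d) + 2)
    (alg_gstep d (hn.comp PT.id.fst) (hb.comp PT.id.fst) PT.id.snd) hi hib (PT.const _)
    (((PB.const 2).mul (PB.sz (hn.mul (PT.const d)))).add (PB.const 2))
    fun a x => alg_sz_gstep d (n a) x

lemma alg_fixStep {ok : α → ℕ → ℕ → Bool} (hok : PT fun p : α × ℕ × ℕ => ok p.1 p.2.1 p.2.2)
    (hl : PT l) : PT fun a => fixStep (ok a) (l a) := by
  have h1 : PT fun p : α × ℕ × ℕ => (l p.1).erase p.2 := PT.id.snd.erase (hl.comp PT.id.fst)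
  have h2 : PT fun p : (α × ℕ × ℕ) × ℕ × ℕ => ok p.1.1 p.1.2.1 p.2.1 :=
    hok.comp (f := fun p : (α × ℕ × ℕ) × ℕ × ℕ => (p.1.1, p.1.2.1, p.2.1)) (by fun_prop)
  have h3 : PT fun p : (α × ℕ × ℕ) × ℕ × ℕ => ok p.1.1 p.1.2.2 p.2.2 :=
    hok.comp (f := fun p : (α × ℕ × ℕ) × ℕ × ℕ => (p.1.1, p.1.2.2, p.2.2)) (by fun_prop)
  have h4 : PT fun p : (α × ℕ × ℕ) × ℕ × ℕ =>
      (p.1.2.1, p.2.1) :: (p.1.2.2, p.2.2) :: ((l p.1.1).erase p.1.2).erase p.2 :=
    (PT.id.fst.snd.fst.pair PT.id.snd.fst).cons ((PT.id.fst.snd.snd.pair PT.id.snd.snd).cons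
      (PT.id.snd.erase (h1.comp PT.id.fst)))
  have h5 := (h1.find? (g := fun p e' => ok p.1 p.2.1 e'.1 && ok p.1 p.2.2 e'.2)
    (h2.and h3)).optionMap
    (g := fun p e' => (p.2.1, e'.1) :: (p.2.2, e'.2) :: ((l p.1).erase p.2).erase e') h4
  exact ((hl.find? (g := fun a e => !ok a e.1 e.2) hok.not).optionBind
    (g := fun a e => (((l a).erase e).find? fun e' => ok a e.1 e'.1 && ok a e.2 e'.2).map
      fun e' => (e.1, e'.1) :: (e.2, e'.2) :: ((l a).erase e).erase e') h5).optionGetD hl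

lemma alg_sz_erase {L : St} {e : ℕ × ℕ} (h : e ∈ L) : sz L = sz e + sz (L.erase e) + 1 := by
  rw [sz_perm (List.perm_cons_erase h), sz_cons]

lemma alg_sz_fixStep (ok : ℕ → ℕ → Bool) (L : St) : sz (fixStep ok L) ≤ sz L + 0 := by
  unfold fixStep
  rcases h : L.find? fun e => !ok e.1 e.2 with _ | e
  · simp [h]
  · rcases h' : (L.erase e).find? fun e' => ok e.1 e'.1 && ok e.2 e'.2 with _ | e'
    · simp [h, h']
    · have h1 := alg_sz_erase (List.mem_of_find?_eq_some h)
      have h2 := alg_sz_erase (List.mem_of_find?_eq_some h')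
      have h3 := sz_prod e
      have h4 := sz_prod e'
      simp only [h, Option.bind_some, h', Option.map_some, Option.getD_some, sz_cons, sz_pair]
      omega

lemma alg_complete {ok : α → ℕ → ℕ → Bool} (hok : PT fun p : α × ℕ × ℕ => ok p.1 p.2.1 p.2.2)
    {u : α → List ℕ} (hu : PT u) : PT fun a => complete (ok a) (u a) :=
  PT.iterate_add (f := fun a => fixStep (ok a))
    (ini := fun a => ((u a).take ((u a).length / 2)).zip ((u a).drop ((u a).length / 2)))
    (fun _ => 0)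
    (alg_fixStep (ok := fun p : α × St => ok p.1)
      (hok.comp (f := fun p : (α × St) × ℕ × ℕ => (p.1.1, p.2)) (by fun_prop)) PT.id.snd)
    hu.length (PB.length hu)
    (((hu.length.div (PT.const 2)).take hu).zip ((hu.length.div (PT.const 2)).drop hu))
    (PB.const 0) fun a x => alg_sz_fixStep (ok a) x

lemma alg_freeL (hm : PT m) (hb : PB m) (hl : PT l) : PT fun a => freeL (m a) (l a) :=
  (hm.range hb).filter (g := fun a z => decide (z ∉ used (l a)))
    (alg_notUsed (hl.comp PT.id.fst) PT.id.snd)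

lemma alg_final (d : ℕ) (hn : PT n) (hb : PB n) : PT fun a => final d (n a) := by
  have hr := alg_run d hn hb (alg_steps d hn hb) (alg_steps_pb d hb)
  exact (alg_complete (ok := fun a => okPair d (run d (n a) (steps d (n a))))
    (alg_okPair d (hr.comp PT.id.fst) PT.id.snd.fst PT.id.snd.snd)
    (alg_freeL (hn.mul (PT.const d)) (hb.mul (PB.const d)) hr)).append hr

lemma alg_outBits (d : ℕ) (hn : PT n) (hb : PB n) (hl : PT l) :
    PT fun a => outBits d (n a) (l a) :=
  ((hn.mul hn).range (hb.mul hb)).map (g := fun a i => adjV d (l a) (i / n a) (i % n a))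
    (alg_adjV d (hl.comp PT.id.fst) (PT.id.snd.div (hn.comp PT.id.fst))
      (PT.id.snd.mod (hn.comp PT.id.fst)))

end general

theorem polyTime_algo (d : ℕ) : Crest.Complexity.PolyTime (algo d) := by
  have hn : PT fun w : List Bool => w.length := PT.id.length
  have hb : PB fun w : List Bool => w.length := PB.length PT.id
  exact polyTime_iff_pt.2 (alg_outBits d hn hb (alg_final d hn hb))

end Crest.Agent.R062
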