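import Crest.Agent.R062.Num

/-! Averages over pairs with a density that is close to uniform. -/

open Matrix Finset

set_option linter.unusedSectionVars false

namespace Crest.Agent.R062
variable {α : Type} [Fintype α] [DecidableEq α] {p : Par ℝ} {W ϱ h sz Z Z' : α → α → ℝ}

theorem pair_kk_nonneg (α : Type) [Fintype α] : 0 ≤ kk α := Nat.cast_nonneg _

theorem pair_sum_one (α : Type) [Fintype α] : ∑ _x : α, (1 : ℝ) = kk α := by simp [kk]

/-- Cauchy-Schwarz for finite sums, with absolute value -/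
theorem pair_cs {ι : Type} [Fintype ι] (f g : ι → ℝ) :
    |∑ i, f i * g i| ≤ Real.sqrt (∑ i, f i ^ 2) * Real.sqrt (∑ i, g i ^ 2) := by
  rw [← Real.sqrt_mul (Finset.sum_nonneg fun i _ => sq_nonneg _)]
  exact Real.abs_le_sqrt (Finset.sum_mul_sq_le_sq_mul_sq _ f g)

theorem pair_cs2 (f g : α → α → ℝ) :
    |∑ x, ∑ y, f x y * g x y| ≤ Real.sqrt (∑ x, ∑ y, f x y ^ 2) * Real.sqrt (∑ x, ∑ y, g x y ^ 2) := by
  have := pair_cs (fun z : α × α => f z.1 z.2) (fun z : α × α => g z.1 z.2)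
  simpa only [Fintype.sum_prod_type] using this

theorem Ex_add : Ex W (fun x y => Z x y + Z' x y) = Ex W Z + Ex W Z' := by
  simp only [Ex, mul_add, Finset.sum_add_distrib, add_div]
theorem Ex_sub : Ex W (fun x y => Z x y - Z' x y) = Ex W Z - Ex W Z' := by
  simp only [Ex, mul_sub, Finset.sum_sub_distrib, sub_div]
theorem Ex_neg : Ex W (fun x y => -Z x y) = -Ex W Z := by
  simp only [Ex, mul_neg, Finset.sum_neg_distrib, neg_div]
theorem Ex_const_mul (c : ℝ) : Ex W (fun x y => c * Z x y) = c * Ex W Z := by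
  simp only [Ex, mul_left_comm _ c, ← Finset.mul_sum, mul_div_assoc]
theorem Ex_weight (ω : α → α → ℝ) :
    Ex W (fun x y => ω x y * Z x y) = Ex (fun x y => W x y * ω x y) Z := by
  simp only [Ex, mul_assoc]
theorem Ex_congr (hz : ∀ x y, W x y ≠ 0 → Z x y = Z' x y) : Ex W Z = Ex W Z' := by
  unfold Ex
  congr 1
  refine Finset.sum_congr rfl fun x _ => Finset.sum_congr rfl fun y _ => ?_
  by_cases h0 : W x y = 0
  · simp [h0]
  · rw [hz x y h0]
theorem Ex_mono (hW : ∀ x y, 0 ≤ W x y) (hz : ∀ x y, W x y ≠ 0 → Z x y ≤ Z' x y) :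
    Ex W Z ≤ Ex W Z' := by
  unfold Ex
  refine div_le_div_of_nonneg_right ?_ (sq_nonneg _)
  refine Finset.sum_le_sum fun x _ => Finset.sum_le_sum fun y _ => ?_
  by_cases h0 : W x y = 0
  · simp [h0]
  · exact mul_le_mul_of_nonneg_left (hz x y h0) (hW x y)
theorem Ex_nonneg (hW : ∀ x y, 0 ≤ W x y) (hz : ∀ x y, W x y ≠ 0 → 0 ≤ Z x y) : 0 ≤ Ex W Z := by
  have := Ex_mono (Z := fun _ _ => 0) hW hz
  simpa [Ex] using this
theorem abs_Ex_le (hW : ∀ x y, 0 ≤ W x y) (hz : ∀ x y, W x y ≠ 0 → |Z x y| ≤ Z' x y) :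
    |Ex W Z| ≤ Ex W Z' := by
  rw [abs_le']
  refine ⟨Ex_mono hW fun x y h0 => (le_abs_self _).trans (hz x y h0), ?_⟩
  rw [← Ex_neg]
  exact Ex_mono hW fun x y h0 => (neg_le_abs _).trans (hz x y h0)
theorem Ex_transpose (W Z : α → α → ℝ) : Ex (fun x y => W y x) (fun x y => Z y x) = Ex W Z := by
  unfold Ex
  rw [Finset.sum_comm]
theorem Ex_swap (hW : ∀ x y, W x y = W y x) : Ex W (fun x y => Z y x) = Ex W Z := by
  rw [← Ex_transpose W Z]
  congr 1
  funext x y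
  exact hW x y
/-- Cauchy-Schwarz. -/
theorem abs_Ex_mul_le (hW : ∀ x y, 0 ≤ W x y) :
    |Ex W (fun x y => Z x y * Z' x y)|
      ≤ Real.sqrt (Ex W fun x y => Z x y ^ 2) * Real.sqrt (Ex W fun x y => Z' x y ^ 2) := by
  have h1 := pair_cs2 (fun x y => Real.sqrt (W x y) * Z x y) (fun x y => Real.sqrt (W x y) * Z' x y)
  have e1 : ∀ x y, Real.sqrt (W x y) * Z x y * (Real.sqrt (W x y) * Z' x y) = W x y * (Z x y * Z' x y) := by
    intro x y
    have := Real.mul_self_sqrt (hW x y)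
    calc _ = (Real.sqrt (W x y) * Real.sqrt (W x y)) * (Z x y * Z' x y) := by ring
      _ = _ := by rw [this]
  have e2 : ∀ (T : α → α → ℝ) x y, (Real.sqrt (W x y) * T x y) ^ 2 = W x y * T x y ^ 2 := by
    intro T x y
    rw [mul_pow, Real.sq_sqrt (hW x y)]
  simp only [e1, e2] at h1
  unfold Ex
  rw [abs_div, abs_of_nonneg (sq_nonneg (kk α)), Real.sqrt_div' _ (sq_nonneg _),
    Real.sqrt_div' _ (sq_nonneg _), div_mul_div_comm, Real.mul_self_sqrt (sq_nonneg _)]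
  exact div_le_div_of_nonneg_right h1 (sq_nonneg _)

theorem Meas.nu (hm : Meas p ϱ h sz) : NU p ϱ h := by
  have := hm.good (fun _ _ => 1) (fun x y h0 => by
    have := (hm.small x y h0).2.1
    simp only [sub_self, abs_zero]
    positivity)
  simpa only [mul_one] using this
theorem Meas.Ex_const (hm : Meas p ϱ h sz) (hk : 0 < kk α) (c : ℝ) : Ex ϱ (fun _ _ => c) = c := by
  simp only [Ex, ← Finset.sum_mul, hm.total]
  field_simp
/-- Some charged pair is at most the average. -/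
theorem Meas.exists_le (hm : Meas p ϱ h sz) (hk : 0 < kk α) (Z : α → α → ℝ) :
    ∃ x y, ϱ x y ≠ 0 ∧ Z x y ≤ Ex ϱ Z := by
  by_contra hc
  push Not at hc
  have hnn := hm.nu.nonneg
  obtain ⟨x0, y0, h0⟩ : ∃ x y, ϱ x y ≠ 0 := by
    by_contra h1
    push Not at h1
    have := hm.total
    simp only [h1, Finset.sum_const_zero] at this
    exact absurd this.symm (pow_ne_zero 2 hk.ne')
  have hle : ∀ x y, ϱ x y * Ex ϱ Z ≤ ϱ x y * Z x y := by
    intro x y
    by_cases h1 : ϱ x y = 0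
    · simp [h1]
    · exact mul_le_mul_of_nonneg_left (hc x y h1).le (hnn x y)
  have hlt : ∑ x, ∑ y, ϱ x y * Ex ϱ Z < ∑ x, ∑ y, ϱ x y * Z x y := by
    refine Finset.sum_lt_sum (fun x _ => Finset.sum_le_sum fun y _ => hle x y) ⟨x0, Finset.mem_univ _, ?_⟩
    refine Finset.sum_lt_sum (fun y _ => hle x0 y) ⟨y0, Finset.mem_univ _, ?_⟩
    exact mul_lt_mul_of_pos_left (hc x0 y0 h0) (lt_of_le_of_ne (hnn x0 y0) (Ne.symm h0))
  simp only [← Finset.sum_mul, hm.total] at hlt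
  have e : ∑ x, ∑ y, ϱ x y * Z x y = kk α ^ 2 * Ex ϱ Z := by
    unfold Ex
    field_simp
  rw [e] at hlt
  exact lt_irrefl _ hlt

/-- the difference between an average and the uniform average -/
theorem Ex_sub_unif (W Z : α → α → ℝ) :
    Ex W Z - (∑ x, ∑ y, Z x y) / kk α ^ 2 = (∑ x, ∑ y, (W x y - 1) * Z x y) / kk α ^ 2 := by
  simp only [Ex, sub_mul, one_mul, Finset.sum_sub_distrib, sub_div]

theorem pair_div_sq (a : ℝ) : a * kk α / kk α ^ 2 = a / kk α := by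
  by_cases hk : kk α = 0
  · simp [hk]
  · field_simp

namespace NU
variable (hW : NU p W h)
include hW

/-- The transposed density has the same properties (with the transposed tilt). -/
theorem swap : NU p (fun x y => W y x) (fun x y => h y x) where
  nonneg x y := hW.nonneg y x
  le x y := hW.le y x
  frob Θ := by
    have := hW.frob (fun x y => Θ y x)
    rw [Finset.sum_comm, Finset.sum_comm (f := fun x y => Θ y x ^ 2)] at this
    exact this
  bil u v := by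
    have := hW.bil v u
    rw [Finset.sum_comm, mul_right_comm] at this
    simpa only [mul_comm (v _) (u _)] using this
  row x := hW.col x
  col y := hW.row y
theorem Ex_le_unif (hz : ∀ x y, 0 ≤ Z x y) :
    Ex W Z ≤ 21 / 20 * (∑ x, ∑ y, Z x y) / kk α ^ 2 := by
  unfold Ex
  refine div_le_div_of_nonneg_right ?_ (sq_nonneg _)
  simp only [Finset.mul_sum]
  exact Finset.sum_le_sum fun x _ => Finset.sum_le_sum fun y _ =>
    mul_le_mul_of_nonneg_right (hW.le x y) (hz x y)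
theorem Ex_prod_le {φ ψ : α → ℝ} (hφ : ∀ x, 0 ≤ φ x) (hψ : ∀ x, 0 ≤ ψ x) :
    Ex W (fun x y => φ x * ψ y) ≤ 21 / 20 * (∑ x, φ x) * (∑ y, ψ y) / kk α ^ 2 := by
  have := hW.Ex_le_unif (Z := fun x y => φ x * ψ y) (fun x y => mul_nonneg (hφ x) (hψ y))
  rwa [← Finset.sum_mul_sum, ← mul_assoc] at this
theorem Ex_left_le {φ : α → ℝ} (hφ : ∀ x, 0 ≤ φ x) :
    Ex W (fun x _ => φ x) ≤ 21 / 20 * (∑ x, φ x) / kk α := by
  have := hW.Ex_prod_le (ψ := fun _ => 1) hφ (fun _ => zero_le_one)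
  rw [pair_sum_one, pair_div_sq] at this
  simpa only [mul_one] using this
theorem Ex_right_le {φ : α → ℝ} (hφ : ∀ x, 0 ≤ φ x) :
    Ex W (fun _ y => φ y) ≤ 21 / 20 * (∑ x, φ x) / kk α := by
  rw [← Ex_transpose W]
  exact hW.swap.Ex_left_le hφ
/-- `L¹` bound of a product of two pair variables. -/
theorem Ex_abs_mul_le :
    Ex W (fun x y => |Z x y| * |Z' x y|) ≤ 21 / 20 * Real.sqrt (∑ x, ∑ y, Z x y ^ 2)
      * Real.sqrt (∑ x, ∑ y, Z' x y ^ 2) / kk α ^ 2 := by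
  refine (hW.Ex_le_unif (fun x y => mul_nonneg (abs_nonneg _) (abs_nonneg _))).trans ?_
  refine div_le_div_of_nonneg_right ?_ (sq_nonneg _)
  rw [mul_assoc]
  refine mul_le_mul_of_nonneg_left ?_ (by norm_num)
  have := pair_cs2 (fun x y => |Z x y|) (fun x y => |Z' x y|)
  simp only [sq_abs] at this
  exact (le_abs_self _).trans this
/-- Mean-field value of a product variable. -/
theorem Ex_prod (φ ψ : α → ℝ) :
    |Ex W (fun x y => φ x * ψ y) - (∑ x, φ x) * (∑ y, ψ y) / kk α ^ 2|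
      ≤ p.Ups (kk α) * Real.sqrt (∑ x, φ x ^ 2) * Real.sqrt (∑ y, ψ y ^ 2) / kk α ^ 2 := by
  rw [Finset.sum_mul_sum, Ex_sub_unif, abs_div, abs_of_nonneg (sq_nonneg (kk α))]
  exact div_le_div_of_nonneg_right (hW.bil φ ψ) (sq_nonneg _)
/-- The same with the row bound (`ℓ¹` in `x`, `ℓ²` in `y`). -/
theorem Ex_prod_row (φ ψ : α → ℝ) :
    |Ex W (fun x y => φ x * ψ y) - (∑ x, φ x) * (∑ y, ψ y) / kk α ^ 2|
      ≤ Real.sqrt (p.Row (kk α)) * (∑ x, |φ x|) * Real.sqrt (∑ y, ψ y ^ 2) / kk α ^ 2 := by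
  rw [Finset.sum_mul_sum, Ex_sub_unif, abs_div, abs_of_nonneg (sq_nonneg (kk α))]
  refine div_le_div_of_nonneg_right ?_ (sq_nonneg _)
  refine (Finset.abs_sum_le_sum_abs _ _).trans ?_
  rw [Finset.mul_sum, Finset.sum_mul]
  refine Finset.sum_le_sum fun x _ => ?_
  have e : ∑ y, (W x y - 1) * (φ x * ψ y) = φ x * ∑ y, (W x y - 1) * ψ y := by
    rw [Finset.mul_sum]
    exact Finset.sum_congr rfl fun y _ => by ring
  rw [e, abs_mul, mul_comm (Real.sqrt _) |φ x|, mul_assoc]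
  refine mul_le_mul_of_nonneg_left ((pair_cs _ _).trans ?_) (abs_nonneg _)
  exact mul_le_mul_of_nonneg_right (Real.sqrt_le_sqrt (hW.row x)) (Real.sqrt_nonneg _)
theorem Ex_prod_col (φ ψ : α → ℝ) :
    |Ex W (fun x y => φ x * ψ y) - (∑ x, φ x) * (∑ y, ψ y) / kk α ^ 2|
      ≤ Real.sqrt (p.Row (kk α)) * Real.sqrt (∑ x, φ x ^ 2) * (∑ y, |ψ y|) / kk α ^ 2 := by
  have := hW.swap.Ex_prod_row ψ φ
  rw [← Ex_transpose W, mul_comm (∑ x, φ x), mul_right_comm]
  simpa only [mul_comm (φ _) (ψ _)] using this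
/-- Marginals are almost uniform. -/
theorem Ex_left (φ : α → ℝ) :
    |Ex W (fun x _ => φ x) - (∑ x, φ x) / kk α|
      ≤ Real.sqrt (p.Row (kk α) / kk α) * (∑ x, |φ x|) / kk α := by
  have := hW.Ex_prod_row φ (fun _ => 1)
  simp only [mul_one, one_pow, pair_sum_one, pair_div_sq] at this
  refine this.trans (le_of_eq ?_)
  rcases (pair_kk_nonneg α).eq_or_lt with hk | hk
  · simp [← hk]
  · rw [Real.sqrt_div' _ hk.le]
    have h1 : Real.sqrt (kk α) * Real.sqrt (kk α) = kk α := Real.mul_self_sqrt hk.le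
    have h2 : 0 < Real.sqrt (kk α) := Real.sqrt_pos.2 hk
    generalize Real.sqrt (kk α) = r at h1 h2
    rw [← h1]
    field_simp
theorem Ex_right (φ : α → ℝ) :
    |Ex W (fun _ y => φ y) - (∑ x, φ x) / kk α|
      ≤ Real.sqrt (p.Row (kk α) / kk α) * (∑ x, |φ x|) / kk α := by
  rw [← Ex_transpose W]
  exact hW.swap.Ex_left φ
theorem Ex_left' (φ : α → ℝ) :
    |Ex W (fun x _ => φ x) - (∑ x, φ x) / kk α|
      ≤ p.Ups (kk α) * Real.sqrt (∑ x, φ x ^ 2) * Real.sqrt (kk α) / kk α ^ 2 := by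
  have := hW.Ex_prod φ (fun _ => 1)
  simpa only [mul_one, one_pow, pair_sum_one, pair_div_sq] using this
theorem Ex_right' (φ : α → ℝ) :
    |Ex W (fun _ y => φ y) - (∑ x, φ x) / kk α|
      ≤ p.Ups (kk α) * Real.sqrt (∑ x, φ x ^ 2) * Real.sqrt (kk α) / kk α ^ 2 := by
  rw [← Ex_transpose W]
  exact hW.swap.Ex_left' φ
/-- Noise: a matrix `∑_z u_z a_z b_zᵀ` with zero total sum, bounded by its nuclear norm. -/
theorem Ex_noise (u : α → ℝ) (a b : α → α → ℝ)
    (h0 : ∑ x, ∑ y, ∑ z, u z * (a z x * b z y) = 0) :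
    |Ex W (fun x y => ∑ z, u z * (a z x * b z y))|
      ≤ p.Ups (kk α) * (∑ z, |u z| * (Real.sqrt (∑ x, a z x ^ 2) * Real.sqrt (∑ y, b z y ^ 2)))
        / kk α ^ 2 := by
  have e := Ex_sub_unif W (fun x y => ∑ z, u z * (a z x * b z y))
  simp only [h0, zero_div, sub_zero] at e
  rw [e, abs_div, abs_of_nonneg (sq_nonneg (kk α))]
  refine div_le_div_of_nonneg_right ?_ (sq_nonneg _)
  have e2 : ∑ x, ∑ y, (W x y - 1) * ∑ z, u z * (a z x * b z y)
      = ∑ z, u z * ∑ x, ∑ y, (W x y - 1) * (a z x * b z y) := by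
    simp only [Finset.mul_sum]
    rw [Finset.sum_comm (s := univ) (t := univ) (f := fun z x => ∑ y, u z * ((W x y - 1) * (a z x * b z y)))]
    refine Finset.sum_congr rfl fun x _ => ?_
    rw [Finset.sum_comm]
    exact Finset.sum_congr rfl fun z _ => Finset.sum_congr rfl fun y _ => by ring
  rw [e2]
  refine (Finset.abs_sum_le_sum_abs _ _).trans ?_
  rw [Finset.mul_sum]
  refine Finset.sum_le_sum fun z _ => ?_
  rw [abs_mul, mul_left_comm, ← mul_assoc (p.Ups _)]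
  exact mul_le_mul_of_nonneg_left (hW.bil (a z) (b z)) (abs_nonneg _)
theorem Ups_nonneg (hk : 0 < kk α) : 0 ≤ p.Ups (kk α) := by
  have := (abs_nonneg _).trans (hW.bil (fun _ => 1) (fun _ => 1))
  simp only [one_pow, pair_sum_one] at this
  have h2 : 0 < Real.sqrt (kk α) := Real.sqrt_pos.2 hk
  exact nonneg_of_mul_nonneg_left (nonneg_of_mul_nonneg_left this h2) h2
/-- Noise for a product `Aᵀ B` of matrices with zero total sum. -/
theorem Ex_noise_mul (A B : Matrix α α ℝ) (h0 : ∑ x, ∑ y, (Aᵀ * B) x y = 0) :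
    |Ex W (fun x y => (Aᵀ * B) x y)| ≤ p.Ups (kk α) * Real.sqrt (∑ x, ∑ y, A x y ^ 2)
      * Real.sqrt (∑ x, ∑ y, B x y ^ 2) / kk α ^ 2 := by
  have e : ∀ x y, (Aᵀ * B) x y = ∑ z, (1 : ℝ) * (A z x * B z y) := by
    intro x y
    simp only [Matrix.mul_apply, Matrix.transpose_apply, one_mul]
  simp only [e] at h0 ⊢
  refine (hW.Ex_noise (fun _ => 1) (fun z x => A z x) (fun z y => B z y) h0).trans ?_
  rcases (pair_kk_nonneg α).eq_or_lt with hk | hk
  · simp [← hk]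
  refine div_le_div_of_nonneg_right ?_ (sq_nonneg _)
  rw [mul_assoc]
  refine mul_le_mul_of_nonneg_left ?_ (hW.Ups_nonneg hk)
  have := pair_cs (fun z => Real.sqrt (∑ x, A z x ^ 2)) (fun z => Real.sqrt (∑ x, B z x ^ 2))
  have e2 : ∀ (C : Matrix α α ℝ) z, Real.sqrt (∑ x, C z x ^ 2) ^ 2 = ∑ x, C z x ^ 2 :=
    fun C z => Real.sq_sqrt (Finset.sum_nonneg fun x _ => sq_nonneg _)
  simp only [e2] at this
  simp only [abs_one, one_mul]
  exact (le_abs_self _).trans this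
/-- Noise with the tilt made explicit. -/
theorem Ex_tilt (h0 : ∑ x, ∑ y, Z x y = 0) :
    |Ex W Z - (∑ x, ∑ y, h x y * Z x y) / kk α ^ 2|
      ≤ p.Ups (kk α) * Real.sqrt (∑ x, ∑ y, Z x y ^ 2) / kk α ^ 2 := by
  have e : Ex W Z - (∑ x, ∑ y, h x y * Z x y) / kk α ^ 2
      = (∑ x, ∑ y, (W x y - 1 - h x y) * Z x y) / kk α ^ 2 := by
    simp only [Ex, sub_mul, one_mul, Finset.sum_sub_distrib, sub_div, h0, sub_zero]
  rw [e, abs_div, abs_of_nonneg (sq_nonneg (kk α))]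
  exact div_le_div_of_nonneg_right (hW.frob Z) (sq_nonneg _)

end NU

end Crest.Agent.R062
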