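import Crest.Agent.R062.Mat
import Crest.Agent.R062.Pair

/-! Consequences of `pot1 ≤ 1`, and pointwise facts on admissible pairs. -/

open Matrix Finset

namespace Crest.Agent.R062
variable {α : Type} [Fintype α] [DecidableEq α] {p : Par ℝ} {ϱ h sz : α → α → ℝ}
  {X : Matrix α α ℝ} {s : ℝ}

section nonneg
variable {k : ℝ} (hn : Num p k) (hX : X.IsSymm)
include hn hX
theorem P_nonneg (T : Finset α) : 0 ≤ P1 p k X ∧ 0 ≤ P2 p k X ∧ 0 ≤ P2l p k X ∧ 0 ≤ P3 p k X ∧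
    0 ≤ P4 p k X ∧ 0 ≤ P5 p k T X ∧ 0 ≤ P6 p k X ∧ 0 ≤ P8 p k X := by
  refine ⟨div_nonneg (by positivity) hn.stau2_pos.le, div_nonneg (sq_nonneg _) (sq_nonneg _),
    div_nonneg (tr_even_nonneg hX 1) hn.Gf_pos.le, div_nonneg (sq_nonneg _) hn.G3sq_pos.le,
    div_nonneg (tr_even_nonneg hX 2) hn.G4_pos.le,
    div_nonneg (sum_nonneg fun _ _ => sq_nonneg _) hn.GV_pos.le,
    div_nonneg (sum_nonneg fun _ _ => sq_nonneg _) hn.GR_pos.le, ?_⟩
  unfold P8; split_ifs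
  exacts [div_nonneg (sq_nonneg _) (sq_nonneg _), le_rfl]
theorem pot1_nonneg (T : Finset α) : 0 ≤ pot1 p k T X := by
  obtain ⟨h1, h2, h3, h4, h5, h6, h7, h8⟩ := P_nonneg hn hX T
  unfold pot1; linarith
theorem P9_nonneg {Y : Matrix α α ℝ} (hY : Y.IsSymm) : 0 ≤ P9 p k X Y := by
  unfold P9; split_ifs
  · rw [DD_eq hX hY]
    exact div_nonneg (sum_nonneg fun _ _ => sum_nonneg fun _ _ => sq_nonneg _) hn.GD_pos.le
  · exact le_rfl
end nonneg

namespace Sys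
variable (hn : Num p (kk α)) (hs : Sys p X)
include hn hs

theorem P_le : P1 p (kk α) X ≤ 1 ∧ P2 p (kk α) X ≤ 1 ∧ P2l p (kk α) X ≤ 1 ∧ P3 p (kk α) X ≤ 1 ∧
    P4 p (kk α) X ≤ 1 ∧ P5 p (kk α) univ X ≤ 1 ∧ P6 p (kk α) X ≤ 1 ∧ P8 p (kk α) X ≤ 1 := by
  obtain ⟨h1, h2, h3, h4, h5, h6, h7, h8⟩ := P_nonneg hn hs.symm univ
  have h := hs.pot_le
  unfold pot1 at h
  refine ⟨?_, ?_, ?_, ?_, ?_, ?_, ?_, ?_⟩ <;> linarith
theorem bounds_tau : max (tr X 1 - p.gtau (kk α)) 0 ^ 2 + max (-tr X 1) 0 ^ 2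
    ≤ p.stau (kk α) ^ 2 := by
  rw [hn.stau_sq]
  exact (div_le_one hn.stau2_pos).1 (hs.P_le hn).1
theorem tau_le : tr X 1 ≤ p.gtau (kk α) + p.stau (kk α) := by
  have h := hs.bounds_tau hn
  have h1 : max (tr X 1 - p.gtau (kk α)) 0 ^ 2 ≤ p.stau (kk α) ^ 2 := by
    linarith [sq_nonneg (max (-tr X 1) 0)]
  have h2 := (abs_le.1 (abs_le_of_sq_le_sq h1 hn.stau_pos.le)).2
  linarith [le_max_left (tr X 1 - p.gtau (kk α)) 0]
theorem le_tau : -p.stau (kk α) ≤ tr X 1 := by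
  have h := hs.bounds_tau hn
  have h1 : max (-tr X 1) 0 ^ 2 ≤ p.stau (kk α) ^ 2 := by
    linarith [sq_nonneg (max (tr X 1 - p.gtau (kk α)) 0)]
  have h2 := (abs_le.1 (abs_le_of_sq_le_sq h1 hn.stau_pos.le)).2
  linarith [le_max_left (-tr X 1) 0]
theorem abs_tau_le : |tr X 1| + 1 ≤ p.tauB (kk α) := by
  have h1 := hs.tau_le hn
  have h2 := hs.le_tau hn
  have h3 := hn.gtau_nonneg
  have h4 : |tr X 1| ≤ p.gtau (kk α) + p.stau (kk α) := abs_le.2 ⟨by linarith, h1⟩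
  unfold Par.tauB; linarith
theorem f_nonneg : 0 ≤ tr X 2 :=
  tr_even_nonneg hs.symm 1
theorem f_dev : |tr X 2 - kk α * p.F (kk α)| ≤ p.sT (kk α) :=
  abs_le_of_sq_le_sq ((div_le_one (pow_pos hn.sT_pos 2)).1 (hs.P_le hn).2.1) hn.sT_pos.le
theorem f_le : tr X 2 ≤ p.N * kk α * p.F (kk α) :=
  (div_le_one hn.Gf_pos).1 (hs.P_le hn).2.2.1
theorem bounds_phi : tr X 2 / kk α ≤ p.F (kk α) + p.sT (kk α) / kk α := by
  have h := (abs_le.1 (hs.f_dev hn)).2
  have hk := hn.k_pos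
  rw [div_le_iff₀ hk, add_mul, div_mul_cancel₀ _ hk.ne']
  linarith
theorem bounds_gap : (1 - p.F (kk α)) / 2 ≤ 1 - tr X 2 / kk α := by
  have h := hs.bounds_phi hn
  have h1 : p.sT (kk α) / kk α ≤ p.M / p.kb (kk α) / 2 := by
    unfold Par.sT; lognum hn
  rw [← hn.one_sub_F] at h1
  linarith
theorem f_le_k : tr X 2 ≤ kk α := by
  have h := hs.bounds_gap hn
  have h1 := hn.F_le_one
  exact (div_le_one hn.k_pos).1 (by linarith)
/-- `1 - tr X² / k ≥ (1 - F) / 2`. -/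
theorem half_gap : (1 - p.F (kk α)) / 2 ≤ 1 - tr X 2 / kk α :=
  hs.bounds_gap hn
theorem Fa_le : tr X 2 / kk α ≤ p.F (kk α) + 1 / p.N ^ 100 := by
  have h := hs.bounds_phi hn
  have h1 : p.sT (kk α) / kk α ≤ 1 / p.N ^ 100 := by unfold Par.sT; lognum hn
  linarith
theorem t3_le : |tr X 3| ≤ p.G3 (kk α) := by
  refine abs_le_of_sq_le_sq ?_ hn.G3_pos.le
  rw [hn.G3_sq]
  exact (div_le_one hn.G3sq_pos).1 (hs.P_le hn).2.2.2.1
theorem t3_dev (hk : p.k1 ≤ kk α) : |tr X 3 - p.T3| ≤ p.s3 := by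
  have h := (hs.P_le hn).2.2.2.2.2.2.2
  rw [P8, if_pos hk] at h
  exact abs_le_of_sq_le_sq ((div_le_one (pow_pos hn.s3_pos 2)).1 h) hn.s3_pos.le
theorem t4_le : tr X 4 ≤ p.Om (kk α) ^ 4 := by
  rw [hn.Om_pow]
  exact (div_le_one hn.G4_pos).1 (hs.P_le hn).2.2.2.2.1
theorem V_le : VV X univ (p.F (kk α)) ≤ p.GV (kk α) :=
  (div_le_one hn.GV_pos).1 (hs.P_le hn).2.2.2.2.2.1
theorem Q_le : ∑ z, rho X z ^ 2 ≤ p.N ^ 4 * kk α * p.F (kk α) := by
  have h1 : ∑ z, rho X z ^ 2 ≤ ∑ z, (2 * (rho X z - p.F (kk α)) ^ 2 + 2 * p.F (kk α) ^ 2) :=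
    sum_le_sum fun z _ => by nlinarith [sq_nonneg (rho X z - 2 * p.F (kk α))]
  rw [sum_add_distrib, ← mul_sum, sum_const, card_univ, nsmul_eq_mul] at h1
  have h2 := hs.V_le hn
  have h3 : 2 * p.GV (kk α) + kk α * (2 * p.F (kk α) ^ 2) ≤ p.N ^ 4 * kk α * p.F (kk α) := by
    lognum hn
  unfold VV at h2
  change _ ≤ _ + kk α * _ at h1
  linarith
theorem rho_le (z : α) : rho X z ≤ Real.sqrt (p.N ^ 4 * kk α * p.F (kk α)) :=
  (le_abs_self _).trans ((abs_le_sqrt_sum_sq (rho X) z).trans (Real.sqrt_le_sqrt (hs.Q_le hn)))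
theorem R_le : RR X ≤ p.N ^ 40 * p.F (kk α) :=
  (div_le_one hn.GR_pos).1 (hs.P_le hn).2.2.2.2.2.2.1
theorem Rh_le (hsg : s = 1 ∨ s = -1) : ∑ z, ah X s z ^ 2 ≤ p.N ^ 41 * p.F (kk α) := by
  have hs2 : s ^ 2 = 1 := by rcases hsg with h | h <;> simp [h]
  have h1 : ∑ z, ah X s z ^ 2 ≤ ∑ z, (2 * X z z ^ 2 + 2 * (1 / kk α ^ 2)) :=
    sum_le_sum fun z _ => by
      rw [← hs2, ← div_pow, ah]
      nlinarith [sq_nonneg (X z z - s / kk α)]
  rw [sum_add_distrib, ← mul_sum, sum_const, card_univ, nsmul_eq_mul] at h1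
  have h2 := hs.R_le hn
  have h3 : 2 * (p.N ^ 40 * p.F (kk α)) + kk α * (2 * (1 / kk α ^ 2)) ≤ p.N ^ 41 * p.F (kk α) := by
    lognum hn
  unfold RR at h2
  change _ ≤ _ + kk α * _ at h1
  linarith
theorem diag_sq_le (z : α) : X z z ^ 2 ≤ p.N ^ 40 * p.F (kk α) :=
  (single_le_sum (f := fun z => X z z ^ 2) (fun _ _ => sq_nonneg _) (mem_univ z)).trans (hs.R_le hn)
theorem ah_sq_le (hsg : s = 1 ∨ s = -1) (z : α) : ah X s z ^ 2 ≤ p.N ^ 41 * p.F (kk α) :=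
  (single_le_sum (f := fun z => ah X s z ^ 2) (fun _ _ => sq_nonneg _) (mem_univ z)).trans
    (hs.Rh_le hn hsg)
theorem sum_ah : ∑ z, ah X s z = tr X 1 + s := by
  have hk := hn.k_pos
  simp only [ah, sum_add_distrib, sum_const, card_univ, nsmul_eq_mul, tr_eq_sum, pw_one]
  change _ + kk α * _ = _
  rw [mul_div_cancel₀ _ hk.ne']
theorem entry_sq_le' (z t : α) : X z t ^ 2 ≤ p.N ^ 41 := by
  have hN := hn.N_pos
  have h0 : 1 ≤ p.N ^ 20 := one_le_pow₀ hn.one_le_N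
  have h1 : ∀ w, p.m + |X w w| ≤ 2 * p.N ^ 20 := fun w => by
    have h2 : X w w ^ 2 ≤ (p.N ^ 20) ^ 2 := by
      refine (hs.diag_sq_le hn w).trans ?_
      rw [← pow_mul]
      exact mul_le_of_le_one_right (by positivity) hn.F_le_one
    linarith [abs_le_of_sq_le_sq h2 (by positivity), hn.m_le_one]
  have h3 : 2 * p.N ^ 20 * (2 * p.N ^ 20) ≤ p.N ^ 41 := by lognum hn
  have hm := hn.m_pos
  refine ((entry_sq_le hs.symm hm.le hs.psd z t).trans ?_).trans h3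
  exact mul_le_mul (h1 z) (h1 t) (by positivity) (by positivity)
theorem bounds_row (hsg : s = 1 ∨ s = -1) (x : α) :
    ∑ y, ch X s x y ^ 2 ≤ 2 * rho X x + 2 / kk α := by
  have hs2 : s ^ 2 = 1 := by rcases hsg with h | h <;> simp [h]
  have hk := hn.k_pos
  have h1 : ∑ y, ch X s x y ^ 2 ≤ ∑ y, (2 * X x y ^ 2 + 2 * (1 / kk α ^ 2)) :=
    sum_le_sum fun y _ => by
      rw [← hs2, ← div_pow, ch]
      nlinarith [sq_nonneg (X x y - s / kk α)]
  rw [sum_add_distrib, ← mul_sum, sum_const, card_univ, nsmul_eq_mul, ← rho_eq hs.symm] at h1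
  change _ ≤ _ + kk α * _ at h1
  refine h1.trans_eq ?_
  field_simp
theorem ch_sq_sum (hsg : s = 1 ∨ s = -1) :
    ∑ x, ∑ y, ch X s x y ^ 2 ≤ 2 * tr X 2 + 2 := by
  have hk := hn.k_pos
  refine (sum_le_sum fun x _ => hs.bounds_row hn hsg x).trans_eq ?_
  rw [sum_add_distrib, ← mul_sum, sum_const, card_univ, nsmul_eq_mul, sum_rho]
  change _ + kk α * _ = _
  rw [mul_div_cancel₀ _ hk.ne']
theorem ch_sq_row (hsg : s = 1 ∨ s = -1) (x : α) :
    ∑ y, ch X s x y ^ 2 ≤ 2 * rho X x + 2 / kk α :=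
  hs.bounds_row hn hsg x
/-- Entrywise fourth moment: at most about half of `tr X²`. -/
theorem U_le : ∑ z, ∑ t, X z t ^ 4 ≤ 21 / 40 * tr X 2 + kk α * p.F (kk α) / p.N ^ 100 := by
  have h1 := sum_four_le hs.symm hn.m_pos.le hs.psd
  have h2 : 21 * (p.N ^ 40 * p.F (kk α)) * Real.sqrt (p.N ^ 4 * kk α * p.F (kk α)) ≤
      kk α * p.F (kk α) / p.N ^ 100 := by lognum hn
  have hN := hn.N_pos
  have hF := hn.F_pos
  have h3 : 21 * RR X * Real.sqrt (∑ z, rho X z ^ 2) ≤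
      21 * (p.N ^ 40 * p.F (kk α)) * Real.sqrt (p.N ^ 4 * kk α * p.F (kk α)) :=
    mul_le_mul (by linarith [hs.R_le hn]) (Real.sqrt_le_sqrt (hs.Q_le hn)) (Real.sqrt_nonneg _)
      (by positivity)
  have h4 := mul_le_mul_of_nonneg_right hn.m_hi (hs.f_nonneg hn)
  linarith

end Sys

namespace Ctx
variable (c : Ctx p ϱ h sz X s)
include c

theorem nu : NU p ϱ h := c.meas.nu
theorem s_sq : s ^ 2 = 1 := by rcases c.sgn with h | h <;> simp [h]
theorem abs_s : |s| = 1 := by rcases c.sgn with h | h <;> simp [h]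

section pointwise
variable {x y : α} (hxy : ϱ x y ≠ 0)
include hxy
theorem ne : x ≠ y := (c.meas.small x y hxy).1
theorem abs_ch_le : |ch X s x y| ≤ 1 / 2500 := by
  linarith [(c.adm x y hxy).1, (c.meas.small x y hxy).2.2, abs_nonneg (ah X s x * ah X s y)]
theorem abs_ahah_le : |ah X s x * ah X s y| ≤ 1 / 2500 := by
  linarith [(c.adm x y hxy).1, (c.meas.small x y hxy).2.2, abs_nonneg (ch X s x y)]
theorem abs_c_le : |X x y| ≤ 1 / 1000 := by
  have h1 := c.abs_ch_le hxy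
  have hk := c.num.k_big
  have h2 : |s / kk α| ≤ 1 / 2500 := by
    rw [abs_div, c.abs_s, abs_of_pos c.num.k_pos]
    exact one_div_le_one_div_of_le (by norm_num) (by linarith)
  have h3 : X x y = ch X s x y - s / kk α := by rw [ch]; ring
  rw [h3]
  linarith [abs_sub (ch X s x y) (s / kk α)]
omit hxy in
theorem bounds_Del : Del X s x y =
    1 - 2 * (s * ch X s x y) + ch X s x y ^ 2 - ah X s x * ah X s y := by
  rw [Del, ← c.s_sq]; ring
omit hxy in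
theorem bounds_sc : |s * ch X s x y| = |ch X s x y| := by rw [abs_mul, c.abs_s, one_mul]
theorem bounds_sq : ch X s x y ^ 2 ≤ 1 / 2500 * |ch X s x y| := by
  rw [← sq_abs, sq]
  exact mul_le_mul_of_nonneg_right (c.abs_ch_le hxy) (abs_nonneg _)
theorem Del_ge : 99 / 100 ≤ Del X s x y := by
  have h1 := c.abs_ch_le hxy
  have h2 := (abs_le.1 (c.abs_ahah_le hxy)).2
  rw [← c.bounds_sc] at h1
  rw [c.bounds_Del]
  linarith [(abs_le.1 h1).2, sq_nonneg (ch X s x y)]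
theorem Del_pos : 0 < Del X s x y :=
  lt_of_lt_of_le (by norm_num) (c.Del_ge hxy)
theorem inv_Del : |1 / Del X s x y - 1| ≤ 3 * (|ch X s x y| + |ah X s x * ah X s y|) := by
  have hD := c.Del_pos hxy
  have h0 := mul_le_mul_of_nonneg_left (c.Del_ge hxy)
    (add_nonneg (abs_nonneg (ch X s x y)) (abs_nonneg (ah X s x * ah X s y)))
  have h1 : |1 - Del X s x y| ≤ 99 / 100 * 3 * (|ch X s x y| + |ah X s x * ah X s y|) := by
    have h2 := abs_le.1 (c.bounds_sc (x := x) (y := y)).le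
    have h3 := abs_le.1 (le_refl |ah X s x * ah X s y|)
    have h4 := c.bounds_sq hxy
    have h5 := sq_nonneg (ch X s x y)
    have h6 := abs_nonneg (ch X s x y)
    have h7 := abs_nonneg (ah X s x * ah X s y)
    rw [c.bounds_Del, abs_le]
    constructor <;> linarith [h2.1, h2.2, h3.1, h3.2]
  rw [div_sub_one hD.ne', abs_div, abs_of_pos hD, div_le_iff₀ hD]
  linarith
theorem s_eta : |s * eta X s x y - 1| ≤ 4 * (|ch X s x y| + |ah X s x * ah X s y|) := by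
  have hD := c.Del_pos hxy
  have h0 := mul_le_mul_of_nonneg_left (c.Del_ge hxy)
    (add_nonneg (abs_nonneg (ch X s x y)) (abs_nonneg (ah X s x * ah X s y)))
  have h1 : |s * (s - ch X s x y) - Del X s x y| ≤
      99 / 100 * 4 * (|ch X s x y| + |ah X s x * ah X s y|) := by
    have h2 := abs_le.1 (c.bounds_sc (x := x) (y := y)).le
    have h3 := abs_le.1 (le_refl |ah X s x * ah X s y|)
    have h4 := c.bounds_sq hxy
    have h5 := sq_nonneg (ch X s x y)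
    have h6 := abs_nonneg (ch X s x y)
    have h7 := abs_nonneg (ah X s x * ah X s y)
    rw [c.bounds_Del, mul_sub, ← sq, c.s_sq, abs_le]
    constructor <;> linarith [h2.1, h2.2, h3.1, h3.2]
  rw [eta, ← mul_div_assoc, div_sub_one hD.ne', abs_div, abs_of_pos hD, div_le_iff₀ hD]
  linarith
theorem abs_eta_le : |eta X s x y| ≤ 101 / 100 := by
  have h1 := c.s_eta hxy
  have h2 : |eta X s x y| = |s * eta X s x y| := by rw [abs_mul, c.abs_s, one_mul]
  have h3 := c.abs_ch_le hxy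
  have h4 := c.abs_ahah_le hxy
  rw [h2, abs_le]
  constructor <;> linarith [(abs_le.1 h1).1, (abs_le.1 h1).2]
theorem abs_e11_le : |e11 X s x y| ≤ 102 / 100 * |ah X s y| := by
  have hD := c.Del_pos hxy
  have h0 := mul_le_mul_of_nonneg_left (c.Del_ge hxy) (abs_nonneg (ah X s y))
  rw [e11, abs_div, abs_of_pos hD, div_le_iff₀ hD]
  linarith [abs_nonneg (ah X s y)]
theorem abs_e22_le : |e22 X s x y| ≤ 102 / 100 * |ah X s x| := by
  have hD := c.Del_pos hxy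
  have h0 := mul_le_mul_of_nonneg_left (c.Del_ge hxy) (abs_nonneg (ah X s x))
  rw [e22, abs_div, abs_of_pos hD, div_le_iff₀ hD]
  linarith [abs_nonneg (ah X s x)]
theorem J1_le : J1 X s x y ≤ p.L (kk α) := (c.adm x y hxy).2
end pointwise

/-- The densities obtained from the pivot factors. -/
theorem nu_invDel : NU p (fun x y => ϱ x y * (1 / Del X s x y)) h :=
  c.meas.good _ fun x y hxy => by
    linarith [c.inv_Del hxy, (c.adm x y hxy).1, (c.meas.small x y hxy).2.1]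
theorem nu_eta : NU p (fun x y => ϱ x y * (s * eta X s x y)) h :=
  c.meas.good _ fun x y hxy => by
    linarith [c.s_eta hxy, (c.adm x y hxy).1, (c.meas.small x y hxy).2.1]
theorem nu_eta_sq : NU p (fun x y => ϱ x y * eta X s x y ^ 2) h := by
  refine c.meas.good _ fun x y hxy => ?_
  have h1 : eta X s x y ^ 2 - 1 = (s * eta X s x y - 1) * (s * eta X s x y + 1) := by
    linear_combination (-eta X s x y ^ 2) * c.s_sq
  have h2 : |s * eta X s x y + 1| ≤ 3 := by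
    refine (abs_add_le _ _).trans ?_
    rw [abs_mul, c.abs_s, one_mul, abs_one]
    linarith [c.abs_eta_le hxy]
  have h3 := mul_le_mul_of_nonneg_left h2 (abs_nonneg (s * eta X s x y - 1))
  rw [h1, abs_mul]
  linarith [c.s_eta hxy, (c.adm x y hxy).1, (c.meas.small x y hxy).2.1]

end Ctx

end Crest.Agent.R062
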