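import Crest.Agent.R062.State
import Crest.Prelude.Def_GraphCode

/-! Combinatorics of matchings of stubs. -/

open Matrix Finset

namespace Crest.Agent.R062
variable {d n : ℕ} {l L : St}

theorem adjV_comm (d : ℕ) (l : St) (u v : ℕ) : adjV d l u v = adjV d l v u := by
  simp only [adjV, Bool.or_comm]

theorem adjV_iff {d : ℕ} {l : St} {u v : ℕ} : adjV d l u v = true ↔
    ∃ e ∈ l, (e.1 / d = u ∧ e.2 / d = v) ∨ (e.1 / d = v ∧ e.2 / d = u) := by
  simp [adjV, List.any_eq_true]

theorem used_nil : used [] = [] := rfl

theorem used_cons' (e : ℕ × ℕ) (l : St) : used (e :: l) = e.1 :: e.2 :: used l := by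
  simp [used]

theorem used_perm_map (l : St) : (used l).Perm (l.map Prod.fst ++ l.map Prod.snd) := by
  induction l with
  | nil => simp [used]
  | cons e l ih =>
    rw [used_cons']
    simp only [List.map_cons, List.cons_append]
    exact ((ih.cons e.2).trans List.perm_middle.symm).cons e.1

theorem used_perm {l l' : St} (h : l.Perm l') : (used l).Perm (used l') :=
  h.flatMap_right _

theorem fst_mem_used {e : ℕ × ℕ} (h : e ∈ l) : e.1 ∈ used l :=
  List.mem_flatMap.2 ⟨e, h, by simp⟩

theorem snd_mem_used {e : ℕ × ℕ} (h : e ∈ l) : e.2 ∈ used l :=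
  List.mem_flatMap.2 ⟨e, h, by simp⟩

theorem countP_le_card_of_nodup {u : List ℕ} (hu : u.Nodup) (p : ℕ → Bool) (T : Finset ℕ)
    (h : ∀ z ∈ u, p z = true → z ∈ T) : u.countP p ≤ T.card := by
  rw [List.countP_eq_length_filter, ← List.toFinset_card_of_nodup (hu.filter p)]
  refine card_le_card fun z hz => ?_
  rw [List.mem_toFinset, List.mem_filter] at hz
  exact h z hz.1 hz.2

theorem div_eq_iff_mem_Ico (hd : 0 < d) {z v : ℕ} : z / d = v ↔ z ∈ Ico (v * d) (v * d + d) := by
  rw [mem_Ico, Nat.div_eq_iff hd]
  omega

theorem exists_nbrs (d : ℕ) (l : St) (u : ℕ) : ∃ N : Finset ℕ,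
    (∀ v, adjV d l u v = true → v ∈ N) ∧
      N.card ≤ (used l).countP fun z => decide (z / d = u) := by
  refine ⟨((l.filter fun e => decide (e.1 / d = u)).map (fun e => e.2 / d) ++
    (l.filter fun e => decide (e.2 / d = u)).map (fun e => e.1 / d)).toFinset, ?_, ?_⟩
  · intro v hv
    obtain ⟨e, he, h | h⟩ := adjV_iff.1 hv
    · simp only [List.mem_toFinset, List.mem_append, List.mem_map, List.mem_filter,
        decide_eq_true_eq]
      exact Or.inl ⟨e, ⟨he, h.1⟩, h.2⟩
    · simp only [List.mem_toFinset, List.mem_append, List.mem_map, List.mem_filter,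
        decide_eq_true_eq]
      exact Or.inr ⟨e, ⟨he, h.2⟩, h.1⟩
  · refine (List.toFinset_card_le _).trans (le_of_eq ?_)
    rw [(used_perm_map l).countP_eq, List.countP_append, List.length_append, List.length_map,
      List.length_map, List.countP_map, List.countP_map, List.countP_eq_length_filter,
      List.countP_eq_length_filter]
    rfl

theorem okPair_comm (d : ℕ) (l : St) (x y : ℕ) : okPair d l x y = okPair d l y x := by
  simp only [okPair, adjV_comm d l (x / d), BEq.comm (a := x / d)]

/-- Few partners are forbidden. -/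
theorem card_not_ok (hd : 0 < d) (hl : (used l).Nodup) (x : ℕ) (S : Finset ℕ) :
    (S.filter fun y => okPair d l x y = false).card ≤ d + d ^ 2 := by
  obtain ⟨N, hN, hc⟩ := exists_nbrs d l (x / d)
  have hc' : N.card ≤ d := by
    refine hc.trans ((countP_le_card_of_nodup hl _ (Ico (x / d * d) (x / d * d + d)) ?_).trans ?_)
    · intro z _ hz
      exact (div_eq_iff_mem_Ico hd).1 (by simpa using hz)
    · simp
  have hsub : (S.filter fun y => okPair d l x y = false) ⊆
      (insert (x / d) N).biUnion fun v => Ico (v * d) (v * d + d) := by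
    intro y hy
    rw [mem_filter] at hy
    refine mem_biUnion.2 ⟨y / d, ?_, (div_eq_iff_mem_Ico hd).1 rfl⟩
    by_cases h : x / d = y / d
    · rw [h]; exact mem_insert_self _ _
    · refine mem_insert_of_mem (hN _ ?_)
      have := hy.2
      simpa [okPair, h] using this
  refine (card_le_card hsub).trans ((card_biUnion_le_card_mul _ _ d fun v _ => by simp).trans ?_)
  have := card_insert_le (x / d) N
  calc (insert (x / d) N).card * d ≤ (d + 1) * d := Nat.mul_le_mul_right _ (by omega)
    _ = d + d ^ 2 := by ring

theorem mem_cands {e : ℕ × ℕ} :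
    e ∈ cands d n l ↔ ∃ x y : Fin (n * d), valid d n l x y ∧ e = ((x : ℕ), (y : ℕ)) := by
  simp only [cands, List.mem_flatten, List.mem_ofFn]
  constructor
  · rintro ⟨_, ⟨x, rfl⟩, he⟩
    obtain ⟨_, hm, he⟩ := List.mem_flatten.1 he
    obtain ⟨y, rfl⟩ := List.mem_ofFn.1 hm
    by_cases hv : valid d n l x y
    · rw [if_pos hv] at he
      exact ⟨x, y, hv, by simpa using he⟩
    · rw [if_neg hv] at he
      simp at he
  · rintro ⟨x, y, hv, rfl⟩
    refine ⟨_, ⟨x, rfl⟩, List.mem_flatten.2 ⟨_, List.mem_ofFn.2 ⟨y, rfl⟩, ?_⟩⟩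
    rw [if_pos hv]
    simp

/-- The greedy step makes an allowed move that is at least as good as a given one. -/
theorem gstep_spec {x y : Fin (n * d)} (hv : valid d n l x y) :
    ∃ x' y' : Fin (n * d), valid d n l x' y' ∧ gstep d n l = ((x' : ℕ), (y' : ℕ)) :: l ∧
      Phi d n (((x' : ℕ), (y' : ℕ)) :: l) ≤ Phi d n (((x : ℕ), (y : ℕ)) :: l) := by
  have hm : ((x : ℕ), (y : ℕ)) ∈ cands d n l := mem_cands.2 ⟨x, y, hv, rfl⟩
  cases h : (cands d n l).argmin fun e => Phi d n (e :: l) with
  | none =>
    rw [List.argmin_eq_none] at h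
    rw [h] at hm
    simp at hm
  | some e =>
    obtain ⟨x', y', hv', rfl⟩ := mem_cands.1 (List.argmin_mem h)
    refine ⟨x', y', hv', by simp [gstep, h], ?_⟩
    exact List.le_of_mem_argmin (f := fun e => Phi d n (e :: l)) hm h

theorem fixStep_cases (ok : ℕ → ℕ → Bool) (L : St) :
    (fixStep ok L = L ∧ ((∀ e ∈ L, ok e.1 e.2 = true) ∨
      ∃ e ∈ L, ∀ e' ∈ L.erase e, ok e.1 e'.1 = false ∨ ok e.2 e'.2 = false)) ∨
    ∃ e ∈ L, ∃ e' ∈ L.erase e, ok e.1 e.2 = false ∧ ok e.1 e'.1 = true ∧ ok e.2 e'.2 = true ∧
      fixStep ok L = (e.1, e'.1) :: (e.2, e'.2) :: (L.erase e).erase e' := by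
  cases h : L.find? fun e => !ok e.1 e.2 with
  | none =>
    left
    refine ⟨by simp [fixStep, h], Or.inl fun e he => ?_⟩
    simpa using List.find?_eq_none.1 h e he
  | some e =>
    have he := List.mem_of_find?_eq_some h
    have hb := List.find?_some h
    cases h' : (L.erase e).find? fun e' => ok e.1 e'.1 && ok e.2 e'.2 with
    | none =>
      left
      refine ⟨by simp [fixStep, h, h'], Or.inr ⟨e, he, fun e' he' => ?_⟩⟩
      have := List.find?_eq_none.1 h' e' he'
      by_cases h1 : ok e.1 e'.1 = true
      · right; simpa [h1] using this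
      · left; simpa using h1
    | some e' =>
      right
      have he' := List.mem_of_find?_eq_some h'
      have hb' := List.find?_some h'
      simp only [Bool.and_eq_true] at hb'
      exact ⟨e, he, e', he', by simpa using hb, hb'.1, hb'.2, by simp [fixStep, h, h']⟩

theorem fixStep_perm (ok : ℕ → ℕ → Bool) (L : St) : (used (fixStep ok L)).Perm (used L) := by
  rcases fixStep_cases ok L with h | ⟨e, he, e', he', -, -, -, h⟩
  · rw [h.1]
  · rw [h]
    have h1 : L.Perm (e :: e' :: (L.erase e).erase e') :=
      (List.perm_cons_erase he).trans ((List.perm_cons_erase he').cons e)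
    refine List.Perm.trans ?_ (used_perm h1).symm
    simp only [used_cons']
    exact (List.Perm.swap _ _ _).cons _

theorem length_used' (l : St) : (used l).length = 2 * l.length := by
  rw [(used_perm_map l).length_eq]
  simp [two_mul]

theorem fixStep_bad (ok : ℕ → ℕ → Bool) (L : St) (D : ℕ) (hu : (used L).Nodup)
    (hD : ∀ a ∈ used L, ((used L).toFinset.filter fun b => ok a b = false).card ≤ D)
    (hlen : 2 * D + 2 ≤ L.length) :
    (fixStep ok L).countP (fun e => !ok e.1 e.2) ≤ L.countP (fun e => !ok e.1 e.2) - 1 := by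
  rcases fixStep_cases ok L with ⟨h, h0 | ⟨e, he, h0⟩⟩ | ⟨e, he, e', he', hb, h1, h2, h⟩
  · rw [h, List.countP_eq_zero.2 fun e he => by simp [h0 e he]]
  · exfalso
    have hM : (used (L.erase e)).Nodup := by
      have := (used_perm (List.perm_cons_erase he)).nodup_iff.1 hu
      rw [used_cons'] at this
      exact this.of_cons.of_cons
    have hM' := (used_perm_map _).nodup_iff.1 hM
    have hc1 : ((L.erase e).map Prod.fst).countP (fun b => !ok e.1 b) ≤ D := by
      refine (countP_le_card_of_nodup hM'.of_append_left _ _ ?_).trans (hD _ (fst_mem_used he))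
      intro z hz hp
      obtain ⟨e', he', rfl⟩ := List.mem_map.1 hz
      exact mem_filter.2 ⟨List.mem_toFinset.2 (fst_mem_used (List.mem_of_mem_erase he')),
        by simpa using hp⟩
    have hc2 : ((L.erase e).map Prod.snd).countP (fun b => !ok e.2 b) ≤ D := by
      refine (countP_le_card_of_nodup hM'.of_append_right _ _ ?_).trans (hD _ (snd_mem_used he))
      intro z hz hp
      obtain ⟨e', he', rfl⟩ := List.mem_map.1 hz
      exact mem_filter.2 ⟨List.mem_toFinset.2 (snd_mem_used (List.mem_of_mem_erase he')),
        by simpa using hp⟩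
    rw [List.countP_map] at hc1 hc2
    have hl : ∀ M : St, (∀ e' ∈ M, ok e.1 e'.1 = false ∨ ok e.2 e'.2 = false) →
        M.length ≤ M.countP ((fun b => !ok e.1 b) ∘ Prod.fst) +
          M.countP ((fun b => !ok e.2 b) ∘ Prod.snd) := by
      intro M hM
      induction M with
      | nil => simp
      | cons a M ih =>
        have := ih fun e' he' => hM e' (List.mem_cons_of_mem _ he')
        rw [List.countP_cons, List.countP_cons, List.length_cons]
        rcases hM a List.mem_cons_self with h | h
        · simp only [Function.comp, h, Bool.not_false, if_true] at this ⊢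
          omega
        · simp only [Function.comp, h, Bool.not_false, if_true] at this ⊢
          omega
    have := hl _ h0
    rw [List.length_erase_of_mem he] at this
    omega
  · rw [h, (List.perm_cons_erase he).countP_eq]
    have := (List.erase_sublist (a := e') (l := L.erase e)).countP_le
      (p := fun e => !ok e.1 e.2)
    simp only [List.countP_cons, h1, h2, hb, Bool.not_true, Bool.not_false, if_true,
      Bool.false_eq_true, if_false]
    omega

/-- The completion is a perfect matching without forbidden pairs. -/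
theorem complete_spec (ok : ℕ → ℕ → Bool) (u : List ℕ) (D : ℕ) (hu : u.Nodup)
    (he : Even u.length) (hD : ∀ a ∈ u, (u.toFinset.filter fun b => ok a b = false).card ≤ D)
    (hlen : 4 * D + 4 ≤ u.length) :
    (used (complete ok u)).Perm u ∧ ∀ e ∈ complete ok u, ok e.1 e.2 = true := by
  obtain ⟨m, hm⟩ := he
  set L₀ : St := (u.take (u.length / 2)).zip (u.drop (u.length / 2)) with hL₀
  have hlt : (u.take (u.length / 2)).length = (u.drop (u.length / 2)).length := by
    simp only [List.length_take, List.length_drop]; omega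
  have h0 : (used L₀).Perm u := by
    refine (used_perm_map _).trans ?_
    rw [hL₀, List.map_fst_zip hlt.le, List.map_snd_zip hlt.ge, List.take_append_drop]
  have key : ∀ i, (used ((fixStep ok)^[i] L₀)).Perm u ∧
      ((fixStep ok)^[i] L₀).countP (fun e => !ok e.1 e.2) ≤ u.length - i := by
    intro i
    induction i with
    | zero =>
      refine ⟨h0, List.countP_le_length.trans ?_⟩
      have := h0.length_eq
      rw [length_used'] at this
      simp only [Function.iterate_zero, id]
      omega
    | succ i ih =>
      rw [Function.iterate_succ_apply']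
      refine ⟨(fixStep_perm _ _).trans ih.1, ?_⟩
      have h1 := ih.1.length_eq
      rw [length_used'] at h1
      have := fixStep_bad ok ((fixStep ok)^[i] L₀) D (ih.1.nodup_iff.2 hu)
        (fun a ha => by rw [List.toFinset_eq_of_perm _ _ ih.1]; exact hD a (ih.1.subset ha))
        (by omega)
      have := ih.2
      omega
  refine ⟨(key _).1, fun e he => ?_⟩
  have := (key u.length).2
  rw [Nat.sub_self, Nat.le_zero, List.countP_eq_zero] at this
  simpa using this e he

theorem freeL_nodup (k₀ : ℕ) (l : St) : (freeL k₀ l).Nodup :=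
  List.nodup_range.filter _

theorem freeL_append_perm {k₀ : ℕ} (hl : (used l).Nodup) (hlt : ∀ z ∈ used l, z < k₀) :
    (freeL k₀ l ++ used l).Perm (List.range k₀) := by
  have hmem : ∀ z, z ∈ freeL k₀ l ↔ z < k₀ ∧ z ∉ used l := by
    intro z; simp [freeL]
  refine (List.perm_ext_iff_of_nodup ?_ List.nodup_range).2 fun z => ?_
  · refine List.nodup_append.2 ⟨freeL_nodup _ _, hl, ?_⟩
    rintro a ha b hb rfl
    exact ((hmem a).1 ha).2 hb
  · rw [List.mem_append, hmem, List.mem_range]
    constructor
    · rintro (h | h)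
      · exact h.1
      · exact hlt z h
    · intro h
      by_cases hz : z ∈ used l
      · exact Or.inr hz
      · exact Or.inl ⟨h, hz⟩

theorem used_append (L l : St) : used (L ++ l) = used L ++ used l := by
  simp [used]

theorem length_used (l : St) : (used l).length = 2 * l.length := length_used' l

/-- New pairs at pairwise distinct vertices keep the graph simple. -/
theorem Simple.append (hl : Simple d l) (hL : ∀ e ∈ L, okPair d l e.1 e.2 = true)
    (hv : ((used L).map fun z => z / d).Nodup) : Simple d (L ++ l) := by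
  induction L with
  | nil => exact hl
  | cons e L ih =>
    rw [used_cons', List.map_cons, List.map_cons] at hv
    refine ⟨?_, ih (fun e he => hL e (List.mem_cons_of_mem _ he)) hv.of_cons.of_cons⟩
    have h1 := hL e List.mem_cons_self
    have h2 : e.1 / d ∉ (used L).map fun z => z / d := fun h =>
      hv.notMem (List.mem_cons_of_mem _ h)
    simp only [okPair, Bool.and_eq_true, Bool.not_eq_true'] at h1 ⊢
    refine ⟨h1.1, ?_⟩
    rw [← Bool.not_eq_true, adjV_iff]
    rintro ⟨e', he', h⟩
    rcases List.mem_append.1 he' with he' | he'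
    · rcases h with h | h
      · exact h2 (List.mem_map.2 ⟨_, fst_mem_used he', h.1⟩)
      · exact h2 (List.mem_map.2 ⟨_, snd_mem_used he', h.2⟩)
    · have := adjV_iff.2 ⟨e', he', h⟩
      rw [h1.2] at this
      exact Bool.false_ne_true this

theorem edgeSum_cons (x : Fin n → ℝ) (e : ℕ × ℕ) :
    edgeSum d x (e :: l) = lift x (e.1 / d) * lift x (e.2 / d) + edgeSum d x l := by
  simp [edgeSum]

theorem edgeSum_append (x : Fin n → ℝ) : edgeSum d x (L ++ l) = edgeSum d x L + edgeSum d x l := by
  simp [edgeSum]

/-- A perfect matching of `u` has quadratic form at most the centred square norm. -/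
theorem matching_le (g : ℕ → ℝ) {s : ℝ} (hs : s = 1 ∨ s = -1) (L : St) :
    2 * s * (L.map fun e => g e.1 * g e.2).sum
      ≤ ((used L).map fun z => g z ^ 2).sum - ((used L).map g).sum ^ 2 / ((used L).length : ℝ)
        + s * ((used L).map g).sum ^ 2 / ((used L).length : ℝ) := by
  have key : ∀ (μ : ℝ) (L : St), 2 * s * (L.map fun e => g e.1 * g e.2).sum
      - 2 * s * μ * ((used L).map g).sum + s * ((used L).length : ℝ) * μ ^ 2
      ≤ ((used L).map fun z => g z ^ 2).sum - 2 * μ * ((used L).map g).sum
        + ((used L).length : ℝ) * μ ^ 2 := by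
    intro μ L
    induction L with
    | nil => simp [used]
    | cons e L ih =>
      simp only [used_cons', List.map_cons, List.sum_cons, List.length_cons]
      push_cast
      rcases hs with rfl | rfl
      · nlinarith [sq_nonneg (g e.1 - g e.2)]
      · nlinarith [sq_nonneg (g e.1 + g e.2 - 2 * μ)]
  by_cases h0 : ((used L).length : ℝ) = 0
  · have := key 0 L
    simpa [h0] using this
  · have := key (((used L).map g).sum / ((used L).length : ℝ)) L
    set S := ((used L).map g).sum
    set N := ((used L).length : ℝ)
    have e1 : S / N * S = S ^ 2 / N := by ring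
    have e2 : N * (S / N) ^ 2 = S ^ 2 / N := by field_simp
    have e3 : s * S ^ 2 / N = s * (S ^ 2 / N) := by ring
    rw [mul_assoc (2 * s), mul_assoc s, mul_assoc 2 (S / N), e1, e2] at this
    rw [e3]
    linarith

end Crest.Agent.R062
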