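import Crest.Agent.R062.DDAux2

/-! Drift of the cross term `tr (X ^ 2 * Y ^ 2)`. -/

open Matrix Finset

namespace Crest.Agent.R062
variable {α : Type} [Fintype α] [DecidableEq α] {p : Par ℝ} {ϱ h sz : α → α → ℝ}
  {X Y : Matrix α α ℝ} {s : ℝ}

theorem dd_abs_Ex_mul {W : α → α → ℝ} (hW : NU p W h) {U V : α → α → ℝ} {a b : ℝ}
    (ha : ∑ x, ∑ y, U x y ^ 2 ≤ a) (hb : ∑ x, ∑ y, V x y ^ 2 ≤ b) :
    |Ex W (fun x y => U x y * V x y)| ≤ 2 * √a * √b / kk α ^ 2 :=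
  (abs_Ex_le hW.nonneg fun _ _ _ => (abs_mul _ _).le).trans (dd_Ex_abs hW ha hb)

theorem dd_neg_mul_le {a b k c : ℝ} (hk : 0 ≤ k) (ha : -k ≤ a) (hb : -k ≤ b) (ha' : |a| ≤ c)
    (hb' : |b| ≤ c) : -(a * b) ≤ k * c := by
  obtain ⟨a1, a2⟩ := abs_le.1 ha'
  obtain ⟨b1, b2⟩ := abs_le.1 hb'
  have hc : 0 ≤ c := (abs_nonneg a).trans ha'
  rcases le_total 0 a with h1 | h1 <;> rcases le_total 0 b with h2 | h2 <;> nlinarith

theorem dd_C_sq {z c a b s : ℝ} (hs : s ^ 2 = 1) (hz : z ^ 2 ≤ a * b) (hc : c ^ 2 ≤ a)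
    (hb : 0 ≤ b) : (z - s * c) ^ 2 ≤ 2 * ((1 + a) * (1 + b)) := by
  have h1 : (s * c) ^ 2 = c ^ 2 := by rw [mul_pow, hs, one_mul]
  nlinarith [sq_nonneg (z + s * c)]

theorem dd_k2 {κ₁ κ₂ : ℝ} (h1 : |κ₁| ≤ 102 / 100) (h2 : |κ₂| ≤ 102 / 100) (U V : ℝ) :
    κ₁ * κ₂ * (U * V) ≤ 2 * (|U| * |V|) := by
  refine (le_abs_self _).trans ?_
  rw [abs_mul, abs_mul, abs_mul]
  exact mul_le_mul_of_nonneg_right ((mul_le_mul h1 h2 (abs_nonneg _) (by norm_num)).trans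
    (by norm_num)) (by positivity)

section two
variable {s' : ℝ} (cX : Ctx p ϱ h sz X s) (cY : Ctx p ϱ h sz Y s')
include cX cY

theorem dd_transpose : (X * Y)ᵀ = Y * X := by rw [transpose_mul, cX.sys.symm.eq, cY.sys.symm.eq]

theorem dd_rr : ∑ x, ddNr X x * ddNr Y x ≤ p.N ^ 4 * kk α * p.F (kk α) := by
  refine (sum_le_sum (g := fun x => 1 / 2 * ddNr X x ^ 2 + 1 / 2 * ddNr Y x ^ 2)
    fun x _ => by nlinarith [sq_nonneg (ddNr X x - ddNr Y x)]).trans ?_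
  rw [sum_add_distrib, ← mul_sum, ← mul_sum]
  linarith [cX.dd_Q_le, cY.dd_Q_le]

omit cX in
theorem dd_Z_sq (x y : α) : (X * Y) x y ^ 2 ≤ ddNr X x * ddNr Y y := by
  have := dd_entry_sq_le X Y x y
  rwa [cY.sys.symm.eq] at this

theorem dd_diag : ∑ x, (X * Y) x x ^ 2 ≤ p.N ^ 4 * kk α * p.F (kk α) :=
  (sum_le_sum fun x _ => dd_Z_sq cY x x).trans (dd_rr cX cY)

theorem dd_Adiag : ∑ x, (X * (X * Y)) x x ^ 2
    ≤ p.Om (kk α) ^ 2 * (p.N ^ 4 * kk α * p.F (kk α)) := by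
  refine le_trans ?_ (mul_le_mul_of_nonneg_left (dd_rr cX cY) (sq_nonneg _))
  rw [mul_sum]
  refine sum_le_sum fun x _ => (dd_entry_sq_le X (X * Y)ᵀ x x).trans ?_
  rw [mul_left_comm]
  refine mul_le_mul_of_nonneg_left ?_ (ddNr_nonneg X x)
  have := mulVec_sq_le cX.sys.symm cX.num.Om_pos.le (cX.sys.t4_le cX.num) (Yᵀ x)
  conv at this => rhs; rw [cY.sys.symm.eq]
  exact this

theorem dd_trA_ge : -kk α ≤ ∑ x, (X * (X * Y)) x x := by
  have h1 := trace_sq_mul_ge cX.sys.symm cY.sys.psd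
  rw [sq, Matrix.mul_assoc] at h1
  refine le_trans (neg_le_neg ?_) h1
  exact (mul_le_of_le_one_left (cX.sys.f_nonneg cX.num) cX.num.m_le_one).trans
    (cX.sys.f_le_k cX.num)

omit cY in
theorem dd_trA_abs {Z : Matrix α α ℝ} (hZ : ddFr Z ≤ p.GD) :
    |∑ x, (X * Z) x x| ≤ √(kk α) * √p.GD := by
  refine ((abs_sum_le_sum_abs _ _).trans (dd_sum_abs_diag X Zᵀ)).trans ?_
  rw [ddFr_transpose]
  gcongr
  exact cX.dd_fr_le

theorem dd_nu2 : NU p (fun x y => ϱ x y * (s * eta X s x y * (s' * eta Y s' x y))) h := by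
  refine cX.meas.good _ fun x y hxy => ?_
  have h1 : s * eta X s x y * (s' * eta Y s' x y) - 1 =
      (s * eta X s x y - 1) * (s' * eta Y s' x y) + (s' * eta Y s' x y - 1) := by ring
  have h2 : |s' * eta Y s' x y| ≤ 2 := by
    rw [abs_mul, cY.abs_s, one_mul]; linarith [cY.abs_eta_le hxy]
  have h3 := mul_le_mul_of_nonneg_left h2 (abs_nonneg (s * eta X s x y - 1))
  rw [h1]
  refine (abs_add_le _ _).trans ?_
  rw [abs_mul]
  linarith [cX.s_eta hxy, cY.s_eta hxy, (cX.adm x y hxy).1, (cY.adm x y hxy).1,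
    (cX.meas.small x y hxy).2.1]

theorem dd_J3 (hk : p.k1 ≤ kk α) : Ex ϱ (fun x y => ddFr (ddT3 X Y (X * Y) s s' x y))
    ≤ 40 * (ddE p (kk α) / p.N ^ 2) := by
  have h1 := cX.dd_L6 hk
  have h2 := cY.dd_L6 hk
  have h3 : 0 ≤ ddE p (kk α) / p.N ^ 2 := div_nonneg (ddE_pos cX.num).le (sq_nonneg _)
  refine (Ex_mono (Z' := fun x y => 32 * ddAl X s x y ^ 2 + 32 * ddAl Y s' x y ^ 2)
    cX.nu.nonneg fun x y _ => ?_).trans ?_
  · have key : ∀ a₁ a₂ a₃ a₄ a₅ a₆ : Matrix α α ℝ, ddFr (a₁ + a₂ + a₃ + a₄ + a₅ + a₆) ≤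
        32 * (ddFr a₁ + ddFr a₂ + ddFr a₃ + ddFr a₄ + ddFr a₅ + ddFr a₆) :=
      fun a₁ a₂ a₃ a₄ a₅ a₆ => by
        linarith [ddFr_add_le_two (a₁ + a₂ + a₃ + a₄ + a₅) a₆,
          ddFr_add_le_two (a₁ + a₂ + a₃ + a₄) a₅, ddFr_add_le_two (a₁ + a₂ + a₃) a₄,
          ddFr_add_le_two (a₁ + a₂) a₃, ddFr_add_le_two a₁ a₂, ddFr_nonneg a₃, ddFr_nonneg a₄,
          ddFr_nonneg a₅, ddFr_nonneg a₆]
    refine (key _ _ _ _ _ _).trans ?_
    simp only [ddFr_smul, ddFr_outer, dd_dot_self X, neg_sq, cY.s_sq, one_mul]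
    have hs := cY.s_sq
    have r1 : ∀ z t, X z t ^ 2 ≤ ddNr X z := fun z t => by
      rw [dd_rho cX.sys.symm]; exact sq_le_rho cX.sys.symm z t
    have c11 := dd_C_sq hs (dd_Z_sq (X := X) cY x x) (r1 x y) (ddNr_nonneg Y x)
    have c12 := dd_C_sq hs (dd_Z_sq (X := X) cY x y) (r1 x x) (ddNr_nonneg Y y)
    have c21 := dd_C_sq hs (dd_Z_sq (X := X) cY y x) (r1 y y) (ddNr_nonneg Y x)
    have c22 := dd_C_sq hs (dd_Z_sq (X := X) cY y y) (r1 y x) (ddNr_nonneg Y y)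
    rw [cX.sys.symm.apply x y] at c22
    have p1 := dd_dot_nonneg (ddP1 X s x y)
    have p2 := dd_dot_nonneg (ddP2 X s x y)
    have q1 := dd_dot_nonneg (ddP1 Y s' x y)
    have q2 := dd_dot_nonneg (ddP2 Y s' x y)
    have d11 := mul_le_mul_of_nonneg_right c11 (mul_nonneg p1 q1)
    have d12 := mul_le_mul_of_nonneg_right c12 (mul_nonneg p1 q2)
    have d21 := mul_le_mul_of_nonneg_right c21 (mul_nonneg p2 q1)
    have d22 := mul_le_mul_of_nonneg_right c22 (mul_nonneg p2 q2)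
    have d0 := sq_nonneg (ddAl X s x y - ddAl Y s' x y)
    have d1 : ddNr X x * (ddP2 Y s' x y ⬝ᵥ ddP2 Y s' x y)
        + ddNr X y * (ddP1 Y s' x y ⬝ᵥ ddP1 Y s' x y)
        + 2 * ((1 + ddNr X x) * (ddP1 X s x y ⬝ᵥ ddP1 X s x y)
          + (1 + ddNr X y) * (ddP2 X s x y ⬝ᵥ ddP2 X s x y))
        * ((1 + ddNr Y x) * (ddP1 Y s' x y ⬝ᵥ ddP1 Y s' x y)
          + (1 + ddNr Y y) * (ddP2 Y s' x y ⬝ᵥ ddP2 Y s' x y))
        ≤ 2 * (ddAl X s x y * ddAl Y s' x y) := by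
      have n1 := ddNr_nonneg X x
      have n2 := ddNr_nonneg X y
      have n3 := ddNr_nonneg Y x
      have n4 := ddNr_nonneg Y y
      unfold ddAl
      generalize ddP1 X s x y ⬝ᵥ ddP1 X s x y = P₁ at *
      generalize ddP2 X s x y ⬝ᵥ ddP2 X s x y = P₂ at *
      generalize ddP1 Y s' x y ⬝ᵥ ddP1 Y s' x y = Q₁ at *
      generalize ddP2 Y s' x y ⬝ᵥ ddP2 Y s' x y = Q₂ at *
      generalize ddNr X x = a at *
      generalize ddNr X y = b at *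
      generalize ddNr Y x = a' at *
      generalize ddNr Y y = b' at *
      rw [← sub_nonneg]
      ring_nf
      positivity
    linarith
  · simp only [Ex_add, Ex_const_mul]
    linarith

end two

section joint
variable (cX : Ctx p ϱ h sz X 1) (cY : Ctx p ϱ h sz Y (-1)) (hk : p.k1 ≤ kk α)
  (hD : ddFr (X * Y) ≤ p.GD)
include cX cY hk hD

theorem dd_J1 : Ex ϱ (fun x y => ddIp (ddTm X (X * Y) 1 x y) (ddTm Y (X * Y)ᵀ (-1) x y)ᵀ)
    ≤ 6 * ddE p (kk α) := by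
  have hB : X * Y * Yᵀ = (Y * (Y * X))ᵀ := by
    rw [transpose_mul, dd_transpose cY cX]
  have hD' : ddFr (Y * X) ≤ p.GD := by rwa [← dd_transpose cX cY, ddFr_transpose]
  have a1 : ddFr (X * (X * Y)) ≤ _ := cX.dd_fr_mul hD
  have a2 := dd_Adiag cX cY
  have a3 := dd_trA_ge cX cY
  have a4 := dd_trA_abs cX hD
  have b1 : ddFr (Y * (Y * X)) ≤ _ := cY.dd_fr_mul hD'
  have b2 := dd_Adiag cY cX
  have b3 := dd_trA_ge cY cX
  have b4 := dd_trA_abs cY hD'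
  have e : (fun x y => ddIp (ddTm X (X * Y) 1 x y) (ddTm Y (X * Y)ᵀ (-1) x y)ᵀ) = fun x y =>
      -(1 * eta X 1 x y * (-1 * eta Y (-1) x y) *
        ((X * (X * Y)) y x * (Y * (Y * X)) y x + (Y * (Y * X)) x x * (X * (X * Y)) y y
          + (X * (X * Y)) x x * (Y * (Y * X)) y y + (X * (X * Y)) x y * (Y * (Y * X)) x y)) := by
    funext x y
    simp only [ddTm, transpose_smul, transpose_add, transpose_vecMulVec, ddIp_smul_left,
      ddIp_smul_right, ddIp_add_left, ddIp_add_right, ddIp_outer_outer, dd_dot,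
      transpose_transpose, hB, transpose_apply]
    ring
  have hW := dd_nu2 cX cY
  rw [e, Ex_neg, Ex_weight, Ex_add, Ex_add, Ex_add]
  generalize X * (X * Y) = A at *
  generalize Y * (Y * X) = B at *
  have h1 := (dd_abs_Ex_mul hW a1 b1).trans (dd_n13 cX.num hk)
  have h2 := (dd_abs_Ex_mul hW (U := fun x y => A y x) (V := fun x y => B y x)
    (sum_comm.trans_le a1) (sum_comm.trans_le b1)).trans (dd_n13 cX.num hk)
  have h3 := hW.Ex_prod (fun x => A x x) fun x => B x x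
  have h4 := hW.Ex_prod (fun x => B x x) fun x => A x x
  have hU := cX.num.Ups_pos.le
  have h5 : p.Ups (kk α) * √(∑ x, A x x ^ 2) * √(∑ x, B x x ^ 2) / kk α ^ 2 ≤ ddE p (kk α) :=
    le_trans (by gcongr) (dd_n14 cX.num hk)
  have h6 : -((∑ x, A x x) * (∑ x, B x x) / kk α ^ 2) ≤ ddE p (kk α) := by
    rw [← neg_div]
    exact (div_le_div_of_nonneg_right (dd_neg_mul_le cX.num.k_pos.le a3 b3 a4 b4)
      (sq_nonneg _)).trans (dd_n15 cX.num hk)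
  rw [mul_right_comm, mul_comm (∑ x, B x x)] at h4
  linarith [(abs_le.1 h1).1, (abs_le.1 h2).1, (abs_le.1 h3).1, (abs_le.1 h4).1]

/-- half of the error terms of `⟨Z, T₃⟩` -/
noncomputable def ddBd (X Z G : Matrix α α ℝ) (a a' : α → ℝ) (x y : α) : ℝ :=
  |a' x| * |G x y| + |X x y| * |G x x|
    + |(Z x x + X x y) * a y| * |a' y * G x x| + |(Z x x + X x y) * a y| * |G x y|
    + |(Z x x + X x y) * a' y| * |G y x|
    + |Z x y + X x x| * |a y * G x x| + |Z x y + X x x| * |a y * a' x * G x y|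
    + |Z x y + X x x| * |G y x| + |Z x y + X x x| * |a' x * G y y|

omit hk in
theorem dd_Gdiag : ∑ x, (X * (X * Y) * Yᵀ) x x ^ 2
    ≤ √(p.N ^ 4 * kk α * p.F (kk α)) * (p.Om (kk α) ^ 2 * p.GD) := by
  refine le_trans ?_ (mul_le_mul_of_nonneg_left (cX.dd_fr_mul hD) (Real.sqrt_nonneg _))
  rw [← sum_ddNr, mul_sum]
  refine sum_le_sum fun x _ => (dd_entry_sq_le _ _ x x).trans ?_
  rw [mul_comm]
  exact mul_le_mul_of_nonneg_right (cY.dd_nr_le x) (ddNr_nonneg _ x)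

theorem dd_Bd : Ex ϱ (ddBd X (X * Y) (X * (X * Y) * Yᵀ) (ah X 1) (ah Y (-1)))
    ≤ 9 * ddE p (kk α) := by
  have hn := cX.num
  have hG : ddFr (X * (X * Y) * Yᵀ) ≤ p.Om (kk α) ^ 2 * (p.Om (kk α) ^ 2 * p.GD) := by
    rw [cY.sys.symm.eq]; exact cY.dd_fr_mul' (cX.dd_fr_mul hD)
  have hGd := dd_Gdiag cX cY hD
  have hZd := dd_diag cX cY
  generalize X * (X * Y) * Yᵀ = G at *
  generalize X * Y = Z at *
  have ha := cX.sys.Rh_le hn cX.sgn
  have ha' := cY.sys.Rh_le hn cY.sgn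
  have hb := cX.sys.ah_sq_le hn cX.sgn
  have hb' := cY.sys.ah_sq_le hn cY.sgn
  generalize ah X 1 = a at *
  generalize ah Y (-1) = a' at *
  obtain ⟨n1, n2, n3⟩ := dd_n24 hn
  have hN := hn.N_pos
  have hF := hn.F_pos
  have hk0 := hn.k_pos
  have hG0 := ddFr_nonneg G
  set Γ := p.Om (kk α) ^ 2 * (p.Om (kk α) ^ 2 * p.GD) with hΓ
  have hΓ0 : 0 ≤ Γ := hG0.trans hG
  have key : ∀ {U V : α → α → ℝ}, ∑ x, ∑ y, U x y ^ 2 ≤ 3 * p.GD →
      ∑ x, ∑ y, V x y ^ 2 ≤ p.N ^ 82 * Γ → Ex ϱ (fun x y => |U x y| * |V x y|) ≤ ddE p (kk α) :=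
    fun hU hV => (dd_Ex_abs cX.nu hU hV).trans (dd_n20 hn hk)
  have U1 : ∑ x, ∑ _y : α, a' x ^ 2 ≤ 3 * p.GD := by
    rw [dd_sum_left]; exact le_trans (by gcongr) (dd_n21 hn hk)
  have U2 : ∀ φ : α → ℝ, ∑ x, φ x ^ 2 ≤ p.N ^ 41 * p.F (kk α) →
      (∀ x, φ x ^ 2 ≤ p.N ^ 41 * p.F (kk α)) →
      ∑ x, ∑ y, ((Z x x + X x y) * φ y) ^ 2 ≤ 3 * p.GD := fun φ h1 h2 => by
    refine le_trans ?_ (dd_n22 hn hk)
    refine (sum_le_sum fun x _ => sum_le_sum (g := fun y => 2 * (Z x x ^ 2 * φ y ^ 2)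
      + 2 * (p.N ^ 41 * p.F (kk α) * X x y ^ 2)) fun y _ => ?_).trans ?_
    · have h3 := mul_le_mul_of_nonneg_right (h2 y) (sq_nonneg (X x y))
      nlinarith [sq_nonneg ((Z x x - X x y) * φ y)]
    · simp only [sum_add_distrib, ← mul_sum, ← sum_mul]
      gcongr
      exact cX.dd_fr_le
  have U3 : ∑ x, ∑ y, (Z x y + X x x) ^ 2 ≤ 3 * p.GD := by
    refine (sum_le_sum fun x _ => sum_le_sum (g := fun y => 2 * Z x y ^ 2 + 2 * X x x ^ 2)
      fun y _ => by nlinarith [sq_nonneg (Z x y - X x x)]).trans ?_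
    simp only [sum_add_distrib, ← mul_sum, dd_sum_left]
    have h1 : kk α * ∑ x, X x x ^ 2 ≤ kk α * (p.N ^ 40 * p.F (kk α)) :=
      mul_le_mul_of_nonneg_left (cX.sys.R_le hn) hk0.le
    have h2 : ∑ x, ∑ y, Z x y ^ 2 ≤ p.GD := hD
    linarith [dd_n23 hn hk]
  have V1 : ∑ x, ∑ y, G x y ^ 2 ≤ p.N ^ 82 * Γ := le_trans hG (le_mul_of_one_le_left hΓ0 n3)
  have V1' : ∑ x, ∑ y, G y x ^ 2 ≤ p.N ^ 82 * Γ := sum_comm.trans_le V1
  have V2 : ∀ φ : α → ℝ, ∑ x, φ x ^ 2 ≤ p.N ^ 41 * p.F (kk α) →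
      ∑ x, ∑ y, (φ x * G y y) ^ 2 ≤ p.N ^ 82 * Γ := fun φ h1 => by
    simp only [mul_pow, dd_sum_prod]
    refine mul_le_mul (h1.trans (n1.trans n2)) (le_trans (sum_le_sum fun x _ => ?_) hG)
      (by positivity) (by positivity)
    exact single_le_sum (f := fun y => G x y ^ 2) (fun _ _ => sq_nonneg _) (mem_univ x)
  have V3 : ∑ x, ∑ y, (a y * a' x * G x y) ^ 2 ≤ p.N ^ 82 * Γ := by
    refine le_trans ?_ (mul_le_mul_of_nonneg_left hG (by positivity))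
    simp only [ddFr, mul_sum, mul_pow]
    refine sum_le_sum fun x _ => sum_le_sum fun y _ => mul_le_mul_of_nonneg_right ?_ (sq_nonneg _)
    rw [show p.N ^ 82 = p.N ^ 41 * p.N ^ 41 by ring]
    exact mul_le_mul ((hb y).trans n1) ((hb' x).trans n1) (sq_nonneg _) (by positivity)
  have t1 := key U1 V1
  have t2 : Ex ϱ (fun x y => |X x y| * |G x x|) ≤ ddE p (kk α) :=
    (dd_Ex_abs cX.nu (V := fun x _ => G x x) cX.dd_fr_le (by rw [dd_sum_left]; gcongr)).trans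
      (dd_n19 hn hk)
  have t3 := key (V := fun x y => a' y * G x x) (U2 a ha hb) (sum_comm.trans_le (V2 a' ha'))
  have t4 := key (U2 a ha hb) V1
  have t5 := key (U2 a' ha' hb') V1'
  have t6 := key (V := fun x y => a y * G x x) U3 (sum_comm.trans_le (V2 a ha))
  have t7 := key U3 V3
  have t8 := key U3 V1'
  have t9 := key U3 (V2 a' ha')
  unfold ddBd
  simp only [Ex_add]
  linarith

theorem dd_J2 : Ex ϱ (fun x y => ddIp (X * Y) (ddT3 X Y (X * Y) 1 (-1) x y))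
    ≤ -(ddFr (X * Y) / kk α) + 42 * ddE p (kk α) := by
  have hn := cX.num
  have hBd := dd_Bd cX cY hk hD
  have hBd' := hBd
  rw [← Ex_swap cX.meas.symm] at hBd'
  have hGd := dd_Gdiag cX cY hD
  have hZd := dd_diag cX cY
  have hG : ∑ x, (X * (X * Y) * Yᵀ) x x = ddFr (X * Y) := by
    refine Eq.trans ?_ (DD_eq cX.sys.symm cY.sys.symm)
    rw [cY.sys.symm.eq, DD, sq, sq]
    simp only [Matrix.mul_assoc]
    rfl
  have hZ : -(kk α / 2 + 2 * p.tauB (kk α)) ≤ ∑ x, (X * Y) x x := by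
    refine le_trans ?_ (trace_mul_ge cX.sys.symm cY.sys.symm cX.sys.psd cY.sys.psd)
    have h1 := mul_le_mul_of_nonneg_right hn.m_hi hn.k_pos.le
    have h2 : p.m * (tr X 1 + tr Y 1) ≤ |tr X 1| + |tr Y 1| :=
      (mul_le_mul_of_nonneg_left (add_le_add (le_abs_self _) (le_abs_self _)) hn.m_pos.le).trans
        (mul_le_of_le_one_left (by positivity) hn.m_le_one)
    linarith [cX.sys.abs_tau_le hn, cY.sys.abs_tau_le hn]
  refine (Ex_mono (Z' := fun x y => -(-1 * eta Y (-1) x y * (X * (X * Y) * Yᵀ) x x)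
    - -1 * eta Y (-1) x y * (X * (X * Y) * Yᵀ) y y
    - 1 * eta X 1 x y * (-1 * eta Y (-1) x y) * ((X * Y) x x * (X * (X * Y) * Yᵀ) y y)
    - 1 * eta X 1 x y * (-1 * eta Y (-1) x y) * ((X * (X * Y) * Yᵀ) x x * (X * Y) y y)
    + 2 * ddBd X (X * Y) (X * (X * Y) * Yᵀ) (ah X 1) (ah Y (-1)) x y
    + 2 * ddBd X (X * Y) (X * (X * Y) * Yᵀ) (ah X 1) (ah Y (-1)) y x) cX.nu.nonneg
    fun x y hxy => ?_).trans ?_
  · simp only [ddT3, ddIp_add_right, ddIp_smul_right, ddIp_outer, ddP1, ddP2, add_dotProduct,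
      smul_dotProduct, mulVec_add, mulVec_smul, dotProduct_add, dotProduct_smul, smul_eq_mul,
      dd_bil, ddBd, cX.sys.symm.apply x y]
    have hη : |eta X 1 x y| ≤ 102 / 100 := (cX.abs_eta_le hxy).trans (by norm_num)
    have hη' : |eta Y (-1) x y| ≤ 102 / 100 := (cY.abs_eta_le hxy).trans (by norm_num)
    have hθ : |1 / Del X 1 x y| ≤ 102 / 100 := by
      rw [abs_of_pos (one_div_pos.2 (cX.Del_pos hxy)), div_le_iff₀ (cX.Del_pos hxy)]
      linarith [cX.Del_ge hxy]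
    have hθ' : |1 / Del Y (-1) x y| ≤ 102 / 100 := by
      rw [abs_of_pos (one_div_pos.2 (cY.Del_pos hxy)), div_le_iff₀ (cY.Del_pos hxy)]
      linarith [cY.Del_ge hxy]
    have h1 : |(1 : ℝ)| ≤ 102 / 100 := by norm_num
    rw [e11, e22, e11, e22, div_eq_mul_one_div (ah X 1 x), div_eq_mul_one_div (ah X 1 y),
      div_eq_mul_one_div (ah Y (-1) x), div_eq_mul_one_div (ah Y (-1) y)]
    generalize 1 / Del X 1 x y = θ at *
    generalize 1 / Del Y (-1) x y = θ' at *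
    generalize eta X 1 x y = η at *
    generalize eta Y (-1) x y = η' at *
    generalize X * (X * Y) * Yᵀ = G
    generalize X * Y = Z
    generalize ah X 1 x = a
    generalize ah X 1 y = b
    generalize ah Y (-1) x = a'
    generalize ah Y (-1) y = b'
    linarith [dd_k2 hθ' h1 a' (G x y), dd_k2 hθ' h1 b' (G y x), dd_k2 hη hη' (X x y) (G y y),
      dd_k2 hη hη' (X x y) (G x x), dd_k2 hθ hθ' ((Z x x + X x y) * b) (b' * G x x),
      dd_k2 hθ hη' ((Z x x + X x y) * b) (G x y), dd_k2 hη hθ' ((Z x x + X x y) * b') (G y x),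
      dd_k2 hη hθ' ((Z y y + X x y) * a') (G x y), dd_k2 hθ hη' ((Z y y + X x y) * a) (G y x),
      dd_k2 hθ hθ' ((Z y y + X x y) * a) (a' * G y y),
      dd_k2 hθ hη' (Z x y + X x x) (b * G x x), dd_k2 hθ hθ' (Z x y + X x x) (b * a' * G x y),
      dd_k2 hη hη' (Z x y + X x x) (G y x), dd_k2 hη hθ' (Z x y + X x x) (a' * G y y),
      dd_k2 hη hθ' (Z y x + X y y) (b' * G x x), dd_k2 hη hη' (Z y x + X y y) (G x y),
      dd_k2 hθ hθ' (Z y x + X y y) (a * b' * G y x), dd_k2 hθ hη' (Z y x + X y y) (a * G y y)]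
  · rw [Ex_add, Ex_add, Ex_sub, Ex_sub, Ex_sub, Ex_neg, Ex_const_mul, Ex_const_mul,
      Ex_weight (W := ϱ), Ex_weight (W := ϱ), Ex_weight (W := ϱ), Ex_weight (W := ϱ)]
    have hW := dd_nu2 cX cY
    have hD0 := ddFr_nonneg (X * Y)
    generalize X * (X * Y) * Yᵀ = G at *
    generalize X * Y = Z at *
    have hU := hn.Ups_pos.le
    have hk0 := hn.k_pos
    have h1 := cY.nu_eta.Ex_left' fun x => G x x
    have h2 := cY.nu_eta.Ex_right' fun x => G x x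
    have h3 := hW.Ex_prod (fun x => Z x x) fun x => G x x
    have h4 := hW.Ex_prod (fun x => G x x) fun x => Z x x
    rw [mul_right_comm, mul_comm (∑ x, G x x)] at h4
    rw [hG] at h1 h2 h3 h4
    have h5 : p.Ups (kk α) * √(∑ x, G x x ^ 2) * √(kk α) / kk α ^ 2 ≤ ddE p (kk α) :=
      le_trans (by gcongr) (dd_n16 hn hk)
    have h6 : p.Ups (kk α) * √(∑ x, Z x x ^ 2) * √(∑ x, G x x ^ 2) / kk α ^ 2 ≤ ddE p (kk α) :=
      le_trans (by gcongr) (dd_n17 hn hk)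
    have h7 : -((∑ x, Z x x) * ddFr Z / kk α ^ 2) ≤ ddFr Z / kk α / 2 + ddE p (kk α) := by
      have h8 : -(∑ x, Z x x) * ddFr Z / kk α ^ 2
          ≤ (kk α / 2 + 2 * p.tauB (kk α)) * ddFr Z / kk α ^ 2 := by
        gcongr; linarith
      have h9 : 2 * p.tauB (kk α) * ddFr Z / kk α ^ 2 ≤ ddE p (kk α) :=
        le_trans (by have := hn.tauB_pos; gcongr) (dd_n18 hn hk)
      have e : (kk α / 2 + 2 * p.tauB (kk α)) * ddFr Z / kk α ^ 2
          = ddFr Z / kk α / 2 + 2 * p.tauB (kk α) * ddFr Z / kk α ^ 2 := by field_simp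
      rw [neg_mul, neg_div, e] at h8
      linarith
    linarith [(abs_le.1 h1).1, (abs_le.1 h2).1, (abs_le.1 h3).1, (abs_le.1 h4).1]

end joint

theorem drift_D (cX : Ctx p ϱ h sz X 1) (cY : Ctx p ϱ h sz Y (-1)) (hk : p.k1 ≤ kk α)
    (hD : DD X Y ≤ p.GD) :
    Ex ϱ (fun x y => DD (upd X 1 x y) (upd Y (-1) x y)) ≤ DD X Y + p.GD / (p.N * kk α) := by
  have hn := cX.num
  have hN := hn.N_pos
  have hk0 := hn.k_pos
  have e0 : DD X Y = ddFr (X * Y) := DD_eq cX.sys.symm cY.sys.symm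
  rw [e0] at hD ⊢
  have hD' : ddFr (X * Y)ᵀ ≤ p.GD := by rwa [ddFr_transpose]
  have hv : 1 ≤ p.N ^ 2 := one_le_pow₀ hn.one_le_N
  have huv : 1 / p.N ^ 2 * p.N ^ 2 = 1 := by field_simp
  refine (Ex_mono cX.nu.nonneg fun x y hxy =>
    dd_point (cX.piv hxy) (cY.piv hxy) hv huv).trans ?_
  have a1 := cX.dd_L1 hk hD
  have a2 := cY.dd_L1 hk hD'
  have a3 := cX.dd_L2 hk hD
  have a4 := cY.dd_L2 hk hD'
  have a5 := dd_J2 cX cY hk hD
  have a6 := cX.dd_L3 hk hD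
  have a7 := cY.dd_L3 hk hD'
  have a8 := dd_J1 cX cY hk hD
  have a9 := cX.dd_L4 hk hD
  have a10 := cY.dd_L4 hk hD'
  have a11 := dd_J3 cX cY hk
  have a12 := cX.dd_L7 hk hD
  have a13 := cX.dd_L5r hk hD
  have a14 := cY.dd_L5c hk hD' (dd_diag cX cY)
  have a15 := dd_n0 hn
  have hε := ddE_pos hn
  rw [ddFr_transpose] at a7
  have hu0 : 0 ≤ 1 / p.N ^ 2 := by positivity
  have hu1 : 1 / p.N ^ 2 ≤ 1 := by rwa [div_le_one (by positivity)]
  have b1 : 1 / p.N ^ 2 * (ddFr (X * Y) / kk α) ≤ ddE p (kk α) := by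
    rw [ddE, div_mul_div_comm, one_mul]
    gcongr
  have b2 : p.N ^ 2 * (ddE p (kk α) / p.N ^ 2) = ddE p (kk α) := by field_simp
  have b3 := mul_le_of_le_one_left hε.le hu1
  have b4 := mul_nonneg hu0 hε.le
  simp only [Ex_add, Ex_sub, Ex_const_mul, cX.meas.Ex_const hk0] at a12 a13 a14 ⊢
  have c1 := mul_le_mul_of_nonneg_left (add_le_add (add_le_add a6 a7)
    (mul_le_mul_of_nonneg_left a8 zero_le_two)) (add_nonneg zero_le_one hu0)
  have c2 := mul_le_mul_of_nonneg_left (add_le_add (add_le_add a9 a10) a11)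
    (mul_nonneg (by norm_num : (0 : ℝ) ≤ 24) (sq_nonneg p.N))
  have c3 := mul_le_mul_of_nonneg_left a12 (sub_nonneg.2 hu1)
  have c4 := mul_le_mul_of_nonneg_left (add_le_add a13 a14)
    (mul_nonneg (by norm_num : (0 : ℝ) ≤ 4) (sq_nonneg p.N))
  generalize ddE p (kk α) / p.N ^ 2 = δ at *
  generalize 1 / p.N ^ 2 = u at *
  generalize p.N ^ 2 = v at *
  linarith

end Crest.Agent.R062
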