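import Crest.Agent.R062.Ident

/-! Drift of `tr (X ^ 2 * Y ^ 2)`: the exact algebra of one step. -/

open Matrix Finset

namespace Crest.Agent.R062
variable {α : Type} [Fintype α] [DecidableEq α]

/-- Frobenius inner product -/
def ddIp (M N : Matrix α α ℝ) : ℝ := ∑ z, ∑ t, M z t * N z t
/-- squared Frobenius norm -/
def ddFr (M : Matrix α α ℝ) : ℝ := ∑ z, ∑ t, M z t ^ 2
/-- squared norm of a row -/
def ddNr (M : Matrix α α ℝ) (x : α) : ℝ := ∑ t, M x t ^ 2

section basic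
omit [DecidableEq α]
variable (M N P : Matrix α α ℝ)

theorem ddIp_add_right : ddIp M (N + P) = ddIp M N + ddIp M P := by
  simp only [ddIp, Matrix.add_apply, mul_add, sum_add_distrib]
theorem ddIp_add_left : ddIp (N + P) M = ddIp N M + ddIp P M := by
  simp only [ddIp, Matrix.add_apply, add_mul, sum_add_distrib]
theorem ddIp_smul_right (c : ℝ) : ddIp M (c • N) = c * ddIp M N := by
  simp only [ddIp, Matrix.smul_apply, smul_eq_mul, mul_sum, mul_left_comm]
theorem ddIp_smul_left (c : ℝ) : ddIp (c • N) M = c * ddIp N M := by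
  simp only [ddIp, Matrix.smul_apply, smul_eq_mul, mul_sum, mul_assoc]
theorem ddIp_transpose : ddIp M Nᵀ = ddIp Mᵀ N := by
  unfold ddIp; rw [sum_comm]; rfl
theorem ddFr_transpose : ddFr Mᵀ = ddFr M := by
  unfold ddFr; rw [sum_comm]; rfl
theorem ddFr_eq_ip : ddFr M = ddIp M M := by simp only [ddFr, ddIp, sq]
theorem ddFr_nonneg : 0 ≤ ddFr M := by unfold ddFr; positivity
theorem ddNr_nonneg (x : α) : 0 ≤ ddNr M x := by unfold ddNr; positivity
theorem sum_ddNr : ∑ x, ddNr M x = ddFr M := rfl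
theorem ddNr_le (x : α) : ddNr M x ≤ ddFr M :=
  single_le_sum (f := ddNr M) (fun z _ => ddNr_nonneg M z) (mem_univ x)
theorem ddFr_add : ddFr (M + N) = ddFr M + 2 * ddIp M N + ddFr N := by
  simp only [ddFr, ddIp, Matrix.add_apply, add_sq, sum_add_distrib, mul_sum, mul_assoc]
theorem ddFr_smul (c : ℝ) : ddFr (c • M) = c ^ 2 * ddFr M := by
  simp only [ddFr, Matrix.smul_apply, smul_eq_mul, mul_pow, mul_sum]
theorem ddNr_smul (c : ℝ) (x : α) : ddNr (c • M) x = c ^ 2 * ddNr M x := by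
  simp only [ddNr, Matrix.smul_apply, smul_eq_mul, mul_pow, mul_sum]

theorem ddNr_add_le {u v : ℝ} (hv : 0 ≤ v) (huv : u * v = 1) (x : α) :
    ddNr (M + N) x ≤ (1 + u) * ddNr M x + (1 + v) * ddNr N x := by
  simp only [ddNr, mul_sum, ← sum_add_distrib, Matrix.add_apply]
  refine sum_le_sum fun t _ => ?_
  have h := mul_nonneg hv (sq_nonneg (u * M x t - N x t))
  have e : v * (u * M x t - N x t) ^ 2 = u * M x t ^ 2 - 2 * M x t * N x t + v * N x t ^ 2 := by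
    linear_combination (u * M x t ^ 2 - 2 * M x t * N x t) * huv
  nlinarith

theorem ddNr_add_ge {u v : ℝ} (hv : 0 ≤ v) (huv : u * v = 1) (x : α) :
    (1 - u) * ddNr M x - v * ddNr N x ≤ ddNr (M + N) x := by
  simp only [ddNr, mul_sum, ← sum_sub_distrib, Matrix.add_apply]
  refine sum_le_sum fun t _ => ?_
  have h := mul_nonneg hv (sq_nonneg (u * M x t + N x t))
  have e : v * (u * M x t + N x t) ^ 2 = u * M x t ^ 2 + 2 * M x t * N x t + v * N x t ^ 2 := by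
    linear_combination (u * M x t ^ 2 + 2 * M x t * N x t) * huv
  nlinarith [sq_nonneg (N x t)]

theorem ddFr_add_le {u v : ℝ} (hv : 0 ≤ v) (huv : u * v = 1) :
    ddFr (M + N) ≤ (1 + u) * ddFr M + (1 + v) * ddFr N := by
  simp only [← sum_ddNr, mul_sum, ← sum_add_distrib]
  exact sum_le_sum fun x _ => ddNr_add_le M N hv huv x

theorem ddNr_add_le_two (x : α) : ddNr (M + N) x ≤ 2 * ddNr M x + 2 * ddNr N x := by
  have := ddNr_add_le M N zero_le_one (mul_one 1) x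
  linarith

theorem ddFr_add_le_two : ddFr (M + N) ≤ 2 * ddFr M + 2 * ddFr N := by
  have := ddFr_add_le M N zero_le_one (mul_one 1)
  linarith

theorem ddIp_outer (u v : α → ℝ) : ddIp M (vecMulVec u v) = u ⬝ᵥ M *ᵥ v := by
  simp only [ddIp, vecMulVec_apply, dotProduct, mulVec, mul_sum, mul_left_comm]

theorem ddIp_outer_outer (u v u' v' : α → ℝ) :
    ddIp (vecMulVec u v) (vecMulVec u' v') = (u ⬝ᵥ u') * (v ⬝ᵥ v') := by
  simp only [ddIp, vecMulVec_apply, dotProduct, sum_mul_sum]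
  exact sum_congr rfl fun z _ => sum_congr rfl fun t _ => by ring

theorem ddFr_outer (u v : α → ℝ) : ddFr (vecMulVec u v) = (u ⬝ᵥ u) * (v ⬝ᵥ v) := by
  rw [ddFr_eq_ip, ddIp_outer_outer]

theorem ddNr_outer (u v : α → ℝ) (x : α) : ddNr (vecMulVec u v) x = u x ^ 2 * (v ⬝ᵥ v) := by
  simp only [ddNr, vecMulVec_apply, dotProduct, mul_sum]
  exact sum_congr rfl fun t _ => by ring

theorem dd_dot_self (x : α) : M x ⬝ᵥ M x = ddNr M x := by simp only [ddNr, dotProduct, sq]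

theorem dd_dot (x y : α) : M x ⬝ᵥ N y = (M * Nᵀ) x y := rfl

theorem dd_bil (x y : α) : M x ⬝ᵥ N *ᵥ P y = (M * N * Pᵀ) x y := by
  rw [Matrix.mul_assoc]; rfl

theorem dd_entry_sq_le (x y : α) : (M * Nᵀ) x y ^ 2 ≤ ddNr M x * ddNr N y :=
  sum_mul_sq_le_sq_mul_sq univ (M x) (N y)

theorem ddFr_mul_le : ddFr (M * Nᵀ) ≤ ddFr M * ddFr N := by
  rw [← sum_ddNr M, ← sum_ddNr N, sum_mul_sum]
  exact sum_le_sum fun x _ => sum_le_sum fun y _ => dd_entry_sq_le M N x y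

theorem dd_dot_add_le (a b : ℝ) (u v : α → ℝ) :
    (a • u + b • v) ⬝ᵥ (a • u + b • v) ≤ 2 * a ^ 2 * (u ⬝ᵥ u) + 2 * b ^ 2 * (v ⬝ᵥ v) := by
  simp only [dotProduct, mul_sum, ← sum_add_distrib, Pi.add_apply, Pi.smul_apply, smul_eq_mul]
  exact sum_le_sum fun t _ => by nlinarith [sq_nonneg (a * u t - b * v t)]

theorem dd_dot_nonneg (u : α → ℝ) : 0 ≤ u ⬝ᵥ u := sum_nonneg fun t _ => mul_self_nonneg (u t)

end basic

theorem dd_rho {X : Matrix α α ℝ} (hX : X.IsSymm) (x : α) : ddNr X x = rho X x :=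
  (rho_eq hX x).symm

theorem ddFr_Pr_mul {x y : α} (hne : x ≠ y) (hk : 2 < kk α) (M : Matrix α α ℝ) :
    ddFr (Pr x y * M) ≤ ddFr M - ddNr M x - ddNr M y := by
  have hk' : 0 < kk α - 2 := sub_pos.2 hk
  have key : ∀ t, ∑ z, (Pr x y * M) z t ^ 2 ≤ ∑ z, M z t ^ 2 - M x t ^ 2 - M y t ^ 2 := fun t => by
    rw [← identB_sum_rest hne fun z => M z t ^ 2]
    set S := ∑ u ∈ rest x y, M u t with hS
    have h1 : ∑ z, (Pr x y * M) z t ^ 2 = ∑ z ∈ rest x y, (M z t - S / (kk α - 2)) ^ 2 := by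
      rw [← Finset.sum_subset (subset_univ (rest x y)) fun z _ hz => by
        rw [identB_Pr_mul, if_neg hz]; ring]
      exact sum_congr rfl fun z hz => by rw [identB_Pr_mul, if_pos hz]
    have h2 : ∑ z ∈ rest x y, (M z t - S / (kk α - 2)) ^ 2 =
        ∑ z ∈ rest x y, M z t ^ 2 - S ^ 2 / (kk α - 2) := by
      simp only [sub_sq, sum_add_distrib, sum_sub_distrib, sum_rest_const hne, mul_assoc,
        ← mul_sum, ← sum_mul, ← hS]
      field_simp
      ring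
    rw [h1, h2]
    exact sub_le_self _ (by positivity)
  unfold ddFr ddNr
  rw [sum_comm, sum_comm (f := fun z t => M z t ^ 2), ← sum_sub_distrib, ← sum_sub_distrib]
  exact sum_le_sum fun t _ => key t

theorem ddFr_mul_Pr {x y : α} (hne : x ≠ y) (hk : 2 < kk α) (M : Matrix α α ℝ) :
    ddFr (M * Pr x y) ≤ ddFr M := by
  have h := ddFr_Pr_mul hne hk Mᵀ
  rw [← ddFr_transpose, transpose_mul, (Pr_symm x y).eq, ← ddFr_transpose M]
  linarith [ddNr_nonneg Mᵀ x, ddNr_nonneg Mᵀ y]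

noncomputable section defs
variable (X Y Z : Matrix α α ℝ) (s s' : ℝ) (x y : α)

/-- main part of the first correction -/
def ddTm : Matrix α α ℝ := eta X s x y • (vecMulVec (X y) (Z x) + vecMulVec (X x) (Z y))
/-- small part of the first correction -/
def ddTs : Matrix α α ℝ :=
  e11 X s x y • vecMulVec (X x) (Z x) + e22 X s x y • vecMulVec (X y) (Z y)
def ddP1 : α → ℝ := e11 X s x y • X x + eta X s x y • X y
def ddP2 : α → ℝ := eta X s x y • X x + e22 X s x y • X y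
/-- the mixed correction -/
def ddT3 : Matrix α α ℝ :=
  (-s') • vecMulVec (X x) (ddP2 Y s' x y) + (-s') • vecMulVec (X y) (ddP1 Y s' x y)
    + (Z x x - s' * X x y) • vecMulVec (ddP1 X s x y) (ddP1 Y s' x y)
    + (Z x y - s' * X x x) • vecMulVec (ddP1 X s x y) (ddP2 Y s' x y)
    + (Z y x - s' * X y y) • vecMulVec (ddP2 X s x y) (ddP1 Y s' x y)
    + (Z y y - s' * X x y) • vecMulVec (ddP2 X s x y) (ddP2 Y s' x y)

end defs

section point
variable {X Y : Matrix α α ℝ} {s s' : ℝ} {x y : α} (hX : Piv X s x y) (hY : Piv Y s' x y)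
include hX hY

theorem dd_W : Xt X s x y * (Pr x y * Xt Y s' x y) = X * Y +
    (ddTm X (X * Y) s x y + (ddTm Y (X * Y)ᵀ s' x y)ᵀ +
      (ddTs X (X * Y) s x y + (ddTs Y (X * Y)ᵀ s' x y)ᵀ + ddT3 X Y (X * Y) s s' x y)) := by
  rw [identB_rank hY.symm hY.rowsum hY.ne hY.del hY.card]
  have h3 : ∀ z v w, ∑ u, X z u * (Y u v - (if u = w then s' else 0) + s' / kk α) =
      (X * Y) z v - s' * X z w := fun z v w => by
    simp only [mul_add, mul_sub, sum_add_distrib, sum_sub_distrib, ← sum_mul, hX.rowsum, mul_ite,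
      mul_zero, sum_ite_eq', mem_univ, if_true, Matrix.mul_apply]
    ring
  have hR : ∀ z t, (X * (Y + identBV Y s' x y * identBW Y s' x y)) z t = (X * Y) z t
      + ((X * Y) z x - s' * X z y) * ddP1 Y s' x y t
      + ((X * Y) z y - s' * X z x) * ddP2 Y s' x y t := fun z t => by
    rw [Matrix.mul_add, ← Matrix.mul_assoc, Matrix.add_apply, Matrix.mul_apply (M := X * _),
      Fin.sum_univ_two, ← h3, ← h3, add_assoc]
    rfl
  generalize Y + identBV Y s' x y * identBW Y s' x y = R at hR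
  ext z t
  have h4 : (Xt X s x y * R) z t =
      (X * R) z t + ddP1 X s x y z * (X * R) x t + ddP2 X s x y z * (X * R) y t := by
    simp only [Matrix.mul_apply, mul_sum, ← sum_add_distrib]
    refine sum_congr rfl fun u _ => ?_
    simp only [Xt, of_apply, ddP1, ddP2, Pi.add_apply, Pi.smul_apply, smul_eq_mul,
      hX.symm.apply x z, hX.symm.apply y z]
    ring
  rw [h4, hR, hR, hR]
  simp only [ddTm, ddTs, ddT3, ddP1, ddP2, Matrix.add_apply, Matrix.smul_apply, transpose_apply,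
    vecMulVec_apply, Pi.add_apply, Pi.smul_apply, smul_eq_mul, hX.symm.apply x z,
    hX.symm.apply y z, hX.symm.apply x y]
  ring

theorem dd_point {u v : ℝ} (hv : 1 ≤ v) (huv : u * v = 1) :
    DD (upd X s x y) (upd Y s' x y) ≤ ddFr (X * Y)
      + 2 * ddIp (X * Y) (ddTm X (X * Y) s x y) + 2 * ddIp (X * Y)ᵀ (ddTm Y (X * Y)ᵀ s' x y)
      + 2 * ddIp (X * Y) (ddTs X (X * Y) s x y) + 2 * ddIp (X * Y)ᵀ (ddTs Y (X * Y)ᵀ s' x y)
      + 2 * ddIp (X * Y) (ddT3 X Y (X * Y) s s' x y)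
      + (1 + u) * (ddFr (ddTm X (X * Y) s x y) + ddFr (ddTm Y (X * Y)ᵀ s' x y)
        + 2 * ddIp (ddTm X (X * Y) s x y) (ddTm Y (X * Y)ᵀ s' x y)ᵀ)
      + 24 * v * (ddFr (ddTs X (X * Y) s x y) + ddFr (ddTs Y (X * Y)ᵀ s' x y)
        + ddFr (ddT3 X Y (X * Y) s s' x y))
      - (1 - u) * (ddNr (X * Y) x + ddNr (X * Y) y)
      + 4 * v * (ddNr (ddTm X (X * Y) s x y) x + ddNr (ddTm X (X * Y) s x y) y
        + (ddNr (ddTm Y (X * Y)ᵀ s' x y)ᵀ x + ddNr (ddTm Y (X * Y)ᵀ s' x y)ᵀ y)) := by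
  have hv0 : 0 ≤ v := zero_le_one.trans hv
  have e : upd X s x y * upd Y s' x y =
      Pr x y * (Xt X s x y * (Pr x y * Xt Y s' x y)) * Pr x y := by
    unfold upd
    simp only [Matrix.mul_assoc]
    rw [← Matrix.mul_assoc (Pr x y) (Pr x y), identB_Pr_Pr hX.ne hX.card]
  have h1 : DD (upd X s x y) (upd Y s' x y) = ddFr (upd X s x y * upd Y s' x y) :=
    DD_eq hX.upd_symm hY.upd_symm
  rw [h1, e]
  refine ((ddFr_mul_Pr hX.ne hX.card _).trans (ddFr_Pr_mul hX.ne hX.card _)).trans ?_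
  rw [dd_W hX hY, ← ddIp_transpose, ← ddIp_transpose, ← ddFr_transpose (ddTm Y _ _ _ _),
    ← ddFr_transpose (ddTs Y _ _ _ _)]
  generalize X * Y = Z
  generalize ddTm X Z s x y = A₁
  generalize (ddTm Y Zᵀ s' x y)ᵀ = A₂
  generalize ddTs X Z s x y = B₁
  generalize (ddTs Y Zᵀ s' x y)ᵀ = B₂
  generalize ddT3 X Y Z s s' x y = B₃
  have a1 := ddFr_add Z (A₁ + A₂ + (B₁ + B₂ + B₃))
  simp only [ddIp_add_right] at a1
  have a2 := ddFr_add_le (A₁ + A₂) (B₁ + B₂ + B₃) hv0 huv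
  rw [ddFr_add A₁] at a2
  have a3 : ddFr (B₁ + B₂ + B₃) ≤ 4 * (ddFr B₁ + ddFr B₂ + ddFr B₃) := by
    linarith [ddFr_add_le_two (B₁ + B₂) B₃, ddFr_add_le_two B₁ B₂, ddFr_nonneg B₃]
  have a4 : ∀ w, (1 - u) * ddNr Z w - v * (4 * (ddNr A₁ w + ddNr A₂ w) + 2 * ddFr (B₁ + B₂ + B₃))
      ≤ ddNr (Z + (A₁ + A₂ + (B₁ + B₂ + B₃))) w := fun w => by
    refine le_trans (sub_le_sub_left (mul_le_mul_of_nonneg_left ?_ hv0) _)
      (ddNr_add_ge _ _ hv0 huv w)
    linarith [ddNr_add_le_two (A₁ + A₂) (B₁ + B₂ + B₃) w, ddNr_add_le_two A₁ A₂ w,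
      ddNr_le (B₁ + B₂ + B₃) w]
  have a5 := mul_le_mul_of_nonneg_left a3 hv0
  have a6 := mul_le_mul_of_nonneg_right hv (ddFr_nonneg (B₁ + B₂ + B₃))
  have a7 := a4 x
  have a8 := a4 y
  nlinarith

end point

end Crest.Agent.R062
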