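import Crest.Agent.R062.Num

/-! Drift of `tr (X ^ 2 * Y ^ 2)`: numerical inequalities. -/

namespace Crest.Agent.R062

/-- the unit of error -/
noncomputable def ddE (p : Par ℝ) (k : ℝ) : ℝ := p.GD / (p.N ^ 2 * k)

attribute [local irreducible] Par.k1 Par.stau2 Par.sT Par.GR Par.GD Par.GV Par.G4 Par.G3sq Par.Gf
  Par.s3

variable {p : Par ℝ} {k : ℝ} (hn : Num p k) (hk : p.k1 ≤ k)
include hn

theorem ddE_pos : 0 < ddE p k := by
  have := hn.N_pos; have := hn.k_pos; have := hn.GD_pos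
  unfold ddE; positivity

theorem dd_n0 : 10000 * ddE p k ≤ p.GD / (p.N * k) := by unfold ddE; lognum hn

include hk

theorem dd_n1 : p.Ups k * √(p.Om k ^ 2 * p.GD) * √p.GD / k ^ 2 ≤ ddE p k := by
  have := hn.log_k1_le hk; unfold ddE; lognum hn

theorem dd_n2 : 21 / 20 * (√(p.Om k ^ 2 * p.GD) * √p.GD) * (√k * √(p.N ^ 41 * p.F k)) / k ^ 2
    ≤ ddE p k := by
  have := hn.log_k1_le hk; unfold ddE; lognum hn

theorem dd_n3 : √(p.Row k) * p.GD * √(p.N ^ 4 * k * p.F k) / k ^ 2 ≤ ddE p k := by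
  have := hn.log_k1_le hk; unfold ddE; lognum hn

theorem dd_n4 : 2 * √(p.Om k ^ 4) * √(p.GD * p.GD) / k ^ 2 ≤ ddE p k := by
  have := hn.log_k1_le hk; unfold ddE; lognum hn

theorem dd_n5 : √(p.N ^ 4 * k * p.F k) * (21 / 20 * p.GD * (p.N ^ 41 * p.F k) / k ^ 2)
    ≤ ddE p k / p.N ^ 2 := by
  have := hn.log_k1_le hk; unfold ddE; lognum hn

theorem dd_n6 : 2 * (√(p.N ^ 4 * k * p.F k) * p.GD) / k ^ 2 ≤ ddE p k / p.N ^ 2 := by
  have := hn.log_k1_le hk; unfold ddE; lognum hn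

theorem dd_n7 : 21 / 20 * (p.N ^ 40 * p.F k) * p.GD / k ^ 2 ≤ ddE p k / p.N ^ 2 := by
  have := hn.log_k1_le hk; unfold ddE; lognum hn

theorem dd_n8 : 21 / 20 * (p.N ^ 4 * k * p.F k) * k / k ^ 2 ≤ ddE p k / p.N ^ 2 := by
  have := hn.log_k1_le hk; unfold ddE; lognum hn

theorem dd_n9 : √(p.Row k / k) * p.GD / k ≤ ddE p k := by
  have := hn.log_k1_le hk; unfold ddE; lognum hn

theorem dd_n10 : 2 * k + 2 * (p.N ^ 4 * k * p.F k) ≤ p.N ^ 5 * k := by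
  have := hn.log_k1_le hk; lognum hn

theorem dd_n11 : 1000 * (21 / 20 * (p.N ^ 5 * k) ^ 2 * (p.N ^ 41 * p.F k) ^ 2 / k ^ 2)
    ≤ ddE p k / p.N ^ 2 := by
  have := hn.log_k1_le hk; unfold ddE; lognum hn

theorem dd_n12 : 1000 * (21 / 20 * (p.N ^ 5 * k) * (p.N ^ 5 * k) / k ^ 2)
    ≤ ddE p k / p.N ^ 2 := by
  have := hn.log_k1_le hk; unfold ddE; lognum hn

theorem dd_n13 : 2 * √(p.Om k ^ 2 * p.GD) * √(p.Om k ^ 2 * p.GD) / k ^ 2 ≤ ddE p k := by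
  have := hn.log_k1_le hk; unfold ddE; lognum hn

theorem dd_n14 : p.Ups k * √(p.Om k ^ 2 * (p.N ^ 4 * k * p.F k))
    * √(p.Om k ^ 2 * (p.N ^ 4 * k * p.F k)) / k ^ 2 ≤ ddE p k := by
  have := hn.log_k1_le hk; unfold ddE; lognum hn

theorem dd_n15 : k * (√k * √p.GD) / k ^ 2 ≤ ddE p k := by
  have := hn.log_k1_le hk; unfold ddE; lognum hn

theorem dd_n16 : p.Ups k * √(√(p.N ^ 4 * k * p.F k) * (p.Om k ^ 2 * p.GD)) * √k / k ^ 2
    ≤ ddE p k := by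
  have := hn.log_k1_le hk; unfold ddE; lognum hn

theorem dd_n17 : p.Ups k * √(p.N ^ 4 * k * p.F k)
    * √(√(p.N ^ 4 * k * p.F k) * (p.Om k ^ 2 * p.GD)) / k ^ 2 ≤ ddE p k := by
  have := hn.log_k1_le hk; unfold ddE; lognum hn

theorem dd_n18 : 2 * p.tauB k * p.GD / k ^ 2 ≤ ddE p k := by
  have := hn.log_k1_le hk; unfold ddE; lognum hn

theorem dd_n19 : 2 * √k * √(k * (√(p.N ^ 4 * k * p.F k) * (p.Om k ^ 2 * p.GD))) / k ^ 2
    ≤ ddE p k := by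
  have := hn.log_k1_le hk; unfold ddE; lognum hn

theorem dd_n20 : 2 * √(3 * p.GD) * √(p.N ^ 82 * (p.Om k ^ 2 * (p.Om k ^ 2 * p.GD))) / k ^ 2
    ≤ ddE p k := by
  have := hn.log_k1_le hk; unfold ddE; lognum hn

theorem dd_n21 : k * (p.N ^ 41 * p.F k) ≤ 3 * p.GD := by
  have := hn.log_k1_le hk; lognum hn

theorem dd_n22 : 2 * ((p.N ^ 4 * k * p.F k) * (p.N ^ 41 * p.F k))
    + 2 * (p.N ^ 41 * p.F k * k) ≤ 3 * p.GD := by
  have := hn.log_k1_le hk; lognum hn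

theorem dd_n23 : 2 * (k * (p.N ^ 40 * p.F k)) ≤ p.GD := by
  have := hn.log_k1_le hk; lognum hn

omit hk in
theorem dd_n24 : p.N ^ 41 * p.F k ≤ p.N ^ 41 ∧ p.N ^ 41 ≤ p.N ^ 82 ∧ 1 ≤ p.N ^ 82 :=
  ⟨mul_le_of_le_one_right (pow_pos hn.N_pos _).le hn.F_le_one,
    pow_le_pow_right₀ hn.one_le_N (by norm_num), one_le_pow₀ hn.one_le_N⟩

end Crest.Agent.R062
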