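import Crest.Agent.R062.Mom
import Crest.Agent.R062.DDAux1
import Crest.Agent.R062.DDNum

/-! Drift of `tr (X ^ 2 * Y ^ 2)`: estimates that involve one pivot. -/

open Matrix Finset

namespace Crest.Agent.R062
variable {α : Type} [Fintype α] [DecidableEq α] {p : Par ℝ} {W ϱ h sz : α → α → ℝ}
  {X Z : Matrix α α ℝ} {s : ℝ}

theorem dd_Ex_le (hW : NU p W h) {U : α → α → ℝ} (hz : ∀ x y, 0 ≤ U x y) {b : ℝ}
    (hb : ∑ x, ∑ y, U x y ≤ b) : Ex W U ≤ 2 * b / kk α ^ 2 := by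
  have h0 : 0 ≤ ∑ x, ∑ y, U x y := sum_nonneg fun x _ => sum_nonneg fun y _ => hz x y
  refine (hW.Ex_le_unif hz).trans (div_le_div_of_nonneg_right ?_ (sq_nonneg _))
  linarith

theorem dd_Ex_abs (hW : NU p W h) {U V : α → α → ℝ} {a b : ℝ} (ha : ∑ x, ∑ y, U x y ^ 2 ≤ a)
    (hb : ∑ x, ∑ y, V x y ^ 2 ≤ b) :
    Ex W (fun x y => |U x y| * |V x y|) ≤ 2 * √a * √b / kk α ^ 2 := by
  refine hW.Ex_abs_mul_le.trans ?_
  gcongr
  norm_num

theorem dd_noise (hW : NU p W h) (hk : 0 < kk α) (A B : Matrix α α ℝ)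
    (h0 : ∑ x, ∑ y, (A * Bᵀ) x y = 0) {a b : ℝ} (ha : ddFr A ≤ a) (hb : ddFr B ≤ b) :
    |Ex W (fun x y => (A * Bᵀ) x y)| ≤ p.Ups (kk α) * √a * √b / kk α ^ 2 := by
  have h1 := hW.Ex_noise_mul Aᵀ Bᵀ h0
  have h2 := hW.Ups_nonneg hk
  rw [← ddFr_transpose] at ha hb
  refine h1.trans ?_
  gcongr
  · exact ha
  · exact hb

omit [DecidableEq α] in
theorem dd_sum_abs_diag (A B : Matrix α α ℝ) : ∑ x, |(A * Bᵀ) x x| ≤ √(ddFr A) * √(ddFr B) := by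
  refine le_trans (sum_le_sum fun x _ => ?_)
    (Real.sum_sqrt_mul_sqrt_le univ (ddNr_nonneg A) (ddNr_nonneg B))
  exact (Real.abs_le_sqrt (dd_entry_sq_le A B x x)).trans_eq (Real.sqrt_mul (ddNr_nonneg A x) _)

theorem dd_sum_abs (φ : α → ℝ) : ∑ x, |φ x| ≤ √(kk α) * √(∑ x, φ x ^ 2) := by
  have := pair_cs (fun _ : α => (1 : ℝ)) fun x => |φ x|
  simp only [one_mul, one_pow, pair_sum_one, sq_abs] at this
  exact (le_abs_self _).trans this

omit [DecidableEq α] in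
theorem dd_sum_prod (φ ψ : α → ℝ) : ∑ x, ∑ y, φ x * ψ y = (∑ x, φ x) * ∑ y, ψ y :=
  (sum_mul_sum _ _ _ _).symm

theorem dd_sum_left (φ : α → ℝ) : ∑ x, ∑ _y : α, φ x = kk α * ∑ x, φ x := by
  simp only [sum_const, card_univ, nsmul_eq_mul, ← mul_sum, kk]

namespace Ctx
variable (c : Ctx p ϱ h sz X s)
include c

theorem dd_zero (M : Matrix α α ℝ) : ∑ x, ∑ y, (X * M) x y = 0 := by
  have hc : ∀ u, ∑ z, X z u = 0 := fun u => by
    rw [← c.sys.rowsum u]; exact sum_congr rfl fun z _ => c.sys.symm.apply u z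
  rw [sum_comm]
  refine sum_eq_zero fun y _ => ?_
  simp only [Matrix.mul_apply]
  rw [sum_comm]
  simp only [← sum_mul, hc, zero_mul, sum_const_zero]

theorem dd_fr_mul {a : ℝ} (hZ : ddFr Z ≤ a) : ddFr (X * Z) ≤ p.Om (kk α) ^ 2 * a :=
  (frob_mul_le c.sys.symm c.num.Om_pos.le (c.sys.t4_le c.num) Z).trans
    (mul_le_mul_of_nonneg_left hZ (sq_nonneg _))

theorem dd_fr_mul' {a : ℝ} (hZ : ddFr Z ≤ a) : ddFr (Z * X) ≤ p.Om (kk α) ^ 2 * a :=
  (frob_mul_le' c.sys.symm c.num.Om_pos.le (c.sys.t4_le c.num) Z).trans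
    (mul_le_mul_of_nonneg_left hZ (sq_nonneg _))

theorem dd_s_mul (t : ℝ) : s * t ≤ |t| := by
  rw [← one_mul |t|, ← c.abs_s, ← abs_mul]; exact le_abs_self _

theorem dd_nr_le (x : α) : ddNr X x ≤ √(p.N ^ 4 * kk α * p.F (kk α)) := by
  rw [dd_rho c.sys.symm]; exact c.sys.rho_le c.num x

theorem dd_fr_le : ddFr X ≤ kk α := by
  rw [← sum_ddNr]; simp only [dd_rho c.sys.symm, sum_rho]; exact c.sys.f_le_k c.num

theorem dd_Q_le : ∑ x, ddNr X x ^ 2 ≤ p.N ^ 4 * kk α * p.F (kk α) := by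
  simp only [dd_rho c.sys.symm]; exact c.sys.Q_le c.num

theorem dd_eta_sq {x y : α} (hxy : ϱ x y ≠ 0) : eta X s x y ^ 2 ≤ 3 / 2 := by
  have := sq_le_sq' (abs_le.1 (c.abs_eta_le hxy)).1 (abs_le.1 (c.abs_eta_le hxy)).2
  linarith

theorem dd_e11_sq {x y : α} (hxy : ϱ x y ≠ 0) : e11 X s x y ^ 2 ≤ 3 / 2 * ah X s y ^ 2 := by
  have := pow_le_pow_left₀ (abs_nonneg _) (c.abs_e11_le hxy) 2
  rw [mul_pow, sq_abs, sq_abs] at this
  nlinarith [sq_nonneg (ah X s y)]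

theorem dd_e22_sq {x y : α} (hxy : ϱ x y ≠ 0) : e22 X s x y ^ 2 ≤ 3 / 2 * ah X s x ^ 2 := by
  have := pow_le_pow_left₀ (abs_nonneg _) (c.abs_e22_le hxy) 2
  rw [mul_pow, sq_abs, sq_abs] at this
  nlinarith [sq_nonneg (ah X s x)]

variable (hk : p.k1 ≤ kk α) (hZ : ddFr Z ≤ p.GD)
include hk hZ

theorem dd_L1 : Ex ϱ (fun x y => ddIp Z (ddTm X Z s x y)) ≤ 2 * ddE p (kk α) := by
  have e : (fun x y => ddIp Z (ddTm X Z s x y)) = fun x y =>
      s * (s * eta X s x y * (X * Z * Zᵀ) y x) + s * (s * eta X s x y * (X * Z * Zᵀ) x y) := by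
    funext x y
    simp only [ddTm, ddIp_smul_right, ddIp_add_right, ddIp_outer, dd_bil]
    linear_combination (-eta X s x y * ((X * Z * Zᵀ) y x + (X * Z * Zᵀ) x y)) * c.s_sq
  have h0 : ∑ x, ∑ y, (X * Z * Zᵀ) x y = 0 := by rw [Matrix.mul_assoc]; exact c.dd_zero _
  have h1 := dd_noise c.nu_eta c.num.k_pos (X * Z) Z h0 (c.dd_fr_mul hZ) hZ
  have h2 := dd_noise c.nu_eta.swap c.num.k_pos (X * Z) Z h0 (c.dd_fr_mul hZ) hZ
  have h3 := dd_n1 c.num hk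
  rw [← Ex_transpose] at h2
  rw [e, Ex_add, Ex_const_mul, Ex_const_mul, Ex_weight, Ex_weight]
  linarith [c.dd_s_mul (Ex (fun x y => ϱ x y * (s * eta X s x y)) fun x y => (X * Z * Zᵀ) y x),
    c.dd_s_mul (Ex (fun x y => ϱ x y * (s * eta X s x y)) fun x y => (X * Z * Zᵀ) x y)]

theorem dd_L2 : Ex ϱ (fun x y => ddIp Z (ddTs X Z s x y)) ≤ 4 * ddE p (kk α) := by
  have hΩ := c.dd_fr_mul hZ
  have h1 : ∑ x, |(X * Z * Zᵀ) x x| ≤ √(p.Om (kk α) ^ 2 * p.GD) * √p.GD :=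
    (dd_sum_abs_diag _ _).trans (by gcongr)
  have h2 : ∑ x, |ah X s x| ≤ √(kk α) * √(p.N ^ 41 * p.F (kk α)) :=
    (dd_sum_abs _).trans (by gcongr; exact c.sys.Rh_le c.num c.sgn)
  have h3 := c.nu.Ex_prod_le (φ := fun x => |(X * Z * Zᵀ) x x|) (ψ := fun x => |ah X s x|)
    (fun _ => abs_nonneg _) fun _ => abs_nonneg _
  have h4 := c.nu.Ex_prod_le (ψ := fun x => |(X * Z * Zᵀ) x x|) (φ := fun x => |ah X s x|)
    (fun _ => abs_nonneg _) fun _ => abs_nonneg _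
  have h5 : 21 / 20 * (∑ x, |(X * Z * Zᵀ) x x|) * (∑ x, |ah X s x|) / kk α ^ 2
      ≤ ddE p (kk α) := le_trans (by gcongr) (dd_n2 c.num hk)
  rw [mul_right_comm] at h4
  refine (Ex_mono (Z' := fun x y => 2 * (|(X * Z * Zᵀ) x x| * |ah X s y|)
    + 2 * (|ah X s x| * |(X * Z * Zᵀ) y y|)) c.nu.nonneg fun x y hxy => ?_).trans ?_
  · simp only [ddTs, ddIp_smul_right, ddIp_add_right, ddIp_outer, dd_bil]
    have a1 := le_abs_self (e11 X s x y * (X * Z * Zᵀ) x x)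
    have a2 := le_abs_self (e22 X s x y * (X * Z * Zᵀ) y y)
    rw [abs_mul] at a1 a2
    have a3 := mul_le_mul_of_nonneg_right (c.abs_e11_le hxy) (abs_nonneg ((X * Z * Zᵀ) x x))
    have a4 := mul_le_mul_of_nonneg_right (c.abs_e22_le hxy) (abs_nonneg ((X * Z * Zᵀ) y y))
    have a5 := mul_nonneg (abs_nonneg ((X * Z * Zᵀ) x x)) (abs_nonneg (ah X s y))
    have a6 := mul_nonneg (abs_nonneg ((X * Z * Zᵀ) y y)) (abs_nonneg (ah X s x))
    linarith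
  · rw [Ex_add, Ex_const_mul, Ex_const_mul]
    linarith

theorem dd_L3 : Ex ϱ (fun x y => ddFr (ddTm X Z s x y))
    ≤ 2 * (ddFr Z / kk α) + 4 * ddE p (kk α) := by
  have hk0 := c.num.k_pos
  have e : (fun x y => ddFr (ddTm X Z s x y)) = fun x y => eta X s x y ^ 2 *
      (ddNr Z x * ddNr X y + 2 * ((X * Xᵀ) y x * (Z * Zᵀ) x y) + ddNr X x * ddNr Z y) := by
    funext x y
    simp only [ddTm, ddFr_smul, ddFr_add, ddFr_outer, ddIp_outer_outer, dd_dot_self]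
    simp only [dd_dot]
    ring
  have hW := c.nu_eta_sq
  have habs : ∑ x, |ddNr Z x| = ddFr Z := by simp only [abs_of_nonneg (ddNr_nonneg Z _), sum_ddNr]
  have h1 := hW.Ex_prod_row (ddNr Z) (ddNr X)
  have h2 := hW.Ex_prod_col (ddNr X) (ddNr Z)
  rw [habs, sum_ddNr, sum_ddNr] at h1 h2
  have hQ := c.dd_Q_le
  have hG := c.num.GD_pos.le
  have h3 : √(p.Row (kk α)) * ddFr Z * √(∑ y, ddNr X y ^ 2) / kk α ^ 2 ≤ ddE p (kk α) :=
    le_trans (by gcongr) (dd_n3 c.num hk)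
  have h4 : ddFr Z * ddFr X / kk α ^ 2 ≤ ddFr Z / kk α := by
    rw [← pair_div_sq]
    gcongr
    · exact ddFr_nonneg Z
    · exact c.dd_fr_le
  have h5 : ∑ x, ∑ y, (X * Xᵀ) y x ^ 2 ≤ p.Om (kk α) ^ 4 := by
    rw [sum_comm, c.sys.symm.eq, ← sq]
    exact (sum_sum_pw_sq c.sys.symm 2).trans_le (c.sys.t4_le c.num)
  have h6 : ∑ x, ∑ y, (Z * Zᵀ) x y ^ 2 ≤ p.GD * p.GD :=
    (ddFr_mul_le Z Z).trans (mul_le_mul hZ hZ (ddFr_nonneg Z) hG)
  have h7 := (dd_Ex_abs hW h5 h6).trans (dd_n4 c.num hk)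
  have h8 := Ex_mono (Z := fun x y => (X * Xᵀ) y x * (Z * Zᵀ) x y)
    (Z' := fun x y => |(X * Xᵀ) y x| * |(Z * Zᵀ) x y|) hW.nonneg
    fun x y _ => by rw [← abs_mul]; exact le_abs_self _
  rw [mul_right_comm] at h2
  rw [mul_comm (ddFr X)] at h2
  rw [e, Ex_weight, Ex_add, Ex_add, Ex_const_mul]
  linarith [(abs_le.1 h1).2, (abs_le.1 h2).2]

theorem dd_L4 : Ex ϱ (fun x y => ddFr (ddTs X Z s x y)) ≤ 6 * (ddE p (kk α) / p.N ^ 2) := by
  set r := √(p.N ^ 4 * kk α * p.F (kk α)) with hr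
  have hr0 : 0 ≤ r := Real.sqrt_nonneg _
  have h3 := c.nu.Ex_prod_le (φ := ddNr Z) (ψ := fun x => ah X s x ^ 2) (ddNr_nonneg Z)
    fun _ => sq_nonneg _
  have h4 := c.nu.Ex_prod_le (ψ := ddNr Z) (φ := fun x => ah X s x ^ 2) (fun _ => sq_nonneg _)
    (ddNr_nonneg Z)
  rw [mul_right_comm] at h4
  rw [sum_ddNr] at h3 h4
  have hR := c.sys.Rh_le c.num c.sgn
  have hG := c.num.GD_pos.le
  have h5 : r * (21 / 20 * ddFr Z * (∑ x, ah X s x ^ 2) / kk α ^ 2) ≤ ddE p (kk α) / p.N ^ 2 :=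
    le_trans (by gcongr) (dd_n5 c.num hk)
  refine (Ex_mono (Z' := fun x y => 3 * r * (ddNr Z x * ah X s y ^ 2)
    + 3 * r * (ah X s x ^ 2 * ddNr Z y)) c.nu.nonneg fun x y hxy => ?_).trans ?_
  · refine (ddFr_add_le_two _ _).trans ?_
    simp only [ddFr_smul, ddFr_outer, dd_dot_self]
    have a1 : e11 X s x y ^ 2 * (ddNr X x * ddNr Z x) ≤ 3 / 2 * ah X s y ^ 2 * (r * ddNr Z x) := by
      have := ddNr_nonneg Z x; have := ddNr_nonneg X x
      gcongr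
      · exact c.dd_e11_sq hxy
      · exact c.dd_nr_le x
    have a2 : e22 X s x y ^ 2 * (ddNr X y * ddNr Z y) ≤ 3 / 2 * ah X s x ^ 2 * (r * ddNr Z y) := by
      have := ddNr_nonneg Z y; have := ddNr_nonneg X y
      gcongr
      · exact c.dd_e22_sq hxy
      · exact c.dd_nr_le y
    linarith
  · rw [Ex_add, Ex_const_mul, Ex_const_mul]
    linarith [mul_le_mul_of_nonneg_left h3 hr0, mul_le_mul_of_nonneg_left h4 hr0]

omit hk in
/-- `∑ ρ_x |Z_x|²` -/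
theorem dd_rho_nr : ∑ x, ddNr X x * ddNr Z x ≤ √(p.N ^ 4 * kk α * p.F (kk α)) * p.GD := by
  refine le_trans ?_ (mul_le_mul_of_nonneg_left hZ (Real.sqrt_nonneg _))
  rw [← sum_ddNr, mul_sum]
  exact sum_le_sum fun x _ => mul_le_mul_of_nonneg_right (c.dd_nr_le x) (ddNr_nonneg Z x)

theorem dd_L5r : Ex ϱ (fun x y => ddNr (ddTm X Z s x y) x + ddNr (ddTm X Z s x y) y)
    ≤ 12 * (ddE p (kk α) / p.N ^ 2) := by
  have h1 : Ex ϱ (fun x y => X x y ^ 2 * ddNr Z x) ≤ ddE p (kk α) / p.N ^ 2 := by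
    refine (dd_Ex_le c.nu (fun x y => mul_nonneg (sq_nonneg _) (ddNr_nonneg Z x)) ?_).trans
      (dd_n6 c.num hk)
    simp only [← sum_mul]
    exact c.dd_rho_nr hZ
  have hR := c.sys.R_le c.num
  have h2 : Ex ϱ (fun x y => X x x ^ 2 * ddNr Z y) ≤ ddE p (kk α) / p.N ^ 2 := by
    refine (c.nu.Ex_prod_le (fun _ => sq_nonneg _) (ddNr_nonneg Z)).trans
      (le_trans ?_ (dd_n7 c.num hk))
    have := c.num.N_pos; have := c.num.F_pos; have := ddFr_nonneg Z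
    rw [sum_ddNr]
    gcongr
    exact hR
  have h3 := h1
  have h4 := h2
  rw [← Ex_swap c.meas.symm] at h3 h4
  refine (Ex_mono (Z' := fun x y => 3 * (X x y ^ 2 * ddNr Z x) + 3 * (X x x ^ 2 * ddNr Z y)
    + 3 * (X y x ^ 2 * ddNr Z y) + 3 * (X y y ^ 2 * ddNr Z x)) c.nu.nonneg
    fun x y hxy => ?_).trans ?_
  · have a0 := c.dd_eta_sq hxy
    have a1 := ddNr_add_le_two (vecMulVec (X y) (Z x)) (vecMulVec (X x) (Z y)) x
    have a2 := ddNr_add_le_two (vecMulVec (X y) (Z x)) (vecMulVec (X x) (Z y)) y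
    have a3 := mul_le_mul_of_nonneg_right a0
      (ddNr_nonneg (vecMulVec (X y) (Z x) + vecMulVec (X x) (Z y)) x)
    have a4 := mul_le_mul_of_nonneg_right a0
      (ddNr_nonneg (vecMulVec (X y) (Z x) + vecMulVec (X x) (Z y)) y)
    simp only [ddNr_outer, dd_dot_self, c.sys.symm.apply x y] at a1 a2
    simp only [ddTm, ddNr_smul, c.sys.symm.apply x y]
    linarith
  · simp only [Ex_add, Ex_const_mul]
    linarith

theorem dd_L5c (hd : ∑ x, Z x x ^ 2 ≤ p.N ^ 4 * kk α * p.F (kk α)) :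
    Ex ϱ (fun x y => ddNr (ddTm X Z s x y)ᵀ x + ddNr (ddTm X Z s x y)ᵀ y)
    ≤ 12 * (ddE p (kk α) / p.N ^ 2) := by
  have h1 : Ex ϱ (fun x y => Z x y ^ 2 * ddNr X y) ≤ ddE p (kk α) / p.N ^ 2 := by
    refine (dd_Ex_le c.nu (fun x y => mul_nonneg (sq_nonneg _) (ddNr_nonneg X y)) ?_).trans
      (dd_n6 c.num hk)
    rw [sum_comm]
    simp only [← sum_mul]
    exact (sum_congr rfl fun x _ => mul_comm _ _).trans_le
      (c.dd_rho_nr (Z := Zᵀ) (by rwa [ddFr_transpose]))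
  have h2 : Ex ϱ (fun x y => Z x x ^ 2 * ddNr X y) ≤ ddE p (kk α) / p.N ^ 2 := by
    refine (c.nu.Ex_prod_le (fun _ => sq_nonneg _) (ddNr_nonneg X)).trans
      (le_trans ?_ (dd_n8 c.num hk))
    have := c.num.N_pos; have := c.num.F_pos; have := ddFr_nonneg X; have := c.num.k_pos
    rw [sum_ddNr]
    gcongr
    exact c.dd_fr_le
  have h3 := h1
  have h4 := h2
  rw [← Ex_swap c.meas.symm] at h3 h4
  refine (Ex_mono (Z' := fun x y => 3 * (Z x y ^ 2 * ddNr X y) + 3 * (Z x x ^ 2 * ddNr X y)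
    + 3 * (Z y x ^ 2 * ddNr X x) + 3 * (Z y y ^ 2 * ddNr X x)) c.nu.nonneg
    fun x y hxy => ?_).trans ?_
  · have a0 := c.dd_eta_sq hxy
    have a1 := ddNr_add_le_two (vecMulVec (Z x) (X y)) (vecMulVec (Z y) (X x)) x
    have a2 := ddNr_add_le_two (vecMulVec (Z x) (X y)) (vecMulVec (Z y) (X x)) y
    have a3 := mul_le_mul_of_nonneg_right a0
      (ddNr_nonneg (vecMulVec (Z x) (X y) + vecMulVec (Z y) (X x)) x)
    have a4 := mul_le_mul_of_nonneg_right a0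
      (ddNr_nonneg (vecMulVec (Z x) (X y) + vecMulVec (Z y) (X x)) y)
    simp only [ddNr_outer, dd_dot_self] at a1 a2
    simp only [ddTm, transpose_smul, transpose_add, transpose_vecMulVec, ddNr_smul]
    linarith
  · simp only [Ex_add, Ex_const_mul]
    linarith

theorem dd_L7 : 2 * (ddFr Z / kk α) - 2 * ddE p (kk α) ≤ Ex ϱ (fun x y => ddNr Z x + ddNr Z y) := by
  have habs : ∑ x, |ddNr Z x| = ddFr Z := by simp only [abs_of_nonneg (ddNr_nonneg Z _), sum_ddNr]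
  have h1 := c.nu.Ex_left (ddNr Z)
  have h2 := c.nu.Ex_right (ddNr Z)
  rw [habs, sum_ddNr] at h1 h2
  have hk0 := c.num.k_pos
  have h3 : √(p.Row (kk α) / kk α) * ddFr Z / kk α ≤ ddE p (kk α) :=
    le_trans (by gcongr) (dd_n9 c.num hk)
  rw [Ex_add]
  linarith [(abs_le.1 h1).1, (abs_le.1 h2).1]

end Ctx

/-- size of the pivot vectors -/
noncomputable def ddAl (X : Matrix α α ℝ) (s : ℝ) (x y : α) : ℝ :=
  (1 + ddNr X x) * (ddP1 X s x y ⬝ᵥ ddP1 X s x y) + (1 + ddNr X y) * (ddP2 X s x y ⬝ᵥ ddP2 X s x y)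
    + ddNr X x + ddNr X y

theorem Ctx.dd_L6 (c : Ctx p ϱ h sz X s) (hk : p.k1 ≤ kk α) :
    Ex ϱ (fun x y => ddAl X s x y ^ 2) ≤ 3 / 5 * (ddE p (kk α) / p.N ^ 2) := by
  set r : α → ℝ := fun x => 1 + ddNr X x with hr
  have hr1 : ∀ x, 1 ≤ r x := fun x => le_add_of_nonneg_right (ddNr_nonneg X x)
  have hN := c.num.N_pos
  have hF := c.num.F_pos
  have hk0 := c.num.k_pos
  have h1 : ∑ x, r x ^ 2 ≤ p.N ^ 5 * kk α := by
    refine le_trans ?_ (dd_n10 c.num hk)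
    refine (sum_le_sum (g := fun x => 2 * 1 + 2 * ddNr X x ^ 2) fun x _ => ?_).trans ?_
    · simp only [hr]; nlinarith [sq_nonneg (1 - ddNr X x)]
    · rw [sum_add_distrib, ← mul_sum, ← mul_sum, pair_sum_one]
      linarith [c.dd_Q_le]
  have h2 : ∑ x, (r x ^ 2) ^ 2 ≤ (p.N ^ 5 * kk α) ^ 2 :=
    (sum_sq_le_sq_sum_of_nonneg fun x _ => sq_nonneg (r x)).trans (by gcongr)
  have h3 : ∑ x, (ah X s x ^ 2) ^ 2 ≤ (p.N ^ 41 * p.F (kk α)) ^ 2 :=
    (sum_sq_le_sq_sum_of_nonneg fun x _ => sq_nonneg (ah X s x)).trans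
      (by gcongr; exact c.sys.Rh_le c.num c.sgn)
  have h4 : 1000 * Ex ϱ (fun x y => (r x ^ 2) ^ 2 * (ah X s y ^ 2) ^ 2)
      ≤ ddE p (kk α) / p.N ^ 2 := by
    refine le_trans (mul_le_mul_of_nonneg_left ((c.nu.Ex_prod_le (fun _ => sq_nonneg _)
      fun _ => sq_nonneg _).trans ?_) (by norm_num)) (dd_n11 c.num hk)
    gcongr
  have h5 : 1000 * Ex ϱ (fun x y => r x ^ 2 * r y ^ 2) ≤ ddE p (kk α) / p.N ^ 2 := by
    refine le_trans (mul_le_mul_of_nonneg_left ((c.nu.Ex_prod_le (fun _ => sq_nonneg _)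
      fun _ => sq_nonneg _).trans ?_) (by norm_num)) (dd_n12 c.num hk)
    gcongr
  have h6 := h4
  rw [← Ex_swap c.meas.symm] at h6
  refine (Ex_mono (Z' := fun x y => 200 * ((r x ^ 2) ^ 2 * (ah X s y ^ 2) ^ 2)
    + 200 * (r x ^ 2 * r y ^ 2) + 200 * ((r y ^ 2) ^ 2 * (ah X s x ^ 2) ^ 2)) c.nu.nonneg
    fun x y hxy => ?_).trans ?_
  · have a0 := c.dd_eta_sq hxy
    have a1 := c.dd_e11_sq hxy
    have a2 := c.dd_e22_sq hxy
    have b1 := dd_dot_add_le (e11 X s x y) (eta X s x y) (X x) (X y)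
    have b2 := dd_dot_add_le (eta X s x y) (e22 X s x y) (X x) (X y)
    rw [dd_dot_self, dd_dot_self] at b1 b2
    have ex : ddNr X x ≤ r x := by simp only [hr]; linarith
    have ey : ddNr X y ≤ r y := by simp only [hr]; linarith
    have nx := ddNr_nonneg X x
    have ny := ddNr_nonneg X y
    have rx := hr1 x
    have ry := hr1 y
    have c1 : ddP1 X s x y ⬝ᵥ ddP1 X s x y ≤ 2 * (3 / 2 * ah X s y ^ 2) * r x + 2 * (3 / 2) * r y :=
      b1.trans (by gcongr)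
    have c2 : ddP2 X s x y ⬝ᵥ ddP2 X s x y ≤ 2 * (3 / 2) * r x + 2 * (3 / 2 * ah X s x ^ 2) * r y :=
      b2.trans (by gcongr)
    have c3 := mul_le_mul_of_nonneg_left c1 (zero_le_one.trans rx)
    have c4 := mul_le_mul_of_nonneg_left c2 (zero_le_one.trans ry)
    have c5 : r x ≤ r x * r y := le_mul_of_one_le_right (zero_le_one.trans rx) ry
    have c6 : r y ≤ r x * r y := le_mul_of_one_le_left (zero_le_one.trans ry) rx
    have c7 : 0 ≤ r x ^ 2 * ah X s y ^ 2 := by positivity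
    have c8 : 0 ≤ r y ^ 2 * ah X s x ^ 2 := by positivity
    have d0 : 0 ≤ ddAl X s x y := by
      have := dd_dot_nonneg (ddP1 X s x y); have := dd_dot_nonneg (ddP2 X s x y)
      unfold ddAl; positivity
    have d1 : ddAl X s x y ≤ 8 * (r x ^ 2 * ah X s y ^ 2 + r x * r y + r y ^ 2 * ah X s x ^ 2) := by
      have : ddAl X s x y = r x * (ddP1 X s x y ⬝ᵥ ddP1 X s x y)
        + r y * (ddP2 X s x y ⬝ᵥ ddP2 X s x y) + ddNr X x + ddNr X y := rfl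
      rw [this]
      nlinarith
    refine (pow_le_pow_left₀ d0 d1 2).trans ?_
    have e1 : (r x ^ 2) ^ 2 * (ah X s y ^ 2) ^ 2 = (r x ^ 2 * ah X s y ^ 2) ^ 2 := by ring
    have e2 : (r y ^ 2) ^ 2 * (ah X s x ^ 2) ^ 2 = (r y ^ 2 * ah X s x ^ 2) ^ 2 := by ring
    have e3 : r x ^ 2 * r y ^ 2 = (r x * r y) ^ 2 := by ring
    rw [e1, e2, e3]
    generalize r x ^ 2 * ah X s y ^ 2 = A
    generalize r y ^ 2 * ah X s x ^ 2 = B
    generalize r x * r y = C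
    nlinarith [sq_nonneg (A - B), sq_nonneg (A - C), sq_nonneg (B - C), sq_nonneg A, sq_nonneg B,
      sq_nonneg C]
  · simp only [Ex_add, Ex_const_mul]
    linarith

end Crest.Agent.R062
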