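import Crest.Agent.R062.Mom

/-! Drift of the sum of the squared diagonal entries. -/

open Matrix Finset

namespace Crest.Agent.R062
variable {α : Type} [Fintype α] [DecidableEq α] {p : Par ℝ} {ϱ h sz : α → α → ℝ}
  {X Y : Matrix α α ℝ} {s : ℝ}

/-! ### real inequalities -/

theorem dr_point {d e1 e2 η u v δ T B1 B2 : ℝ} (hT : 0 < T) (hη : |η| ≤ 101 / 100)
    (he : e1 * e2 ≤ 1) (h1 : e1 ^ 2 ≤ (102 / 100) ^ 2 * B1) (h2 : e2 ^ 2 ≤ (102 / 100) ^ 2 * B2) :
    (d + (e1 * u ^ 2 + 2 * η * (u * v) + e2 * v ^ 2) + δ) ^ 2 ≤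
      d ^ 2 * (1 + 1 / T) + (T + 22) * δ ^ 2
        + 2 * (e1 * (d * (u * u))) + 4 * (η * (d * (u * v))) + 2 * (e2 * (d * (v * v)))
        + 115 / 100 * (u ^ 4 * B1) + 115 / 100 * (B2 * v ^ 4) + 100 * (u ^ 2 * v ^ 2) := by
  have a1 : 2 * d * δ ≤ d ^ 2 * (1 / T) + T * δ ^ 2 := by
    have : 0 ≤ (d - T * δ) ^ 2 / T := by positivity
    have e : (d - T * δ) ^ 2 / T = d ^ 2 * (1 / T) + T * δ ^ 2 - 2 * d * δ := by
      field_simp
      ring
    linarith
  have a2 : ∀ P w : ℝ, (P + w + δ) ^ 2 ≤ 11 / 10 * P ^ 2 + 22 * w ^ 2 + 22 * δ ^ 2 := by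
    intro P w
    nlinarith [sq_nonneg (P - 10 * (w + δ)), sq_nonneg (w - δ)]
  have a3 := a2 (e1 * u ^ 2 + e2 * v ^ 2) (2 * η * (u * v))
  have huv : 0 ≤ u ^ 2 * v ^ 2 := by positivity
  have hu : 0 ≤ u ^ 4 := by positivity
  have hv : 0 ≤ v ^ 4 := by positivity
  have a4 : η ^ 2 ≤ (101 / 100) ^ 2 := by
    rw [← sq_abs]; exact pow_le_pow_left₀ (abs_nonneg _) hη 2
  have a5 := mul_le_mul_of_nonneg_right a4 huv
  have a6 := mul_le_mul_of_nonneg_right he huv
  have a7 := mul_le_mul_of_nonneg_right h1 hu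
  have a8 := mul_le_mul_of_nonneg_right h2 hv
  have b1 : 0 ≤ B1 := by nlinarith [sq_nonneg e1]
  have b2 : 0 ≤ B2 := by nlinarith [sq_nonneg e2]
  have a9 := mul_nonneg b1 hu
  have a10 := mul_nonneg b2 hv
  nlinarith

theorem dr_lower {a w N : ℝ} (hN : 0 < N) : (1 - 1 / N ^ 2) * a ^ 2 - N ^ 2 * w ^ 2 ≤ (a + w) ^ 2 := by
  have h0 : 0 ≤ (N * w + a / N) ^ 2 := sq_nonneg _
  have e : (N * w + a / N) ^ 2 = N ^ 2 * w ^ 2 + 2 * a * w + 1 / N ^ 2 * a ^ 2 := by
    field_simp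
    ring
  nlinarith [sq_nonneg w]

theorem dr_schur {a b c s D : ℝ} (hs : s ^ 2 = 1) (hD : D = (s - c) ^ 2 - a * b) (h0 : D ≠ 0) :
    a + (b / D * a ^ 2 + 2 * ((s - c) / D) * (a * c) + a / D * c ^ 2) = 1 / D * a := by
  field_simp
  rw [hD]
  linear_combination a * hs

theorem dr_four (a b : ℝ) : (a + b) ^ 4 ≤ 116 / 100 * a ^ 4 + 10000 * b ^ 4 := by
  have h1 : ∀ a b : ℝ, (a + b) ^ 2 ≤ 21 / 20 * a ^ 2 + 21 * b ^ 2 := fun a b => by
    nlinarith [sq_nonneg (a - 20 * b)]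
  have h2 := h1 (21 / 20 * a ^ 2) (21 * b ^ 2)
  have h3 := pow_le_pow_left₀ (sq_nonneg _) (h1 a b) 2
  have ha : 0 ≤ a ^ 4 := by positivity
  have hb : 0 ≤ b ^ 4 := by positivity
  nlinarith

theorem dr_Ex_sum {ι : Type} [Fintype ι] (W : α → α → ℝ) (Z : ι → α → α → ℝ) :
    Ex W (fun x y => ∑ i, Z i x y) = ∑ i, Ex W (Z i) := by
  simp only [Ex, Finset.mul_sum, ← Finset.sum_div]
  congr 1
  rw [Finset.sum_comm (s := univ) (t := univ) (f := fun i x => ∑ y, W x y * Z i x y)]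
  exact Finset.sum_congr rfl fun x _ => Finset.sum_comm

/-! ### the statistics -/

noncomputable def drTh (X : Matrix α α ℝ) (s : ℝ) (x y : α) : ℝ :=
  ∑ z, X z z * (ch X s z x * ch X s z y)
noncomputable def drT (X : Matrix α α ℝ) (s : ℝ) (x y : α) : ℝ :=
  ∑ z, ch X s z x ^ 2 * ch X s z y ^ 2
noncomputable def drU (X : Matrix α α ℝ) (s : ℝ) (x : α) : ℝ := ∑ z, ch X s z x ^ 4
noncomputable def drRho (X : Matrix α α ℝ) (s : ℝ) (z : α) : ℝ := ∑ x, ch X s z x ^ 2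
/-- the unit of the error terms -/
noncomputable def drEps (p : Par ℝ) (k : ℝ) : ℝ := p.N ^ 38 * p.F k / k
/-- bound for `∑ |X z z| * drRho z` -/
noncomputable def drS (p : Par ℝ) (k : ℝ) : ℝ :=
  Real.sqrt (p.N ^ 40 * p.F k) * Real.sqrt (10 * p.N ^ 4 * k * p.F k)

section numerics
attribute [local irreducible] Par.k1 Par.stau2 Par.sT Par.GR Par.GD Par.GV Par.G4 Par.G3sq Par.Gf
  Par.s3
variable {k : ℝ} (hn : Num p k)
include hn

theorem dr_n1 : p.N ^ 2 / k ^ 2 ≤ drEps p k := by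
  unfold drEps; lognum hn
theorem dr_n2 : drS p k * p.tauB k / k ^ 2 +
    Real.sqrt (p.Row k) * drS p k * Real.sqrt (p.N ^ 41 * p.F k) / k ^ 2 ≤ drEps p k := by
  unfold drEps drS; lognum hn
theorem dr_n3 : Real.sqrt (p.N ^ 40 * p.F k) * Real.sqrt k / k ^ 2 +
    p.Ups k * drS p k / k ^ 2 ≤ drEps p k := by
  unfold drEps drS; lognum hn
theorem dr_n4 : 10 * p.N ^ 4 * k * p.F k / k ^ 2 ≤ drEps p k := by
  unfold drEps; lognum hn
theorem dr_n5 : Real.sqrt (p.Row k / k) ≤ 1 / p.N ^ 2 := by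
  lognum hn
theorem dr_n6 : 8 / k ≤ 2 * p.N ^ 4 * k * p.F k := by
  lognum hn
theorem dr_n7 : 10000 / k ^ 2 ≤ k / p.N ^ 100 := by
  lognum hn
theorem dr_n8 : 10 * p.F k / k ^ 2 + 4 * (p.N ^ 41 * p.F k) * (k / p.N ^ 100) / k ^ 2
    ≤ drEps p k := by
  unfold drEps; lognum hn
end numerics

namespace Ctx
variable (c : Ctx p ϱ h sz X s)
include c

theorem dr_ch_symm (z t : α) : ch X s z t = ch X s t z := by
  simp only [ch, c.sys.symm.apply z t]

theorem dr_pointwise {x y : α} (hxy : ϱ x y ≠ 0) :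
    RR (upd X s x y) ≤ (RR X * (1 + 1 / (p.N ^ 2 * kk α)) + 30 * (p.N ^ 2 / kk α ^ 2))
      + 2 * (1 / Del X s x y * (drTh X s x x * ah X s y))
      + 4 * s * (s * eta X s x y * drTh X s x y)
      + 2 * (1 / Del X s x y * (ah X s x * drTh X s y y))
      + 115 / 100 * (drU X s x * ah X s y ^ 2) + 115 / 100 * (ah X s x ^ 2 * drU X s y)
      + 100 * drT X s x y
      - (1 - 1 / p.N ^ 2) * ((1 / Del X s x y) ^ 2 * X x x ^ 2)
      - (1 - 1 / p.N ^ 2) * ((1 / Del X s x y) ^ 2 * X y y ^ 2) := by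
  have hp := c.piv hxy
  have hk := c.num.k_big
  have hN := c.num.hN
  have hNk := c.num.N_le_k
  have hD := c.Del_ge hxy
  have hs := c.s_sq
  set k := kk α with hkdef
  set D := Del X s x y with hDdef
  have hk0 : 0 < k := by linarith
  have hk2 : 0 < k - 2 := by linarith
  have hN0 : 0 < p.N := by linarith
  have hD0 : 0 < D := by linarith
  let A : α → ℝ := fun z => X z z + (e11 X s x y * ch X s z x ^ 2
    + 2 * eta X s x y * (ch X s z x * ch X s z y) + e22 X s x y * ch X s z y ^ 2)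
    + (s / k - s / (k - 2))
  have hA : ∀ z ∈ rest x y, upd X s x y z z = A z := by
    intro z hz
    have h1 := hp.upd_apply_K hz hz
    rw [c.dr_ch_symm x z, c.dr_ch_symm y z] at h1
    have h2 : ch X s z z = X z z + s / k := rfl
    simp only [A]
    linear_combination h1 + h2
  have hRR : RR (upd X s x y) = ∑ z, A z ^ 2 - A x ^ 2 - A y ^ 2 := by
    rw [RR, sum_eq_rest hp.ne, sum_eq_rest hp.ne fun z => A z ^ 2,
      hp.upd_out (z := x) (by simp [rest]), hp.upd_out (z := y) (by simp [rest]),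
      Finset.sum_congr rfl fun z hz => by rw [hA z hz]]
    ring
  have hδ : (s / k - s / (k - 2)) ^ 2 ≤ 9 / k ^ 4 := by
    have e : (s / k - s / (k - 2)) ^ 2 = 4 / (k ^ 2 * (k - 2) ^ 2) := by
      field_simp
      linear_combination 4 * hs
    rw [e, div_le_div_iff₀ (by positivity) (by positivity)]
    have : 2 * k ≤ 3 * (k - 2) := by linarith
    have h2 := pow_le_pow_left₀ (by positivity) this 2
    nlinarith [mul_le_mul_of_nonneg_left h2 (sq_nonneg k)]
  have hw : (1 / D * (s / k) - s / (k - 2)) ^ 2 ≤ 9 / k ^ 2 := by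
    have e : (1 / D * (s / k) - s / (k - 2)) ^ 2 = (1 / (D * k) - 1 / (k - 2)) ^ 2 := by
      rw [show 1 / D * (s / k) - s / (k - 2) = s * (1 / (D * k) - 1 / (k - 2)) by field_simp,
        mul_pow, hs, one_mul]
    have b1 : 1 / (D * k) ≤ 3 / k := by
      rw [div_le_div_iff₀ (by positivity) hk0]; nlinarith
    have b2 : 1 / (k - 2) ≤ 3 / k := by
      rw [div_le_div_iff₀ hk2 hk0]; linarith
    have b3 : 0 < 1 / (D * k) := by positivity
    have b4 : 0 < 1 / (k - 2) := by positivity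
    rw [e, show 9 / k ^ 2 = (3 / k) ^ 2 by ring]
    exact sq_le_sq' (by linarith) (by linarith)
  have hAx : A x = 1 / D * X x x + (1 / D * (s / k) - s / (k - 2)) := by
    have h1 := dr_schur (a := ah X s x) (b := ah X s y) (c := ch X s x y) hs hDdef hD0.ne'
    have h2 : ah X s x = X x x + s / k := rfl
    have h3 : ch X s x x = ah X s x := rfl
    simp only [A, e11, e22, eta, h3, ← hDdef]
    linear_combination h1 + (1 / D - 1) * h2
  have hAy : A y = 1 / D * X y y + (1 / D * (s / k) - s / (k - 2)) := by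
    have h1 := dr_schur (a := ah X s y) (b := ah X s x) (c := ch X s x y) hs
      (hDdef.trans (by rw [Del, mul_comm])) hD0.ne'
    have h2 : ah X s y = X y y + s / k := rfl
    have h3 : ch X s y y = ah X s y := rfl
    simp only [A, e11, e22, eta, h3, ← hDdef, c.dr_ch_symm y x]
    linear_combination h1 + (1 / D - 1) * h2
  have lx := dr_lower (a := 1 / D * X x x) (w := 1 / D * (s / k) - s / (k - 2)) hN0
  have ly := dr_lower (a := 1 / D * X y y) (w := 1 / D * (s / k) - s / (k - 2)) hN0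
  rw [← hAx, mul_pow] at lx
  rw [← hAy, mul_pow] at ly
  have he : e11 X s x y * e22 X s x y ≤ 1 := by
    have h1 := mul_le_mul (c.abs_e11_le hxy) (c.abs_e22_le hxy) (abs_nonneg _) (by positivity)
    have h2 := c.abs_ahah_le hxy
    rw [abs_mul] at h2
    rw [← abs_mul] at h1
    nlinarith [le_abs_self (e11 X s x y * e22 X s x y)]
  have h1 : e11 X s x y ^ 2 ≤ (102 / 100) ^ 2 * ah X s y ^ 2 := by
    have := pow_le_pow_left₀ (abs_nonneg _) (c.abs_e11_le hxy) 2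
    rwa [sq_abs, mul_pow, sq_abs] at this
  have h2 : e22 X s x y ^ 2 ≤ (102 / 100) ^ 2 * ah X s x ^ 2 := by
    have := pow_le_pow_left₀ (abs_nonneg _) (c.abs_e22_le hxy) 2
    rwa [sq_abs, mul_pow, sq_abs] at this
  have hsum : ∑ z, A z ^ 2 ≤ _ := Finset.sum_le_sum fun z _ =>
    dr_point (T := p.N ^ 2 * k) (by positivity) (c.abs_eta_le hxy) he h1 h2
  simp only [Finset.sum_add_distrib, ← Finset.mul_sum, ← Finset.sum_mul, Finset.sum_const,
    Finset.card_univ, nsmul_eq_mul] at hsum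
  have hc0 : (Fintype.card α : ℝ) * ((p.N ^ 2 * k + 22) * (s / k - s / (k - 2)) ^ 2)
      ≤ 12 * (p.N ^ 2 / k ^ 2) := by
    have b1 : p.N ^ 2 * k + 22 ≤ 4 / 3 * (p.N ^ 2 * k) := by
      have : 1 ≤ p.N ^ 2 := one_le_pow₀ (by linarith)
      nlinarith
    calc _ ≤ k * ((4 / 3 * (p.N ^ 2 * k)) * (9 / k ^ 4)) :=
          mul_le_mul_of_nonneg_left (mul_le_mul b1 hδ (sq_nonneg _) (by positivity)) hk0.le
      _ = _ := by field_simp; ring
  have hc1 : p.N ^ 2 * (1 / D * (s / k) - s / (k - 2)) ^ 2 ≤ 9 * (p.N ^ 2 / k ^ 2) := by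
    calc _ ≤ p.N ^ 2 * (9 / k ^ 2) := mul_le_mul_of_nonneg_left hw (sq_nonneg _)
      _ = _ := by ring
  have e1 : e11 X s x y * drTh X s x x = 1 / D * (drTh X s x x * ah X s y) := by
    rw [e11]; ring
  have e2 : e22 X s x y * drTh X s y y = 1 / D * (ah X s x * drTh X s y y) := by
    rw [e22]; ring
  have e3 : s * (s * eta X s x y * drTh X s x y) = eta X s x y * drTh X s x y := by
    linear_combination (eta X s x y * drTh X s x y) * hs
  rw [hRR, mul_assoc 4 s, e3, ← e1, ← e2]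
  unfold drTh drU drT RR
  linarith

theorem dr_rho_nonneg (z : α) : 0 ≤ drRho X s z := by
  have _ := c
  unfold drRho; positivity

theorem dr_Qh : ∑ z, drRho X s z ^ 2 ≤ 10 * p.N ^ 4 * kk α * p.F (kk α) := by
  have hk := c.num.k_pos
  have h1 : ∑ z, drRho X s z ^ 2 ≤ ∑ z, (8 * rho X z ^ 2 + 8 / kk α ^ 2) := by
    refine Finset.sum_le_sum fun z _ => ?_
    have a1 : drRho X s z ≤ 2 * rho X z + 2 / kk α := c.sys.ch_sq_row c.num c.sgn z
    have a2 := pow_le_pow_left₀ (c.dr_rho_nonneg z) a1 2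
    have e : 8 / kk α ^ 2 = 8 * (1 / kk α) ^ 2 := by ring
    rw [e]
    rw [show 2 / kk α = 2 * (1 / kk α) by ring] at a2
    nlinarith [sq_nonneg (rho X z - 1 / kk α)]
  rw [Finset.sum_add_distrib, ← Finset.mul_sum, Finset.sum_const, Finset.card_univ,
    nsmul_eq_mul] at h1
  have e : (Fintype.card α : ℝ) * (8 / kk α ^ 2) = 8 / kk α := by
    change kk α * _ = _
    field_simp
  rw [e] at h1
  linarith [c.sys.Q_le c.num, dr_n6 c.num]

theorem dr_sqrt_R : Real.sqrt (∑ z, |X z z| ^ 2) ≤ Real.sqrt (p.N ^ 40 * p.F (kk α)) := by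
  simp only [sq_abs]
  exact Real.sqrt_le_sqrt (c.sys.R_le c.num)

theorem dr_S : ∑ z, |X z z| * drRho X s z ≤ drS p (kk α) :=
  (le_abs_self _).trans ((pair_cs _ _).trans (mul_le_mul c.dr_sqrt_R (Real.sqrt_le_sqrt c.dr_Qh)
    (Real.sqrt_nonneg _) (Real.sqrt_nonneg _)))

theorem dr_abs_diag : ∑ z, |X z z| ≤ Real.sqrt (p.N ^ 40 * p.F (kk α)) * Real.sqrt (kk α) := by
  have h1 := pair_cs (fun z => |X z z|) fun _ : α => (1 : ℝ)
  simp only [mul_one, one_pow, pair_sum_one] at h1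
  exact (le_abs_self _).trans
    (h1.trans (mul_le_mul_of_nonneg_right c.dr_sqrt_R (Real.sqrt_nonneg _)))

theorem dr_Th_diag : ∑ x, |drTh X s x x| ≤ drS p (kk α) := by
  refine le_trans ?_ c.dr_S
  simp only [drRho, Finset.mul_sum]
  rw [Finset.sum_comm]
  refine Finset.sum_le_sum fun x _ => (Finset.abs_sum_le_sum_abs _ _).trans (le_of_eq ?_)
  exact Finset.sum_congr rfl fun z _ => by rw [abs_mul, abs_mul_self, sq]

theorem dr_mean : (∑ x, drTh X s x x) * ∑ y, ah X s y ≤ drS p (kk α) * p.tauB (kk α) := by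
  refine (le_abs_self _).trans ?_
  rw [abs_mul]
  have h1 : |∑ y, ah X s y| ≤ p.tauB (kk α) := by
    rw [c.sys.sum_ah c.num]
    refine (abs_add_le _ _).trans ?_
    rw [c.abs_s]
    exact c.sys.abs_tau_le c.num
  have h2 := (Finset.abs_sum_le_sum_abs _ _).trans c.dr_Th_diag
  exact mul_le_mul h2 h1 (abs_nonneg _) ((abs_nonneg _).trans h2)

theorem dr_B1_aux : (∑ x, drTh X s x x) * (∑ y, ah X s y) / kk α ^ 2 +
    Real.sqrt (p.Row (kk α)) * (∑ x, |drTh X s x x|) * Real.sqrt (∑ y, ah X s y ^ 2) / kk α ^ 2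
      ≤ drEps p (kk α) := by
  refine le_trans (add_le_add (div_le_div_of_nonneg_right c.dr_mean (sq_nonneg _))
    (div_le_div_of_nonneg_right ?_ (sq_nonneg _))) (dr_n2 c.num)
  have h0 : 0 ≤ drS p (kk α) := by unfold drS; positivity
  exact mul_le_mul (mul_le_mul_of_nonneg_left c.dr_Th_diag (Real.sqrt_nonneg _))
    (Real.sqrt_le_sqrt (c.sys.Rh_le c.num c.sgn)) (Real.sqrt_nonneg _) (by positivity)

theorem dr_B1 : Ex ϱ (fun x y => 1 / Del X s x y * (drTh X s x x * ah X s y)) ≤ drEps p (kk α) := by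
  rw [Ex_weight]
  have h1 := (abs_le.1 (c.nu_invDel.Ex_prod_row (fun x => drTh X s x x) (ah X s))).2
  linarith [c.dr_B1_aux]

theorem dr_B1' : Ex ϱ (fun x y => 1 / Del X s x y * (ah X s x * drTh X s y y)) ≤ drEps p (kk α) := by
  rw [Ex_weight]
  have h1 := (abs_le.1 (c.nu_invDel.Ex_prod_col (ah X s) fun x => drTh X s x x)).2
  have h2 := c.dr_B1_aux
  rw [mul_comm (∑ x, drTh X s x x), mul_right_comm (Real.sqrt _)] at h2
  linarith

theorem dr_sum_ch (z : α) : ∑ x, ch X s z x = s := by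
  have hk := c.num.k_pos
  simp only [ch, Finset.sum_add_distrib, c.sys.rowsum z, Finset.sum_const, Finset.card_univ,
    nsmul_eq_mul, zero_add]
  change kk α * _ = _
  field_simp

theorem dr_B2 : |Ex ϱ (fun x y => s * eta X s x y * drTh X s x y)| ≤ drEps p (kk α) := by
  rw [Ex_weight]
  have hW := c.nu_eta
  have hU := c.num.Ups_pos
  unfold drTh
  rw [dr_Ex_sum]
  refine (Finset.abs_sum_le_sum_abs _ _).trans (le_trans ?_ (dr_n3 c.num))
  have h1 : ∀ z, |Ex (fun x y => ϱ x y * (s * eta X s x y))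
      fun x y => X z z * (ch X s z x * ch X s z y)| ≤
      |X z z| / kk α ^ 2 + p.Ups (kk α) * (|X z z| * drRho X s z) / kk α ^ 2 := by
    intro z
    have h2 := hW.Ex_prod (ch X s z) (ch X s z)
    rw [c.dr_sum_ch, ← sq, c.s_sq, mul_assoc, Real.mul_self_sqrt (by positivity)] at h2
    have h3 := (abs_sub_abs_le_abs_sub _ _).trans h2
    rw [abs_of_nonneg (a := 1 / kk α ^ 2) (by positivity), sub_le_iff_le_add'] at h3
    rw [Ex_const_mul, abs_mul]
    refine (mul_le_mul_of_nonneg_left h3 (abs_nonneg _)).trans (le_of_eq ?_)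
    unfold drRho
    ring
  refine (Finset.sum_le_sum fun z _ => h1 z).trans ?_
  rw [Finset.sum_add_distrib, ← Finset.sum_div, ← Finset.sum_div, ← Finset.mul_sum]
  exact add_le_add (div_le_div_of_nonneg_right c.dr_abs_diag (sq_nonneg _))
    (div_le_div_of_nonneg_right (mul_le_mul_of_nonneg_left c.dr_S hU.le) (sq_nonneg _))

theorem dr_U_le : ∑ x, drU X s x ≤ 61 / 100 * (kk α * p.F (kk α)) + 4 * (kk α / p.N ^ 100) := by
  have hk := c.num.k_pos
  have hN := c.num.N_pos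
  have h1 : ∑ x, drU X s x ≤ ∑ x, ∑ z, (116 / 100 * X z x ^ 4 + 10000 * (s / kk α) ^ 4) :=
    Finset.sum_le_sum fun x _ => Finset.sum_le_sum fun z _ => dr_four _ _
  rw [Finset.sum_comm] at h1
  simp only [Finset.sum_add_distrib, ← Finset.mul_sum, Finset.sum_const, Finset.card_univ,
    nsmul_eq_mul] at h1
  have e : 10000 * ((Fintype.card α : ℝ) * ((Fintype.card α : ℝ) * (s / kk α) ^ 4))
      = 10000 / kk α ^ 2 := by
    change 10000 * (kk α * (kk α * _)) = _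
    rw [div_pow, show s ^ 4 = (s ^ 2) ^ 2 by ring, c.s_sq]
    field_simp
  rw [e] at h1
  have h2 := c.sys.U_le c.num
  have h3 := c.sys.Fa_le c.num
  rw [div_le_iff₀ hk] at h3
  have h4 := dr_n7 c.num
  have h5 : kk α * p.F (kk α) / p.N ^ 100 ≤ kk α / p.N ^ 100 :=
    div_le_div_of_nonneg_right (mul_le_of_le_one_right hk.le c.num.F_le_one) (by positivity)
  have h6 : (p.F (kk α) + 1 / p.N ^ 100) * kk α = kk α * p.F (kk α) + kk α / p.N ^ 100 := by ring
  have h7 : 0 ≤ kk α / p.N ^ 100 := by positivity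
  have h8 := mul_pos hk c.num.F_pos
  linarith

theorem dr_Rh_le : ∑ z, ah X s z ^ 2 ≤ 11 / 10 * RR X + 11 / kk α := by
  have hk := c.num.k_pos
  have h1 : ∑ z, ah X s z ^ 2 ≤ ∑ z, (11 / 10 * X z z ^ 2 + 11 * (s / kk α) ^ 2) :=
    Finset.sum_le_sum fun z _ => by
      unfold ah
      nlinarith [sq_nonneg (X z z - 10 * (s / kk α))]
  rw [Finset.sum_add_distrib, ← Finset.mul_sum, Finset.sum_const, Finset.card_univ,
    nsmul_eq_mul] at h1
  have e : (Fintype.card α : ℝ) * (11 * (s / kk α) ^ 2) = 11 / kk α := by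
    change kk α * _ = _
    rw [div_pow, c.s_sq]
    field_simp
  rwa [e] at h1

theorem dr_B3_aux : 21 / 20 * (∑ x, drU X s x) * (∑ y, ah X s y ^ 2) / kk α ^ 2 ≤
    3 / 4 * (RR X * p.F (kk α) / kk α) + 2 * drEps p (kk α) := by
  have hk := c.num.k_pos
  have hN := c.num.N_pos
  have hF := c.num.F_pos
  have hR : 0 ≤ RR X := by unfold RR; positivity
  have h0 : 0 ≤ ∑ y, ah X s y ^ 2 := by positivity
  have h1 := mul_le_mul_of_nonneg_right c.dr_U_le h0
  have h2 := mul_le_mul_of_nonneg_left c.dr_Rh_le (mul_pos hk hF).le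
  have h3 := mul_le_mul_of_nonneg_left (c.sys.Rh_le c.num c.sgn)
    (show 0 ≤ kk α / p.N ^ 100 by positivity)
  have h4 : (∑ x, drU X s x) * (∑ y, ah X s y ^ 2) ≤ 7 / 10 * (kk α * p.F (kk α) * RR X) +
      (10 * p.F (kk α) + 4 * (p.N ^ 41 * p.F (kk α)) * (kk α / p.N ^ 100)) := by
    have e : kk α * p.F (kk α) * (11 / 10 * RR X + 11 / kk α) =
        11 / 10 * (kk α * p.F (kk α) * RR X) + 11 * p.F (kk α) := by
      field_simp
    have h5 : 0 ≤ kk α * p.F (kk α) * RR X := by positivity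
    rw [e] at h2
    linarith
  have h6 := div_le_div_of_nonneg_right h4 (sq_nonneg (kk α))
  have e : 7 / 10 * (kk α * p.F (kk α) * RR X) / kk α ^ 2 =
      7 / 10 * (RR X * p.F (kk α) / kk α) := by
    field_simp
  rw [add_div, add_div, e] at h6
  have h7 := dr_n8 c.num
  have h8 : 0 ≤ RR X * p.F (kk α) / kk α := by positivity
  have h9 : 0 ≤ drEps p (kk α) := by unfold drEps; positivity
  rw [mul_assoc, mul_div_assoc]
  linarith

theorem dr_B3 : Ex ϱ (fun x y => drU X s x * ah X s y ^ 2) ≤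
    3 / 4 * (RR X * p.F (kk α) / kk α) + 2 * drEps p (kk α) :=
  (c.nu.Ex_prod_le (φ := drU X s) (ψ := fun y => ah X s y ^ 2)
    (fun x => by unfold drU; positivity) fun _ => sq_nonneg _).trans c.dr_B3_aux

theorem dr_B3' : Ex ϱ (fun x y => ah X s x ^ 2 * drU X s y) ≤
    3 / 4 * (RR X * p.F (kk α) / kk α) + 2 * drEps p (kk α) := by
  have h1 := c.dr_B3_aux
  rw [mul_right_comm] at h1
  exact (c.nu.Ex_prod_le (ψ := drU X s) (φ := fun y => ah X s y ^ 2)
    (fun _ => sq_nonneg _) fun x => by unfold drU; positivity).trans h1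

theorem dr_B4 : Ex ϱ (drT X s) ≤ 2 * drEps p (kk α) := by
  have h1 : Ex ϱ (drT X s) = ∑ z, Ex ϱ fun x y => ch X s z x ^ 2 * ch X s z y ^ 2 :=
    dr_Ex_sum ϱ fun z x y => ch X s z x ^ 2 * ch X s z y ^ 2
  have h2 : ∀ z, (Ex ϱ fun x y => ch X s z x ^ 2 * ch X s z y ^ 2) ≤
      21 / 20 * (drRho X s z ^ 2 / kk α ^ 2) := fun z =>
    (c.nu.Ex_prod_le (φ := fun x => ch X s z x ^ 2) (ψ := fun x => ch X s z x ^ 2)
      (fun _ => sq_nonneg _) fun _ => sq_nonneg _).trans (le_of_eq (by unfold drRho; ring))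
  have h3 := Finset.sum_le_sum fun z (_ : z ∈ univ) => h2 z
  rw [← Finset.mul_sum, ← Finset.sum_div] at h3
  have h4 := (div_le_div_of_nonneg_right c.dr_Qh (sq_nonneg (kk α))).trans (dr_n4 c.num)
  have h5 : 0 ≤ (∑ z, drRho X s z ^ 2) / kk α ^ 2 := by positivity
  linarith

theorem dr_nu_sq : NU p (fun x y => ϱ x y * (1 / Del X s x y) ^ 2) h := by
  refine c.meas.good _ fun x y hxy => ?_
  have h1 := c.inv_Del hxy
  have h2 := (c.adm x y hxy).1
  have h3 := (c.meas.small x y hxy).2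
  have h4 : |1 / Del X s x y + 1| ≤ 3 := by
    have := abs_le.1 h1
    rw [abs_le]
    constructor <;> linarith [this.1, this.2]
  have h5 := mul_le_mul_of_nonneg_left h4 (abs_nonneg (1 / Del X s x y - 1))
  rw [show (1 / Del X s x y) ^ 2 - 1 = (1 / Del X s x y - 1) * (1 / Del X s x y + 1) by ring,
    abs_mul]
  linarith

theorem dr_R_eps : RR X / kk α * (1 / p.N ^ 2) ≤ drEps p (kk α) := by
  have hk := c.num.k_pos
  have hN := c.num.N_pos
  calc _ ≤ p.N ^ 40 * p.F (kk α) / kk α * (1 / p.N ^ 2) := by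
        gcongr
        exact c.sys.R_le c.num
    _ = _ := by unfold drEps; field_simp

theorem dr_B5_aux : Real.sqrt (p.Row (kk α) / kk α) * (∑ x, |X x x ^ 2|) / kk α
    ≤ drEps p (kk α) := by
  have hk := c.num.k_pos
  have hR : 0 ≤ RR X := by unfold RR; positivity
  simp only [abs_sq]
  refine le_trans ?_ c.dr_R_eps
  rw [mul_div_assoc, mul_comm]
  exact mul_le_mul_of_nonneg_left (dr_n5 c.num) (div_nonneg hR hk.le)

theorem dr_B5 : RR X / kk α - drEps p (kk α) ≤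
    Ex ϱ (fun x y => (1 / Del X s x y) ^ 2 * X x x ^ 2) := by
  rw [Ex_weight]
  have h1 := (abs_le.1 (c.dr_nu_sq.Ex_left fun x => X x x ^ 2)).1
  have h2 := c.dr_B5_aux
  unfold RR
  linarith

theorem dr_B5' : RR X / kk α - drEps p (kk α) ≤
    Ex ϱ (fun x y => (1 / Del X s x y) ^ 2 * X y y ^ 2) := by
  rw [Ex_weight]
  have h1 := (abs_le.1 (c.dr_nu_sq.Ex_right fun x => X x x ^ 2)).1
  have h2 := c.dr_B5_aux
  unfold RR
  linarith

end Ctx

theorem Ctx.drift_R (c : Ctx p ϱ h sz X s) :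
    Ex ϱ (fun x y => RR (upd X s x y))
      ≤ RR X * (1 - 2 * (1 - p.F (kk α)) / kk α) + p.GR (kk α) / (p.N * kk α) := by
  have hk := c.num.k_pos
  have hN := c.num.hN
  have hN0 := c.num.N_pos
  have hF := c.num.F_pos
  have h1 := Ex_mono c.nu.nonneg fun x y hxy => c.dr_pointwise (x := x) (y := y) hxy
  simp only [Ex_sub, Ex_add, Ex_const_mul, c.meas.Ex_const hk] at h1
  have hε : 0 ≤ drEps p (kk α) := by unfold drEps; positivity
  have hR : 0 ≤ RR X := by unfold RR; positivity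
  have hu0 : 0 ≤ 1 / p.N ^ 2 := by positivity
  have hu : 0 ≤ 1 - 1 / p.N ^ 2 := by
    rw [sub_nonneg, div_le_one (by positivity)]
    exact one_le_pow₀ c.num.one_le_N
  have b2 : 4 * s * Ex ϱ (fun x y => s * eta X s x y * drTh X s x y) ≤ 4 * drEps p (kk α) := by
    have := le_abs_self (s * Ex ϱ (fun x y => s * eta X s x y * drTh X s x y))
    rw [abs_mul, c.abs_s, one_mul] at this
    linarith [c.dr_B2]
  have b5 := mul_le_mul_of_nonneg_left c.dr_B5 hu
  have b5' := mul_le_mul_of_nonneg_left c.dr_B5' hu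
  have b6 := c.dr_R_eps
  have b7 := mul_nonneg hu0 hε
  have b8 : 0 ≤ RR X * p.F (kk α) / kk α := by positivity
  have b9 : 1000 * drEps p (kk α) ≤ p.N * drEps p (kk α) :=
    mul_le_mul_of_nonneg_right (by linarith) hε
  have e1 : p.GR (kk α) / (p.N * kk α) = p.N * drEps p (kk α) := by
    unfold Par.GR drEps; field_simp
  have e2 : RR X * (1 - 2 * (1 - p.F (kk α)) / kk α) =
      RR X - 2 * (RR X / kk α) + 2 * (RR X * p.F (kk α) / kk α) := by ring
  have e3 : RR X * (1 + 1 / (p.N ^ 2 * kk α)) = RR X + RR X / kk α * (1 / p.N ^ 2) := by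
    field_simp
  have e4 : (1 - 1 / p.N ^ 2) * (RR X / kk α - drEps p (kk α)) = RR X / kk α - drEps p (kk α)
      - RR X / kk α * (1 / p.N ^ 2) + 1 / p.N ^ 2 * drEps p (kk α) := by ring
  rw [e1, e2]
  rw [e3] at h1
  rw [e4] at b5 b5'
  linarith [c.dr_B4, c.dr_B1, c.dr_B1', c.dr_B3, c.dr_B3', dr_n1 c.num]

end Crest.Agent.R062
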