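import Crest.Agent.R062.DVAux

/-! Drift of the row-norm variance: size of the pieces and the pointwise bound. -/

open Matrix Finset

set_option linter.unusedSectionVars false

namespace Crest.Agent.R062
variable {α : Type} [Fintype α] [DecidableEq α] {p : Par ℝ} {ϱ h sz : α → α → ℝ}
  {X : Matrix α α ℝ} {s : ℝ}

/-- half of the bound for the new variance -/
noncomputable def dvG (X : Matrix α α ℝ) (s F N : ℝ) (x y : α) : ℝ :=
  -(89 / 100) * dvU X F x ^ 2 + 2 * dvH X s F x y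
    + 1155 / 1000 * (dvU4 X s x * dvU X F y ^ 2) + 1155 / 1000 * (dvU X F x ^ 2 * dvT X s x y)
    + 16000 * ((N ^ 21) ^ 2 * (∑ z, pw X 2 z x ^ 2) * ah X s y ^ 2) + 16000 * dvW X s x y
    + 16000 * ((N ^ 21) ^ 4 * ((rho X x - 1) ^ 2 * dvR X x) * ah X s y ^ 2)
    + 16000 * ((F - 1) ^ 2 * dvU4 X s x) + 16000 * ((N ^ 21) ^ 4 * (pw X 2 x y ^ 2 * dvR X x))
    + 42 * (ah X s x ^ 4 * dvU X F y ^ 2) + 4608 * (N ^ 128 / kk α * dvR X x)

/-- bound for the nuclear norm of `K diag(u) K` -/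
noncomputable def Par.dvS (p : Par ℝ) (k : ℝ) : ℝ := √(p.GV k) * √(p.N ^ 5 * k * p.F k)

/-- the unit of error -/
noncomputable def Par.dvE (p : Par ℝ) (k : ℝ) : ℝ := p.N ^ 2 * p.M * p.F k ^ 2 / k / 1000 ^ 2

namespace Ctx
variable (c : Ctx p ϱ h sz X s)
include c

theorem dv_row (z : α) : ∑ t, ch X s z t ^ 2 = dvR X z := by
  have hk := c.num.k_pos
  have e : ∀ t, ch X s z t ^ 2 = X z t ^ 2 + 2 * (s / kk α) * X z t + 1 / kk α ^ 2 := fun t => by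
    rw [ch, ← c.s_sq]; ring
  simp only [e, sum_add_distrib, ← mul_sum, c.sys.rowsum, sum_const, card_univ, nsmul_eq_mul]
  rw [dvR, rho_eq c.sys.symm]
  change _ + _ + kk α * _ = _
  field_simp
  ring

theorem dv_col (z : α) : ∑ t, ch X s t z ^ 2 = dvR X z := by
  rw [← c.dv_row z]
  exact sum_congr rfl fun t _ => by rw [dv_ch_symm c.sys.symm]

theorem dvR_nonneg (z : α) : 0 ≤ dvR X z := by rw [← c.dv_row z]; positivity

theorem dv_rho_le (z : α) : rho X z ≤ dvR X z :=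
  le_add_of_nonneg_right (one_div_pos.2 c.num.k_pos).le

theorem dv_abs_ch (z t : α) : |ch X s z t| ≤ p.N ^ 21 := by
  have hN := c.num.N_pos
  have hk := c.num.k_pos
  refine abs_le_of_sq_le_sq ?_ (by positivity)
  have h1 : ch X s z t ^ 2 ≤ 2 * X z t ^ 2 + 2 * (1 / kk α ^ 2) := by
    rw [← c.s_sq, ← div_pow, ch]
    nlinarith [sq_nonneg (X z t - s / kk α)]
  have h2 : 2 * p.N ^ 41 + 2 * (1 / kk α ^ 2) ≤ (p.N ^ 21) ^ 2 := by lognum c.num
  linarith [c.sys.entry_sq_le' c.num z t]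

theorem dv_abs_e {e : ℝ} {z : α} (he : |e| ≤ 102 / 100 * |ah X s z|) : |e| ≤ p.N ^ 21 := by
  have hN := c.num.N_pos
  refine abs_le_of_sq_le_sq ?_ (by positivity)
  have h1 := dv_sq_le he
  rw [mul_pow, sq_abs] at h1
  have h2 : 2 * (p.N ^ 41 * p.F (kk α)) ≤ (p.N ^ 21) ^ 2 := by lognum c.num
  nlinarith [c.sys.ah_sq_le c.num c.sgn z, sq_nonneg (ah X s z)]

theorem dv_sumR_sq : ∑ z, dvR X z ^ 2 ≤ p.N ^ 5 * kk α * p.F (kk α) := by
  have h1 : ∑ z, dvR X z ^ 2 ≤ ∑ z, (2 * rho X z ^ 2 + 2 * (1 / kk α) ^ 2) :=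
    sum_le_sum fun z _ => by
      rw [dvR]; nlinarith [sq_nonneg (rho X z - 1 / kk α)]
  rw [sum_add_distrib, ← mul_sum, sum_const, card_univ, nsmul_eq_mul] at h1
  have h2 := c.sys.Q_le c.num
  have h3 : 2 * (p.N ^ 4 * kk α * p.F (kk α)) + kk α * (2 * (1 / kk α) ^ 2) ≤
      p.N ^ 5 * kk α * p.F (kk α) := by lognum c.num
  change _ ≤ _ + kk α * _ at h1
  linarith

theorem dvR_le (z : α) : dvR X z ≤ √(p.N ^ 5 * kk α * p.F (kk α)) :=
  (le_abs_self _).trans ((abs_le_sqrt_sum_sq (dvR X) z).trans (Real.sqrt_le_sqrt c.dv_sumR_sq))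

theorem dv_sumR : ∑ z, dvR X z ≤ p.N ^ 40 * kk α * p.F (kk α) := by
  have hk := c.num.k_pos
  simp only [dvR, sum_add_distrib, sum_const, card_univ, nsmul_eq_mul, sum_rho]
  change _ + kk α * _ ≤ _
  rw [mul_one_div_cancel hk.ne']
  have h3 : p.N * kk α * p.F (kk α) + 1 ≤ p.N ^ 40 * kk α * p.F (kk α) := by lognum c.num
  linarith [c.sys.f_le c.num]

theorem dv_sum_rho1 : ∑ z, (rho X z - 1) ^ 2 ≤ p.N ^ 5 * kk α := by
  have h1 : ∑ z, (rho X z - 1) ^ 2 ≤ ∑ z, (2 * rho X z ^ 2 + 2) :=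
    sum_le_sum fun z _ => by nlinarith [sq_nonneg (rho X z + 1)]
  rw [sum_add_distrib, ← mul_sum, sum_const, card_univ, nsmul_eq_mul] at h1
  have h2 := c.sys.Q_le c.num
  have h3 : 2 * (p.N ^ 4 * kk α * p.F (kk α)) + kk α * 2 ≤ p.N ^ 5 * kk α := by lognum c.num
  change _ ≤ _ + kk α * _ at h1
  linarith

theorem dv_sumU4 : ∑ x, dvU4 X s x ≤ 6 / 10 * kk α ∧
    ∑ x, dvU4 X s x ≤ 2 * (p.N * kk α * p.F (kk α)) := by
  have hk := c.num.k_pos
  have h0 : ∀ a b : ℝ, (a + b) ^ 4 ≤ 9 / 8 * a ^ 4 + 20000 * b ^ 4 := fun a b => by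
    have e1 : (a + b) ^ 2 ≤ 26 / 25 * a ^ 2 + 26 * b ^ 2 := by nlinarith [sq_nonneg (a - 25 * b)]
    have e2 := pow_le_pow_left₀ (sq_nonneg _) e1 2
    nlinarith [sq_nonneg (26 / 25 * a ^ 2 - 25 * (26 * b ^ 2)), sq_nonneg (a ^ 2), sq_nonneg (b ^ 2)]
  have h1 : ∑ x, dvU4 X s x ≤ ∑ x, ∑ z, (9 / 8 * X z x ^ 4 + 20000 * (1 / kk α ^ 4)) :=
    sum_le_sum fun x _ => sum_le_sum fun z _ => by
      have : (s / kk α) ^ 4 = 1 / kk α ^ 4 := by
        rw [div_pow, show s ^ 4 = (s ^ 2) ^ 2 by ring, c.s_sq, one_pow]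
      rw [← this]
      exact h0 _ _
  simp only [sum_add_distrib, ← mul_sum, sum_const, card_univ, nsmul_eq_mul] at h1
  rw [sum_comm] at h1
  change _ ≤ _ + 20000 * (kk α * (kk α * _)) at h1
  have h2 := c.sys.U_le c.num
  have h3 := c.sys.f_le c.num
  have h4 := c.sys.f_le_k c.num
  have h5 : 2 * (kk α * p.F (kk α) / p.N ^ 100) + 2 * 10000 * (kk α * (kk α * (1 / kk α ^ 4))) ≤
      kk α / 1000 := by lognum c.num
  have h6 : 2 * (kk α * p.F (kk α) / p.N ^ 100) + 2 * 10000 * (kk α * (kk α * (1 / kk α ^ 4))) ≤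
      p.N * kk α * p.F (kk α) := by lognum c.num
  have h7 : 0 ≤ kk α * p.F (kk α) / p.N ^ 100 := by
    have := c.num.F_pos; have := c.num.N_pos; positivity
  have h8 := c.sys.f_nonneg c.num
  constructor <;> linarith

theorem dvU4_le (x : α) : dvU4 X s x ≤ (p.N ^ 21) ^ 2 * dvR X x := by
  rw [← c.dv_col, mul_sum]
  refine sum_le_sum fun z _ => ?_
  rw [show ch X s z x ^ 4 = ch X s z x ^ 2 * ch X s z x ^ 2 by ring]
  exact mul_le_mul_of_nonneg_right (dv_sq_le (c.dv_abs_ch z x)) (sq_nonneg _)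

theorem dv_P4 (z : α) : ∑ x, pw X 2 z x ^ 2 ≤ p.Om (kk α) ^ 2 * dvR X z := by
  have h1 := mat_col_le c.sys.symm c.num.Om_pos.le (c.sys.t4_le c.num) 1 z
  simp only [pw_symm c.sys.symm 2 z]
  exact h1.trans (mul_le_mul_of_nonneg_left (c.dv_rho_le z) (sq_nonneg _))

theorem dv_P4_sum : ∑ x, ∑ y, pw X 2 x y ^ 2 ≤ p.Om (kk α) ^ 4 :=
  sum_sum_pw_sq_le c.sys.symm c.num.Om_pos.le (c.sys.t4_le c.num) 0

theorem dv_S : ∑ z, |dvU X (p.F (kk α)) z| * dvR X z ≤ p.dvS (kk α) := by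
  have h1 := pair_cs (fun z => |dvU X (p.F (kk α)) z|) (dvR X)
  simp only [sq_abs] at h1
  exact (le_abs_self _).trans (h1.trans (mul_le_mul (Real.sqrt_le_sqrt (c.sys.V_le c.num))
    (Real.sqrt_le_sqrt c.dv_sumR_sq) (Real.sqrt_nonneg _) (Real.sqrt_nonneg _)))

theorem dv_S2 : ∑ z, |dvU X (p.F (kk α)) z| *
    (√(∑ x, pw X 2 z x ^ 2) * √(∑ x, ch X s z x ^ 2)) ≤ p.Om (kk α) * p.dvS (kk α) := by
  refine le_trans ?_ (mul_le_mul_of_nonneg_left c.dv_S c.num.Om_pos.le)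
  rw [mul_sum]
  refine sum_le_sum fun z _ => ?_
  rw [mul_left_comm (p.Om _), c.dv_row]
  refine mul_le_mul_of_nonneg_left ?_ (abs_nonneg (dvU X (p.F (kk α)) z))
  have h1 := Real.sqrt_le_sqrt (c.dv_P4 z)
  rw [Real.sqrt_mul (sq_nonneg _), Real.sqrt_sq c.num.Om_pos.le] at h1
  refine (mul_le_mul_of_nonneg_right h1 (Real.sqrt_nonneg _)).trans_eq ?_
  rw [mul_assoc, Real.mul_self_sqrt (c.dvR_nonneg z)]

theorem dv_T1 : ∑ x, |dvT1 X s (p.F (kk α)) x x| ≤ p.dvS (kk α) := by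
  refine (dv_diag_l1 _ _ _).trans (le_trans (le_of_eq ?_) c.dv_S)
  exact sum_congr rfl fun z _ => by rw [c.dv_row, Real.mul_self_sqrt (c.dvR_nonneg z)]

theorem dv_T2 : ∑ x, |dvT2 X s (p.F (kk α)) x x| ≤ p.Om (kk α) * p.dvS (kk α) :=
  (dv_diag_l1 _ _ _).trans c.dv_S2

theorem dv_T3 : √(∑ x, ∑ y, dvT1 X s (p.F (kk α)) x y ^ 2) ≤ p.dvS (kk α) := by
  refine (dv_frob _ _).trans (le_trans (le_of_eq ?_) c.dv_S)
  simp only [c.dv_row]

omit c in
theorem dv_sumU (F : ℝ) : ∑ z, dvU X F z = tr X 2 - kk α * F := by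
  simp only [dvU, sum_sub_distrib, sum_const, card_univ, nsmul_eq_mul, sum_rho]
  rfl

theorem dv_T4 (F : ℝ) :
    ∑ x, dvT1 X s F x x = VV X univ F + (F + 1 / kk α) * (tr X 2 - kk α * F) := by
  rw [← dv_sumU, mul_sum, VV, ← sum_add_distrib]
  simp only [dvT1]
  rw [sum_comm]
  refine sum_congr rfl fun z _ => ?_
  simp only [← mul_sum, ← sq]
  rw [c.dv_row, dvU, dvR]
  ring

theorem dv_T5 (F : ℝ) : ∑ x, ∑ y, ∑ z, dvU X F z * (pw X 2 z x * ch X s z y) = 0 := by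
  rw [sum_comm]
  refine sum_eq_zero fun y _ => ?_
  rw [sum_comm]
  refine sum_eq_zero fun z _ => ?_
  rw [← mul_sum, ← sum_mul, pw_rowsum c.sys.symm c.sys.rowsum 2 (by norm_num), zero_mul, mul_zero]

section point
variable {x y : α} (hxy : ϱ x y ≠ 0)
include hxy

theorem dv_ee : |e11 X s x y * e22 X s x y| ≤ 1 := by
  have h1 := dv_abs_mul (c.abs_e11_le hxy) (c.abs_e22_le hxy)
  have h2 := c.abs_ahah_le hxy
  rw [abs_mul] at h2
  linarith

theorem dv_eta4 : (eta X s x y ^ 2) ^ 2 ≤ 105 / 100 := by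
  have := pow_le_pow_left₀ (sq_nonneg _) (dv_sq_le (c.abs_eta_le hxy)) 2
  linarith

theorem dv_sumB (F : ℝ) : ∑ z, dvB X s F x y z ^ 2 ≤
    200 * ((p.N ^ 21) ^ 2 * (∑ z, pw X 2 z x ^ 2) * ah X s y ^ 2 + dvW X s x y
      + (p.N ^ 21) ^ 4 * ((rho X x - 1) ^ 2 * dvR X x) * ah X s y ^ 2
      + (F - 1) ^ 2 * dvU4 X s x + (p.N ^ 21) ^ 4 * (pw X 2 x y ^ 2 * dvR X x)) := by
  refine (sum_le_sum fun z _ => dv_hb_sq _ _ _ _ (one_le_pow₀ c.num.one_le_N)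
    (c.dv_abs_e (c.abs_e11_le hxy)) (c.abs_e11_le hxy) (c.dv_ee hxy) (c.abs_eta_le hxy)
    (c.dv_abs_ch z x) (c.dv_abs_ch z y)).trans_eq ?_
  rw [← c.dv_col x]
  simp only [dvW, dvU4, mul_sum, sum_mul, ← sum_add_distrib]
  exact sum_congr rfl fun z _ => by ring

theorem dv_sumr : ∑ z, dvr X s x y z ^ 2 ≤
    2304 * (p.N ^ 21) ^ 6 / kk α ^ 2 * (dvR X x + dvR X y) + 32 / kk α ^ 3 := by
  have hk := c.num.k_pos
  refine (sum_le_sum fun z _ => dv_r_sq (one_le_pow₀ c.num.one_le_N)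
    (c.dv_abs_e (c.abs_e11_le hxy)) (c.dv_abs_e (c.abs_e22_le hxy)) (c.abs_eta_le hxy)
    (c.dv_abs_ch z x) (c.dv_abs_ch z y) (le_trans (by norm_num) c.num.k_big)).trans_eq ?_
  rw [sum_add_distrib, ← mul_sum, sum_add_distrib, c.dv_col, c.dv_col, sum_const, card_univ,
    nsmul_eq_mul]
  change _ + kk α * _ = _
  field_simp

theorem dv_sumA (F : ℝ) : ∑ z, (dvA X s F x y z + dvA X s F y x z) ^ 2 ≤
    105 / 100 * (dvU4 X s x * dvU X F y ^ 2 + dvU X F x ^ 2 * dvT X s x y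
      + dvU4 X s y * dvU X F x ^ 2 + dvU X F y ^ 2 * dvT X s y x) := by
  simp only [dvU4, dvT, mul_sum, sum_mul, ← sum_add_distrib]
  refine sum_le_sum fun z _ => ?_
  rw [dvA, dvA, dv_eta_symm c.sys.symm x y]
  have h1 : ∀ a b v w : ℝ, (b * v ^ 2 + a * w ^ 2) ^ 2 ≤
      v ^ 4 * b ^ 2 + a ^ 2 * (v ^ 2 * w ^ 2) + w ^ 4 * a ^ 2 + b ^ 2 * (w ^ 2 * v ^ 2) :=
    fun a b v w => by nlinarith [sq_nonneg ((a - b) * (v * w))]
  refine le_trans (le_of_eq ?_) (mul_le_mul (c.dv_eta4 hxy) (h1 _ _ _ _) (sq_nonneg _) (by norm_num))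
  ring

theorem dv_Ax (F : ℝ) : 20 * (dvA X s F x y x + dvA X s F y x x) ^ 2 ≤
    42 * (ah X s x ^ 4 * dvU X F y ^ 2) + 1 / 100 * dvU X F x ^ 2 := by
  rw [dvA, dvA, dv_eta_symm c.sys.symm x y]
  have h0 : ch X s x y ^ 2 ≤ 1 / 100 := (dv_sq_le (c.abs_ch_le hxy)).trans (by norm_num)
  have h1 : (dvU X F y * ah X s x ^ 2 + dvU X F x * ch X s x y ^ 2) ^ 2 ≤
      2 * (ah X s x ^ 4 * dvU X F y ^ 2) + 2 * (dvU X F x ^ 2 * (1 / 100) ^ 2) := by
    have := mul_le_mul_of_nonneg_left (pow_le_pow_left₀ (sq_nonneg _) h0 2) (sq_nonneg (dvU X F x))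
    nlinarith [sq_nonneg (dvU X F y * ah X s x ^ 2 - dvU X F x * ch X s x y ^ 2)]
  have h2 := mul_le_mul (c.dv_eta4 hxy) h1 (sq_nonneg _) (by norm_num)
  have e : (eta X s x y ^ 2 * dvU X F y * ch X s x x ^ 2 + eta X s x y ^ 2 * dvU X F x
      * ch X s x y ^ 2) ^ 2 = (eta X s x y ^ 2) ^ 2 *
        (dvU X F y * ah X s x ^ 2 + dvU X F x * ch X s x y ^ 2) ^ 2 := by
    rw [show ch X s x x = ah X s x from rfl]; ring
  rw [e]
  nlinarith [sq_nonneg (dvU X F x)]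

theorem dv_point (F F' : ℝ) : VV (upd X s x y) (rest x y) F' ≤
    VV X univ F * (1 + 1 / (p.N ^ 2 * kk α)) + 2 * (F - F') * (tr X 2 - kk α * F)
      + 80 * (kk α * (F - F') ^ 2) + 64 * p.N ^ 2 / kk α ^ 2
      + (dvG X s F p.N x y + dvG X s F p.N y x) := by
  have hyx : ϱ y x ≠ 0 := by rwa [c.meas.symm]
  have hk := c.num.k_pos
  have hN := c.num.N_pos
  have hp : Piv X s x y := ⟨c.sys.symm, c.sys.rowsum, c.sgn, c.ne hxy, (c.Del_pos hxy).ne',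
    lt_of_lt_of_le (by norm_num) c.num.k_big⟩
  have h1 := dv_sum_rest (c.ne hxy) (dvU X F) (fun z => dvA X s F x y z + dvA X s F y x z)
    (fun z => dvB X s F x y z + dvB X s F y x z + dvr X s x y z + (F - F'))
  have h2 : VV (upd X s x y) (rest x y) F' = ∑ z ∈ rest x y, (dvU X F z +
      (dvA X s F x y z + dvA X s F y x z +
        (dvB X s F x y z + dvB X s F y x z + dvr X s x y z + (F - F')))) ^ 2 :=
    sum_congr rfl fun z hz => by rw [hp.dv_rho F hz, dvU]; ring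
  have h3 : ∑ z, dvU X F z * (dvA X s F x y z + dvA X s F y x z +
        (dvB X s F x y z + dvB X s F y x z + dvr X s x y z + (F - F'))) =
      dvH X s F x y + dvH X s F y x + ∑ z, dvU X F z * dvr X s x y z
        + (F - F') * (tr X 2 - kk α * F) := by
    rw [← dv_sum_H, ← dv_sum_H, ← dv_sumU, mul_sum, ← sum_add_distrib, ← sum_add_distrib,
      ← sum_add_distrib]
    exact sum_congr rfl fun z _ => by ring
  have h4 : 2 * ∑ z, dvU X F z * dvr X s x y z ≤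
      VV X univ F * (1 / (p.N ^ 2 * kk α)) + p.N ^ 2 * kk α * ∑ z, dvr X s x y z ^ 2 := by
    rw [VV, sum_mul, mul_sum, mul_sum, ← sum_add_distrib]
    refine sum_le_sum fun z _ => ?_
    have ht : 0 < p.N ^ 2 * kk α := by positivity
    rw [← dvU]
    generalize p.N ^ 2 * kk α = t at ht
    have : dvU X F z ^ 2 * (1 / t) + t * dvr X s x y z ^ 2 - 2 * (dvU X F z * dvr X s x y z) =
        (dvU X F z - t * dvr X s x y z) ^ 2 / t := by field_simp; ring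
    have := div_nonneg (sq_nonneg (dvU X F z - t * dvr X s x y z)) ht.le
    linarith
  have h5 : ∑ z, (dvB X s F x y z + dvB X s F y x z + dvr X s x y z + (F - F')) ^ 2 ≤
      4 * ∑ z, dvB X s F x y z ^ 2 + 4 * ∑ z, dvB X s F y x z ^ 2 + 4 * ∑ z, dvr X s x y z ^ 2
        + 4 * (kk α * (F - F') ^ 2) := by
    have e : kk α * (F - F') ^ 2 = ∑ _z : α, (F - F') ^ 2 := by simp [kk]
    rw [e]
    simp only [mul_sum, ← sum_add_distrib]
    refine sum_le_sum fun z _ => ?_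
    generalize dvB X s F x y z = a, dvB X s F y x z = b, dvr X s x y z = d, F - F' = e
    nlinarith [sq_nonneg (a - b), sq_nonneg (a - d), sq_nonneg (a - e), sq_nonneg (b - d),
      sq_nonneg (b - e), sq_nonneg (d - e)]
  have h6 : (p.N ^ 2 * kk α + 80) * ∑ z, dvr X s x y z ^ 2 ≤
      4608 * (p.N ^ 128 / kk α * dvR X x) + 4608 * (p.N ^ 128 / kk α * dvR X y)
        + 64 * p.N ^ 2 / kk α ^ 2 := by
    have e1 : 8 * 10 ≤ p.N ^ 2 * kk α := by lognum c.num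
    refine (mul_le_mul (show _ ≤ 2 * (p.N ^ 2 * kk α) by linarith) (c.dv_sumr hxy)
      (by positivity) (by positivity)).trans_eq ?_
    field_simp
    ring
  have h7 := c.dv_sumA hxy F
  have h8 := c.dv_Ax hxy F
  have h9 := c.dv_Ax hyx F
  rw [add_comm (dvA X s F y x y)] at h9
  have h10 := c.dv_sumB hxy F
  have h11 := c.dv_sumB hyx F
  have e : ∑ z, dvU X F z ^ 2 = VV X univ F := rfl
  rw [← h2, h3, e] at h1
  unfold dvG
  linarith

end point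

end Ctx

end Crest.Agent.R062
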