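import Crest.Agent.R062.Mom
import Crest.Agent.R062.DVAux2

/-! Drift of the variance of the squared row norms. -/

open Matrix Finset

namespace Crest.Agent.R062
variable {α : Type} [Fintype α] [DecidableEq α] {p : Par ℝ} {ϱ h sz : α → α → ℝ}
  {X Y : Matrix α α ℝ} {s : ℝ}

attribute [local irreducible] Par.k1 Par.stau2 Par.sT Par.GR Par.GD Par.GV Par.G4 Par.G3sq Par.Gf
  Par.s3

set_option linter.unusedSectionVars false

namespace Ctx
variable (c : Ctx p ϱ h sz X s)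
include c

theorem dvS_pos : 0 < p.dvS (kk α) := by
  obtain ⟨_, _, _, _, _, _, -⟩ := c.num.poss
  have := c.num.GV_pos
  unfold Par.dvS; positivity

theorem dv_a : Ex ϱ (fun x y => eta X s x y ^ 2 * (dvT1 X s (p.F (kk α)) x x * (rho X y - 1))) ≤
    (∑ x, dvT1 X s (p.F (kk α)) x x) * (tr X 2 - kk α) / kk α ^ 2 + p.dvE (kk α) := by
  rw [Ex_weight]
  have h1 := (abs_le.1 (c.nu_eta_sq.Ex_prod_row (fun x => dvT1 X s (p.F (kk α)) x x)
    (fun y => rho X y - 1))).2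
  have e : ∑ y, (rho X y - 1) = tr X 2 - kk α := by rw [sum_sub_distrib, sum_rho, pair_sum_one]
  have hS := c.dvS_pos
  have h2 : √(p.Row (kk α)) * (∑ x, |dvT1 X s (p.F (kk α)) x x|) * √(∑ y, (rho X y - 1) ^ 2)
      / kk α ^ 2 ≤ √(p.Row (kk α)) * p.dvS (kk α) * √(p.N ^ 5 * kk α) / kk α ^ 2 := by
    gcongr
    exacts [c.dv_T1, c.dv_sum_rho1]
  have h3 : √(p.Row (kk α)) * p.dvS (kk α) * √(p.N ^ 5 * kk α) / kk α ^ 2 ≤ p.dvE (kk α) := by
    unfold Par.dvS Par.dvE; lognum c.num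
  rw [e] at h1
  linarith

theorem dv_b : Ex ϱ (fun x y => eta X s x y * dvT2 X s (p.F (kk α)) x y) ≤ p.dvE (kk α) := by
  have e : Ex ϱ (fun x y => eta X s x y * dvT2 X s (p.F (kk α)) x y) =
      s * Ex (fun x y => ϱ x y * (s * eta X s x y)) (dvT2 X s (p.F (kk α))) := by
    rw [← Ex_weight, ← Ex_const_mul]
    refine Ex_congr fun x y _ => ?_
    linear_combination (-(eta X s x y * dvT2 X s (p.F (kk α)) x y)) * c.s_sq
  have h1 := c.nu_eta.Ex_noise (dvU X (p.F (kk α))) (fun z x => pw X 2 z x) (fun z y => ch X s z y)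
    (c.dv_T5 _)
  have hU := c.num.Ups_pos
  have h2 := div_le_div_of_nonneg_right (mul_le_mul_of_nonneg_left c.dv_S2 hU.le)
    (sq_nonneg (kk α))
  have h3 : p.Ups (kk α) * (p.Om (kk α) * p.dvS (kk α)) / kk α ^ 2 ≤ p.dvE (kk α) := by
    unfold Par.dvS Par.dvE; lognum c.num
  refine (le_abs_self _).trans ?_
  rw [e, abs_mul, c.abs_s, one_mul]
  exact h1.trans (h2.trans h3)

theorem dv_c : Ex ϱ (fun x y => e11 X s x y * dvT2 X s (p.F (kk α)) x x) ≤ 2 * p.dvE (kk α) := by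
  have e : Ex ϱ (fun x y => e11 X s x y * dvT2 X s (p.F (kk α)) x x) =
      Ex (fun x y => ϱ x y * (1 / Del X s x y))
        (fun x y => dvT2 X s (p.F (kk α)) x x * ah X s y) := by
    rw [← Ex_weight]
    refine Ex_congr fun x y _ => ?_
    rw [e11]; ring
  have h1 := (abs_le.1 (c.nu_invDel.Ex_prod_row (fun x => dvT2 X s (p.F (kk α)) x x) (ah X s))).2
  have hS := c.dvS_pos
  have hO := c.num.Om_pos
  have h2 : √(p.Row (kk α)) * (∑ x, |dvT2 X s (p.F (kk α)) x x|) * √(∑ y, ah X s y ^ 2)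
      / kk α ^ 2 ≤ √(p.Row (kk α)) * (p.Om (kk α) * p.dvS (kk α)) * √(p.N ^ 41 * p.F (kk α))
        / kk α ^ 2 := by
    gcongr
    exacts [c.dv_T2, c.sys.Rh_le c.num c.sgn]
  have h3 : √(p.Row (kk α)) * (p.Om (kk α) * p.dvS (kk α)) * √(p.N ^ 41 * p.F (kk α))
      / kk α ^ 2 ≤ p.dvE (kk α) := by
    unfold Par.dvS Par.dvE; lognum c.num
  have h4 : |∑ y, ah X s y| ≤ p.tauB (kk α) := by
    rw [c.sys.sum_ah c.num]
    refine (abs_add_le _ _).trans ?_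
    rw [c.abs_s]
    exact c.sys.abs_tau_le c.num
  have h5 := div_le_div_of_nonneg_right ((le_abs_self _).trans
    (dv_abs_mul ((abs_sum_le_sum_abs _ _).trans c.dv_T2) h4)) (sq_nonneg (kk α))
  have h6 : p.Om (kk α) * p.dvS (kk α) * p.tauB (kk α) / kk α ^ 2 ≤ p.dvE (kk α) := by
    unfold Par.dvS Par.dvE; lognum c.num
  rw [e]
  linarith

theorem dv_d : Ex ϱ (fun x y => (rho X x - 1) * e11 X s x y ^ 2 * dvT1 X s (p.F (kk α)) x x) ≤
    p.dvE (kk α) := by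
  obtain ⟨_, _, _, _, _, _, -⟩ := c.num.poss
  have hS := c.dvS_pos
  refine (Ex_mono c.nu.nonneg (Z' := fun x y => (2 * √(p.N ^ 100 * kk α * p.F (kk α))) *
    (|dvT1 X s (p.F (kk α)) x x| * ah X s y ^ 2)) fun x y hxy => ?_).trans ?_
  · have h1 : |rho X x - 1| ≤ √(p.N ^ 100 * kk α * p.F (kk α)) := by
      have h2 : √(p.N ^ 4 * kk α * p.F (kk α)) + 1 ≤ √(p.N ^ 100 * kk α * p.F (kk α)) := by
        lognum c.num
      have h3 := c.sys.rho_le c.num x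
      have h4 := rho_nonneg c.sys.symm x
      rw [abs_le]; constructor <;> linarith
    have h2 : |e11 X s x y ^ 2| ≤ 2 * ah X s y ^ 2 := by
      have := dv_sq_le (c.abs_e11_le hxy)
      rw [mul_pow, sq_abs] at this
      rw [abs_sq]
      nlinarith [sq_nonneg (ah X s y)]
    refine (le_abs_self _).trans ((dv_abs_mul (dv_abs_mul h1 h2) le_rfl).trans_eq ?_)
    ring
  · rw [Ex_const_mul]
    have h1 := c.nu.Ex_prod_le (φ := fun x => |dvT1 X s (p.F (kk α)) x x|)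
      (ψ := fun y => ah X s y ^ 2) (fun _ => abs_nonneg _) (fun _ => sq_nonneg _)
    have h2 : 21 / 20 * (∑ x, |dvT1 X s (p.F (kk α)) x x|) * (∑ y, ah X s y ^ 2) / kk α ^ 2 ≤
        21 / 20 * p.dvS (kk α) * (p.N ^ 41 * p.F (kk α)) / kk α ^ 2 := by
      gcongr
      exacts [c.dv_T1, c.sys.Rh_le c.num c.sgn]
    refine (mul_le_mul_of_nonneg_left (h1.trans h2) (by positivity)).trans ?_
    unfold Par.dvS Par.dvE; lognum c.num

theorem dv_e : Ex ϱ (fun x y => pw X 2 x y * e11 X s x y * eta X s x y *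
    dvT1 X s (p.F (kk α)) x x) ≤ p.dvE (kk α) := by
  obtain ⟨_, _, _, _, _, _, _, _, -⟩ := c.num.poss
  have hS := c.dvS_pos
  refine (Ex_mono c.nu.nonneg (Z' := fun x y => 2 *
    (|dvT1 X s (p.F (kk α)) x x| * (|pw X 2 x y| * |ah X s y|))) fun x y hxy => ?_).trans ?_
  · refine (le_abs_self _).trans ((dv_abs_mul (dv_abs_mul (dv_abs_mul le_rfl (c.abs_e11_le hxy))
      (c.abs_eta_le hxy)) le_rfl).trans ?_)
    have : 0 ≤ |dvT1 X s (p.F (kk α)) x x| * (|pw X 2 x y| * |ah X s y|) := by positivity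
    linarith
  · rw [Ex_const_mul]
    have h1 := c.nu.Ex_le_unif (Z := fun x y => |dvT1 X s (p.F (kk α)) x x| *
      (|pw X 2 x y| * |ah X s y|)) (fun _ _ => by positivity)
    have h2 : ∀ x, ∑ y, |pw X 2 x y| * |ah X s y| ≤
        √(p.Om (kk α) ^ 4) * √(p.N ^ 41 * p.F (kk α)) := fun x => by
      have h3 := pair_cs (fun y => |pw X 2 x y|) (fun y => |ah X s y|)
      simp only [sq_abs] at h3
      refine (le_abs_self _).trans (h3.trans ?_)
      gcongr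
      · exact (single_le_sum (f := fun x => ∑ y, pw X 2 x y ^ 2) (fun _ _ => by positivity)
          (mem_univ x)).trans c.dv_P4_sum
      · exact c.sys.Rh_le c.num c.sgn
    have h3 : ∑ x, ∑ y, |dvT1 X s (p.F (kk α)) x x| * (|pw X 2 x y| * |ah X s y|) ≤
        p.dvS (kk α) * (√(p.Om (kk α) ^ 4) * √(p.N ^ 41 * p.F (kk α))) := by
      refine le_trans ?_ (mul_le_mul_of_nonneg_right c.dv_T1 (by positivity))
      rw [sum_mul]
      refine sum_le_sum fun x _ => ?_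
      rw [← mul_sum]
      exact mul_le_mul_of_nonneg_left (h2 x) (abs_nonneg _)
    have h4 : 2 * (21 / 20 * (p.dvS (kk α) * (√(p.Om (kk α) ^ 4) * √(p.N ^ 41 * p.F (kk α))))
        / kk α ^ 2) ≤ p.dvE (kk α) := by unfold Par.dvS Par.dvE; lognum c.num
    refine le_trans ?_ h4
    gcongr
    refine h1.trans ?_
    gcongr

theorem dv_f : Ex ϱ (fun x y => (2 * (rho X x - 1) * e11 X s x y * eta X s x y
    + pw X 2 x y * (e11 X s x y * e22 X s x y + eta X s x y ^ 2)) * dvT1 X s (p.F (kk α)) x y) ≤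
    6 * p.dvE (kk α) := by
  obtain ⟨_, _, _, _, _, _, _, _, -⟩ := c.num.poss
  have hS := c.dvS_pos
  refine (Ex_mono c.nu.nonneg (Z' := fun x y =>
    3 * (|(rho X x - 1) * ah X s y| * |dvT1 X s (p.F (kk α)) x y|)
      + 3 * (|pw X 2 x y| * |dvT1 X s (p.F (kk α)) x y|)) fun x y hxy => ?_).trans ?_
  · have h1 := dv_abs_mul (dv_abs_mul (le_refl |2 * (rho X x - 1)|) (c.abs_e11_le hxy))
      (c.abs_eta_le hxy)
    have h2 : |e11 X s x y * e22 X s x y + eta X s x y ^ 2| ≤ 3 := by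
      have h3 := abs_le.1 (c.dv_ee hxy)
      have h4 := dv_sq_le (c.abs_eta_le hxy)
      exact abs_le.2 ⟨by linarith [h3.1, sq_nonneg (eta X s x y)], by linarith [h3.2]⟩
    have h3 := dv_abs_mul (le_refl |pw X 2 x y|) h2
    have h4 : |2 * (rho X x - 1) * e11 X s x y * eta X s x y
        + pw X 2 x y * (e11 X s x y * e22 X s x y + eta X s x y ^ 2)| ≤
        3 * |(rho X x - 1) * ah X s y| + 3 * |pw X 2 x y| := by
      refine (abs_add_le _ _).trans ?_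
      rw [abs_mul 2, abs_two] at h1
      rw [abs_mul (rho X x - 1)]
      have : 0 ≤ |rho X x - 1| * |ah X s y| := by positivity
      linarith
    refine (le_abs_self _).trans ((dv_abs_mul h4 le_rfl).trans_eq ?_)
    ring
  · rw [Ex_add, Ex_const_mul, Ex_const_mul]
    have h1 := c.nu.Ex_abs_mul_le (Z := fun x y => (rho X x - 1) * ah X s y)
      (Z' := dvT1 X s (p.F (kk α)))
    have h2 := c.nu.Ex_abs_mul_le (Z := pw X 2) (Z' := dvT1 X s (p.F (kk α)))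
    have h3 : ∑ x, ∑ y, ((rho X x - 1) * ah X s y) ^ 2 ≤
        p.N ^ 5 * kk α * (p.N ^ 41 * p.F (kk α)) := by
      simp only [mul_pow, ← sum_mul_sum]
      gcongr
      exacts [c.dv_sum_rho1, c.sys.Rh_le c.num c.sgn]
    have h4 : 21 / 20 * √(p.N ^ 5 * kk α * (p.N ^ 41 * p.F (kk α))) * p.dvS (kk α) / kk α ^ 2 ≤
        p.dvE (kk α) := by unfold Par.dvS Par.dvE; lognum c.num
    have h5 : 21 / 20 * √(p.Om (kk α) ^ 4) * p.dvS (kk α) / kk α ^ 2 ≤ p.dvE (kk α) := by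
      unfold Par.dvS Par.dvE; lognum c.num
    have h6 := h1.trans (le_trans (by gcongr; exact c.dv_T3) h4)
    have h7 := h2.trans (le_trans (by gcongr; exacts [c.dv_P4_sum, c.dv_T3]) h5)
    linarith

theorem dv_H : Ex ϱ (dvH X s (p.F (kk α))) ≤
    (∑ x, dvT1 X s (p.F (kk α)) x x) * (tr X 2 - kk α) / kk α ^ 2 + 16 * p.dvE (kk α) := by
  have e : Ex ϱ (dvH X s (p.F (kk α))) = Ex ϱ (fun x y => dvH X s (p.F (kk α)) x y) := rfl
  rw [e]
  simp only [dvH, Ex_add, Ex_const_mul]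
  linarith [c.dv_a, c.dv_b, c.dv_c, c.dv_d, c.dv_e, c.dv_f]

theorem dv_g : 99 / 100 * (VV X univ (p.F (kk α)) / kk α) ≤
    Ex ϱ (fun x _ => dvU X (p.F (kk α)) x ^ 2) := by
  have hk := c.num.k_pos
  have h1 := (abs_le.1 (c.nu.Ex_left fun x => dvU X (p.F (kk α)) x ^ 2)).1
  simp only [abs_sq] at h1
  have e : ∑ z, dvU X (p.F (kk α)) z ^ 2 = VV X univ (p.F (kk α)) := rfl
  have h2 : √(p.Row (kk α) / kk α) ≤ 1 / 100 := by lognum c.num
  have h3 : 0 ≤ VV X univ (p.F (kk α)) / kk α := by rw [← e]; positivity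
  have h4 := mul_le_mul_of_nonneg_right h2 h3
  rw [e, mul_div_assoc] at h1
  linarith

theorem dv_h : Ex ϱ (fun x y => dvU4 X s x * dvU X (p.F (kk α)) y ^ 2) ≤
    63 / 100 * (VV X univ (p.F (kk α)) / kk α) := by
  have hk := c.num.k_pos
  have h1 := c.nu.Ex_prod_le (φ := dvU4 X s) (ψ := fun y => dvU X (p.F (kk α)) y ^ 2)
    (fun _ => by unfold dvU4; positivity) (fun _ => sq_nonneg _)
  refine h1.trans ((?_ : _ ≤ 21 / 20 * (6 / 10 * kk α) * (∑ z, dvU X (p.F (kk α)) z ^ 2)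
    / kk α ^ 2).trans_eq ?_)
  · gcongr
    exact c.dv_sumU4.1
  · change 21 / 20 * (6 / 10 * kk α) * VV X univ (p.F (kk α)) / kk α ^ 2 = _
    field_simp
    ring

theorem dv_i : Ex ϱ (fun x y => dvU X (p.F (kk α)) x ^ 2 * dvT X s x y) ≤ p.dvE (kk α) := by
  obtain ⟨_, _, _, _, _, _, _, _, -⟩ := c.num.poss
  have hG := c.num.GV_pos
  have h1 := c.nu.Ex_le_unif (Z := fun x y => dvU X (p.F (kk α)) x ^ 2 * dvT X s x y)
    (fun _ _ => by unfold dvT; positivity)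
  have h2 : ∀ x, ∑ y, dvT X s x y ≤ √((p.N ^ 21) ^ 2 * √(p.N ^ 5 * kk α * p.F (kk α))) *
      √(p.N ^ 5 * kk α * p.F (kk α)) := fun x => by
    simp only [dvT]
    rw [sum_comm]
    simp only [← mul_sum, c.dv_row]
    refine (le_abs_self _).trans ((pair_cs _ _).trans ?_)
    simp only [← pow_mul]
    gcongr
    · refine (c.dvU4_le x).trans ?_
      rw [← pow_mul]
      gcongr
      exact c.dvR_le x
    · exact c.dv_sumR_sq
  have h3 : ∑ x, ∑ y, dvU X (p.F (kk α)) x ^ 2 * dvT X s x y ≤ p.GV (kk α) *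
      (√((p.N ^ 21) ^ 2 * √(p.N ^ 5 * kk α * p.F (kk α))) * √(p.N ^ 5 * kk α * p.F (kk α))) := by
    refine le_trans ?_ (mul_le_mul_of_nonneg_right (c.sys.V_le c.num) (by positivity))
    rw [VV, sum_mul]
    refine sum_le_sum fun x _ => ?_
    rw [← mul_sum]
    exact mul_le_mul_of_nonneg_left (h2 x) (sq_nonneg _)
  refine h1.trans (le_trans (b := 21 / 20 * (p.GV (kk α) *
      (√((p.N ^ 21) ^ 2 * √(p.N ^ 5 * kk α * p.F (kk α))) * √(p.N ^ 5 * kk α * p.F (kk α))))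
      / kk α ^ 2) (by gcongr) ?_)
  unfold Par.dvE; lognum c.num

theorem dv_j : Ex ϱ (fun x y => ah X s x ^ 4 * dvU X (p.F (kk α)) y ^ 2) ≤ p.dvE (kk α) := by
  obtain ⟨_, _, _, _, _, _, _, _, -⟩ := c.num.poss
  have h1 := c.nu.Ex_prod_le (φ := fun x => ah X s x ^ 4)
    (ψ := fun y => dvU X (p.F (kk α)) y ^ 2) (fun _ => by positivity) (fun _ => sq_nonneg _)
  have h2 : ∑ x, ah X s x ^ 4 ≤ p.N ^ 41 * p.F (kk α) * (p.N ^ 41 * p.F (kk α)) := by
    refine le_trans ?_ (mul_le_mul_of_nonneg_left (c.sys.Rh_le c.num c.sgn) (by positivity))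
    rw [mul_sum]
    refine sum_le_sum fun x _ => ?_
    rw [show ah X s x ^ 4 = ah X s x ^ 2 * ah X s x ^ 2 by ring]
    exact mul_le_mul_of_nonneg_right (c.sys.ah_sq_le c.num c.sgn x) (sq_nonneg _)
  refine h1.trans (le_trans (b := 21 / 20 * (p.N ^ 41 * p.F (kk α) * (p.N ^ 41 * p.F (kk α))) *
    p.GV (kk α) / kk α ^ 2) (by gcongr; exact c.sys.V_le c.num) ?_)
  unfold Par.dvE; lognum c.num

theorem dv_k1 : Ex ϱ (fun x y => (p.N ^ 21) ^ 2 * (∑ z, pw X 2 z x ^ 2) * ah X s y ^ 2) ≤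
    p.dvE (kk α) := by
  obtain ⟨_, _, _, _, _, _, _, _, -⟩ := c.num.poss
  have h1 := c.nu.Ex_prod_le (φ := fun x => (p.N ^ 21) ^ 2 * ∑ z, pw X 2 z x ^ 2)
    (ψ := fun y => ah X s y ^ 2) (fun _ => by positivity) (fun _ => sq_nonneg _)
  rw [← mul_sum, sum_comm] at h1
  refine h1.trans (le_trans (b := 21 / 20 * ((p.N ^ 21) ^ 2 * p.Om (kk α) ^ 4) *
    (p.N ^ 41 * p.F (kk α)) / kk α ^ 2)
    (by gcongr; exacts [c.dv_P4_sum, c.sys.Rh_le c.num c.sgn]) ?_)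
  unfold Par.dvE; lognum c.num

theorem dv_PR : ∑ z, (∑ x, pw X 2 z x ^ 2) * dvR X z ≤
    p.Om (kk α) ^ 2 * (p.N ^ 5 * kk α * p.F (kk α)) := by
  refine le_trans ?_ (mul_le_mul_of_nonneg_left c.dv_sumR_sq (sq_nonneg _))
  rw [mul_sum]
  refine sum_le_sum fun z _ => ?_
  rw [sq (dvR X z), ← mul_assoc]
  exact mul_le_mul_of_nonneg_right (c.dv_P4 z) (c.dvR_nonneg z)

theorem dv_k2 : Ex ϱ (fun x y => dvW X s x y) ≤ p.dvE (kk α) := by
  have h1 := c.nu.Ex_le_unif (Z := fun x y => dvW X s x y) (fun _ _ => by unfold dvW; positivity)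
  have h2 : ∑ x, ∑ y, dvW X s x y = ∑ z, (∑ x, pw X 2 z x ^ 2) * dvR X z := by
    simp only [dvW, ← c.dv_row, sum_mul_sum]
    exact (sum_congr rfl fun x _ => sum_comm).trans sum_comm
  rw [h2] at h1
  refine h1.trans (le_trans (b := 21 / 20 * (p.Om (kk α) ^ 2 * (p.N ^ 5 * kk α * p.F (kk α)))
    / kk α ^ 2) (by gcongr; exact c.dv_PR) ?_)
  unfold Par.dvE; lognum c.num

theorem dv_k3 : Ex ϱ (fun x y => (p.N ^ 21) ^ 4 * ((rho X x - 1) ^ 2 * dvR X x) * ah X s y ^ 2) ≤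
    p.dvE (kk α) := by
  obtain ⟨_, _, _, _, _, _, _, _, -⟩ := c.num.poss
  have h1 := c.nu.Ex_prod_le (φ := fun x => (p.N ^ 21) ^ 4 * ((rho X x - 1) ^ 2 * dvR X x))
    (ψ := fun y => ah X s y ^ 2) (fun x => by have := c.dvR_nonneg x; positivity)
    (fun _ => sq_nonneg _)
  rw [← mul_sum] at h1
  have h2 : ∑ x, (rho X x - 1) ^ 2 * dvR X x ≤ 2 * √(p.N ^ 5 * kk α * p.F (kk α)) *
      (p.N ^ 5 * kk α * p.F (kk α)) + 2 * (p.N ^ 40 * kk α * p.F (kk α)) := by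
    refine le_trans ?_ (add_le_add (mul_le_mul_of_nonneg_left c.dv_sumR_sq (by positivity))
      (mul_le_mul_of_nonneg_left c.dv_sumR (by positivity)))
    rw [mul_sum, mul_sum, ← sum_add_distrib]
    refine sum_le_sum fun x _ => ?_
    have a1 := c.dvR_nonneg x
    have a2 : (rho X x - 1) ^ 2 ≤ 2 * dvR X x ^ 2 + 2 := by
      have := pow_le_pow_left₀ (rho_nonneg c.sys.symm x) (c.dv_rho_le x) 2
      nlinarith [sq_nonneg (rho X x + 1)]
    have a3 := mul_le_mul_of_nonneg_right a2 a1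
    have a4 := mul_le_mul_of_nonneg_right (c.dvR_le x) (sq_nonneg (dvR X x))
    linarith
  have h3 : 2 * √(p.N ^ 5 * kk α * p.F (kk α)) * (p.N ^ 5 * kk α * p.F (kk α))
      + 2 * (p.N ^ 40 * kk α * p.F (kk α)) ≤ p.N ^ 100 * kk α * p.F (kk α) * √(kk α) := by
    lognum c.num
  refine h1.trans (le_trans (b := 21 / 20 * ((p.N ^ 21) ^ 4 *
    (p.N ^ 100 * kk α * p.F (kk α) * √(kk α))) * (p.N ^ 41 * p.F (kk α)) / kk α ^ 2)
    (by gcongr; exacts [h2.trans h3, c.sys.Rh_le c.num c.sgn]) ?_)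
  unfold Par.dvE; lognum c.num

theorem dv_k4 : Ex ϱ (fun x _ => (p.F (kk α) - 1) ^ 2 * dvU4 X s x) ≤ p.dvE (kk α) := by
  have hk := c.num.k_pos
  have h1 := c.nu.Ex_left_le (φ := fun x => (p.F (kk α) - 1) ^ 2 * dvU4 X s x)
    (fun x => by unfold dvU4; positivity)
  rw [← mul_sum] at h1
  refine h1.trans (le_trans (b := 21 / 20 * ((p.F (kk α) - 1) ^ 2 *
    (2 * (p.N * kk α * p.F (kk α)))) / kk α) (by gcongr; exact c.dv_sumU4.2) ?_)
  rw [sub_sq_comm, c.num.one_sub_F]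
  unfold Par.dvE; lognum c.num

theorem dv_k5 : Ex ϱ (fun x y => (p.N ^ 21) ^ 4 * (pw X 2 x y ^ 2 * dvR X x)) ≤ p.dvE (kk α) := by
  obtain ⟨_, _, _, _, _, _, _, _, -⟩ := c.num.poss
  have h1 := c.nu.Ex_le_unif (Z := fun x y => (p.N ^ 21) ^ 4 * (pw X 2 x y ^ 2 * dvR X x))
    (fun x _ => by have := c.dvR_nonneg x; positivity)
  simp only [← mul_sum, ← sum_mul] at h1
  refine h1.trans (le_trans (b := 21 / 20 * ((p.N ^ 21) ^ 4 *
    (p.Om (kk α) ^ 2 * (p.N ^ 5 * kk α * p.F (kk α)))) / kk α ^ 2)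
    (by gcongr; exact c.dv_PR) ?_)
  unfold Par.dvE; lognum c.num

theorem dv_l : Ex ϱ (fun x _ => p.N ^ 128 / kk α * dvR X x) ≤ p.dvE (kk α) := by
  obtain ⟨_, _, _, _, _, _, _, _, -⟩ := c.num.poss
  have h1 := c.nu.Ex_left_le (φ := fun x => p.N ^ 128 / kk α * dvR X x)
    (fun x => by have := c.dvR_nonneg x; positivity)
  rw [← mul_sum] at h1
  refine h1.trans (le_trans (b := 21 / 20 * (p.N ^ 128 / kk α * (p.N ^ 40 * kk α * p.F (kk α)))
    / kk α) (by gcongr; exact c.dv_sumR) ?_)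
  unfold Par.dvE; lognum c.num

theorem dvE_pos : 0 < p.dvE (kk α) := by
  obtain ⟨_, _, _, _, _, _, -⟩ := c.num.poss
  unfold Par.dvE; positivity

theorem dv_G : Ex ϱ (dvG X s (p.F (kk α)) p.N) ≤
    2 * ((∑ x, dvT1 X s (p.F (kk α)) x x) * (tr X 2 - kk α) / kk α ^ 2)
      + 90000 * p.dvE (kk α) := by
  have e : Ex ϱ (dvG X s (p.F (kk α)) p.N) = Ex ϱ (fun x y => dvG X s (p.F (kk α)) p.N x y) := rfl
  have h0 : 0 ≤ VV X univ (p.F (kk α)) / kk α :=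
    div_nonneg (sum_nonneg fun _ _ => sq_nonneg _) c.num.k_pos.le
  have h1 : Ex ϱ (fun x y => dvH X s (p.F (kk α)) x y) ≤ _ := c.dv_H
  rw [e]
  unfold dvG
  iterate 10 rw [Ex_add]
  rw [Ex_const_mul (-(89 / 100)), Ex_const_mul 2, Ex_const_mul (1155 / 1000),
    Ex_const_mul (1155 / 1000), Ex_const_mul 16000, Ex_const_mul 16000, Ex_const_mul 16000,
    Ex_const_mul 16000, Ex_const_mul 16000, Ex_const_mul 42, Ex_const_mul 4608]
  linarith [c.dv_g, c.dv_h, c.dv_i, c.dv_j, c.dv_k1, c.dv_k2, c.dv_k3, c.dv_k4, c.dv_k5, c.dv_l,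
    c.dvE_pos]

end Ctx

theorem dv_main {k M V D N : ℝ} (hk : 0 < k) (hkM : 0 < k + M - 2) :
    V * (1 + 1 / (N ^ 2 * k)) + 2 * (k / (k + M) - (k - 2) / (k - 2 + M)) * D
      + 4 * ((V + (k / (k + M) + 1 / k) * D) * (D + k * (k / (k + M)) - k) / k ^ 2) =
    V * (1 - 4 * (1 - k / (k + M)) / k) + V / (N ^ 2 * k) + 4 * (V * D / k ^ 2)
      + 4 * (D ^ 2 / (k * (k + M))) + 4 * (D ^ 2 / k ^ 3)
      + (8 * M / ((k + M) ^ 2 * (k + M - 2)) - 4 * M / (k ^ 2 * (k + M))) * D := by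
  have h1 : k - 2 + M ≠ 0 := by linarith
  have h2 : k + M ≠ 0 := by linarith
  have h3 : k + M - 2 ≠ 0 := by linarith
  rw [mul_add V, mul_one_div]
  generalize V / (N ^ 2 * k) = w
  field_simp
  ring

theorem Ctx.drift_V (c : Ctx p ϱ h sz X s) :
    Ex ϱ (fun x y => VV (upd X s x y) (rest x y) (p.F (kk α - 2)))
      ≤ VV X univ (p.F (kk α)) * (1 - 4 * (1 - p.F (kk α)) / kk α)
        + p.GV (kk α) / (p.N * kk α) := by
  obtain ⟨hN, _, hM, hk, hkb, hF, -⟩ := c.num.poss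
  have hsT := c.num.sT_pos
  have hGV := c.num.GV_pos
  have hbig := c.num.k_big
  refine (Ex_mono c.nu.nonneg fun x y hxy => c.dv_point hxy (p.F (kk α)) _).trans ?_
  rw [Ex_add, c.meas.Ex_const hk, Ex_add, Ex_swap (Z := dvG X s (p.F (kk α)) p.N) c.meas.symm]
  have h1 : Ex ϱ (fun x y => dvG X s (p.F (kk α)) p.N x y) ≤ _ := c.dv_G
  have h1' := c.dv_G
  rw [c.dv_T4] at h1 h1'
  obtain ⟨D, hD⟩ : ∃ D, D = tr X 2 - kk α * p.F (kk α) := ⟨_, rfl⟩
  have hf : tr X 2 - kk α = D + kk α * p.F (kk α) - kk α := by rw [hD]; ring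
  have hD1 : |D| ≤ p.sT (kk α) := hD ▸ c.sys.f_dev c.num
  have hD2 := dv_sq_le hD1
  rw [hf, ← hD] at h1 h1'
  rw [← hD]
  have hV := c.sys.V_le c.num
  have hV0 : 0 ≤ VV X univ (p.F (kk α)) := sum_nonneg fun _ _ => sq_nonneg _
  generalize VV X univ (p.F (kk α)) = V at *
  have hkM : 0 < kk α + p.M - 2 := by linarith
  have h2 := dv_main (V := V) (D := D) (N := p.N) hk hkM
  change V * _ + 2 * (p.F (kk α) - p.F (kk α - 2)) * D
    + 4 * ((V + (p.F (kk α) + 1 / kk α) * D) * (D + kk α * p.F (kk α) - kk α) / kk α ^ 2) =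
    V * (1 - 4 * (1 - p.F (kk α)) / kk α) + _ + _ + 4 * (D ^ 2 / (kk α * p.kb (kk α))) + _
      + (8 * p.M / (p.kb (kk α) ^ 2 * (p.kb (kk α) - 2)) - 4 * p.M / (kk α ^ 2 * p.kb (kk α))) * D
    at h2
  have hkb2 : p.kb (kk α) / 2 ≤ p.kb (kk α) - 2 := by unfold Par.kb; linarith
  have e1 : V / (p.N ^ 2 * kk α) ≤ p.dvE (kk α) :=
    le_trans (b := p.GV (kk α) / (p.N ^ 2 * kk α)) (by gcongr) (by unfold Par.dvE; lognum c.num)
  have e2 : V * D / kk α ^ 2 ≤ p.dvE (kk α) :=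
    le_trans (b := p.GV (kk α) * p.sT (kk α) / kk α ^ 2)
      (div_le_div_of_nonneg_right ((le_abs_self _).trans
        (dv_abs_mul (by rwa [abs_of_nonneg hV0]) hD1)) (sq_nonneg _))
      (by unfold Par.dvE; lognum c.num)
  have e3 : D ^ 2 / (kk α * p.kb (kk α)) ≤ p.dvE (kk α) :=
    le_trans (b := p.sT (kk α) ^ 2 / (kk α * p.kb (kk α))) (by gcongr)
      (by unfold Par.dvE; lognum c.num)
  have e4 : D ^ 2 / kk α ^ 3 ≤ p.dvE (kk α) :=
    le_trans (b := p.sT (kk α) ^ 2 / kk α ^ 3) (by gcongr) (by unfold Par.dvE; lognum c.num)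
  have e5 : (8 * p.M / (p.kb (kk α) ^ 2 * (p.kb (kk α) - 2))
      - 4 * p.M / (kk α ^ 2 * p.kb (kk α))) * D ≤ p.dvE (kk α) := by
    have a1 : 8 * p.M / (p.kb (kk α) ^ 2 * (p.kb (kk α) - 2)) ≤
        8 * p.M / (p.kb (kk α) ^ 2 * (p.kb (kk α) / 2)) := by gcongr
    have a2 : 0 ≤ 8 * p.M / (p.kb (kk α) ^ 2 * (p.kb (kk α) - 2)) := by
      have : 0 < p.kb (kk α) - 2 := by linarith
      positivity
    have a3 : 0 ≤ 4 * p.M / (kk α ^ 2 * p.kb (kk α)) := by positivity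
    have a4 : |8 * p.M / (p.kb (kk α) ^ 2 * (p.kb (kk α) - 2))
        - 4 * p.M / (kk α ^ 2 * p.kb (kk α))| ≤ 8 * p.M / (p.kb (kk α) ^ 2 * (p.kb (kk α) / 2))
          + 4 * p.M / (kk α ^ 2 * p.kb (kk α)) := abs_le.2 ⟨by linarith, by linarith⟩
    refine (le_abs_self _).trans ((dv_abs_mul a4 hD1).trans ?_)
    rw [add_mul]
    unfold Par.dvE; lognum c.num
  have e6 : kk α * (p.F (kk α) - p.F (kk α - 2)) ^ 2 ≤ p.dvE (kk α) := by
    have a1 : p.F (kk α) - p.F (kk α - 2) = 2 * p.M / (p.kb (kk α) * (p.kb (kk α) - 2)) := by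
      have h1 : kk α - 2 + p.M ≠ 0 := by linarith
      have h2 : kk α + p.M ≠ 0 := by linarith
      have h3 : kk α + p.M - 2 ≠ 0 := by linarith
      unfold Par.F Par.kb
      field_simp
      ring
    have a2 : 0 < p.kb (kk α) - 2 := by linarith
    rw [a1]
    refine le_trans (b := kk α * (2 * p.M / (p.kb (kk α) * (p.kb (kk α) / 2))) ^ 2) (by gcongr) ?_
    unfold Par.dvE; lognum c.num
  have e7 : 8 * 8 * p.N ^ 2 / kk α ^ 2 ≤ p.dvE (kk α) := by unfold Par.dvE; lognum c.num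
  have e8 : p.GV (kk α) / (p.N * kk α) = 1000000 * p.dvE (kk α) := by
    unfold Par.dvE Par.GV; field_simp; ring
  have e9 := c.dvE_pos
  have e10 : 64 * p.N ^ 2 / kk α ^ 2 = 8 * 8 * p.N ^ 2 / kk α ^ 2 := by ring
  linarith

end Crest.Agent.R062
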