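import Crest.Agent.R062.Mat

/-! Exact identities for one gluing step: entries of the glued matrix. -/

open Matrix Finset

namespace Crest.Agent.R062
variable {α : Type} [Fintype α] [DecidableEq α]

set_option linter.unusedSectionVars false

/-- Hypotheses of the exact identities. -/
structure Piv (X : Matrix α α ℝ) (s : ℝ) (x y : α) : Prop where
  symm : X.IsSymm
  rowsum : ∀ z, ∑ t, X z t = 0
  sgn : s = 1 ∨ s = -1
  ne : x ≠ y
  del : Del X s x y ≠ 0
  card : 2 < kk α

theorem sum_eq_rest {x y : α} (h : x ≠ y) (f : α → ℝ) :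
    ∑ t, f t = f x + f y + ∑ t ∈ rest x y, f t := by
  rw [rest, add_assoc, Finset.add_sum_erase _ f (by simp [h.symm]),
    Finset.add_sum_erase _ f (mem_univ x)]

theorem sum_rest_const {x y : α} (h : x ≠ y) (c : ℝ) :
    ∑ _t ∈ rest x y, c = (kk α - 2) * c := by
  have := sum_eq_rest h (fun _ => c)
  rw [Finset.sum_const, card_univ, nsmul_eq_mul] at this
  unfold kk
  linarith

theorem Pr_symm (x y : α) : (Pr x y).IsSymm := by
  ext z t
  simp only [Pr, transpose_apply, of_apply, and_comm, eq_comm]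

theorem Pr_mul_apply (x y : α) (B : Matrix α α ℝ) (z t : α) :
    (Pr x y * B) z t =
      if z ∈ rest x y then B z t - (∑ u ∈ rest x y, B u t) / (kk α - 2) else 0 := by
  rw [Matrix.mul_apply]
  simp only [Pr, of_apply]
  split_ifs with hz
  · rw [← Finset.sum_subset (Finset.subset_univ (rest x y)) (fun u _ hu => by simp [hu])]
    rw [Finset.sum_congr rfl (g := fun u => (if z = u then B u t else 0) - B u t / (kk α - 2))
      (fun u hu => by
        rw [if_pos ⟨hz, hu⟩]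
        split_ifs <;> ring)]
    rw [Finset.sum_sub_distrib, Finset.sum_ite_eq, if_pos hz, Finset.sum_div]
  · simp [hz]

theorem mul_Pr_apply (x y : α) (B : Matrix α α ℝ) (z t : α) :
    (B * Pr x y) z t =
      if t ∈ rest x y then B z t - (∑ u ∈ rest x y, B z u) / (kk α - 2) else 0 := by
  have := Pr_mul_apply x y Bᵀ t z
  rw [← (Pr_symm x y).eq, ← transpose_mul, transpose_apply] at this
  exact this

/-- The quadratic form `vᵀ E v`. -/
noncomputable def qE (X : Matrix α α ℝ) (s : ℝ) (x y : α) (v₁ v₂ : ℝ) : ℝ :=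
  e11 X s x y * v₁ ^ 2 + 2 * eta X s x y * (v₁ * v₂) + e22 X s x y * v₂ ^ 2

/-- `2 wᵀ E v - s vᵀ P E v + (E v)ᵀ N₀ (E v)`. -/
noncomputable def qR (X : Matrix α α ℝ) (s : ℝ) (x y : α) (v₁ v₂ w₁ w₂ : ℝ) : ℝ :=
  2 * (w₁ * (e11 X s x y * v₁ + eta X s x y * v₂) + w₂ * (eta X s x y * v₁ + e22 X s x y * v₂))
    - s * (v₁ * (eta X s x y * v₁ + e22 X s x y * v₂) + v₂ * (e11 X s x y * v₁ + eta X s x y * v₂))
    + (rho X x - s * X x y) * (e11 X s x y * v₁ + eta X s x y * v₂) ^ 2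
    + (2 * pw X 2 x y - s * (X x x + X y y)) * ((e11 X s x y * v₁ + eta X s x y * v₂)
        * (eta X s x y * v₁ + e22 X s x y * v₂))
    + (rho X y - s * X x y) * (eta X s x y * v₁ + e22 X s x y * v₂) ^ 2

namespace Piv
variable {X : Matrix α α ℝ} {s : ℝ} {x y : α} (hp : Piv X s x y)
include hp

theorem Xt_symm : (Xt X s x y).IsSymm := by
  ext z t
  simp only [Xt, transpose_apply, of_apply, hp.symm.apply z t, hp.symm.apply x t, hp.symm.apply y t,
    hp.symm.apply z x, hp.symm.apply z y]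
  ring

theorem upd_symm : (upd X s x y).IsSymm := by
  unfold upd Matrix.IsSymm
  rw [transpose_mul, transpose_mul, (Pr_symm x y).eq, hp.Xt_symm.eq, Matrix.mul_assoc]

theorem Xt_rowsum (z : α) : ∑ t, Xt X s x y z t = 0 := by
  simp only [Xt, of_apply, Finset.sum_add_distrib, ← Finset.mul_sum, hp.rowsum]
  ring

theorem Xt_colsum (t : α) : ∑ z, Xt X s x y z t = 0 := by
  rw [← hp.Xt_rowsum t]
  exact Finset.sum_congr rfl fun z _ => hp.Xt_symm.apply t z

theorem upd_rowsum (z : α) : ∑ t, upd X s x y z t = 0 := by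
  have hk : kk α - 2 ≠ 0 := (sub_pos.2 hp.card).ne'
  simp only [upd, mul_Pr_apply]
  rw [← Finset.sum_filter, Finset.filter_mem_eq_inter, Finset.univ_inter, Finset.sum_sub_distrib,
    sum_rest_const hp.ne, mul_div_cancel₀ _ hk, sub_self]

omit hp in
theorem upd_out' {z : α} (hz : z ∉ rest x y) (t : α) : upd X s x y z t = 0 := by
  rw [upd, Matrix.mul_assoc, Pr_mul_apply, if_neg hz]

theorem upd_out {z : α} (hz : z ∉ rest x y) (t : α) : upd X s x y z t = 0 := by
  have _ := hp.ne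
  exact upd_out' hz t

/-- The rows of `Pr * Xt`. -/
theorem Pr_mul_Xt {z : α} (hz : z ∈ rest x y) (t : α) :
    (Pr x y * Xt X s x y) z t =
      Xt X s x y z t + (Xt X s x y x t + Xt X s x y y t) / (kk α - 2) := by
  have h := hp.Xt_colsum t
  rw [sum_eq_rest hp.ne] at h
  rw [Pr_mul_apply, if_pos hz, eq_neg_of_add_eq_zero_right h]
  ring

theorem Pr_mul_Xt_rowsum {z : α} (hz : z ∈ rest x y) : ∑ t, (Pr x y * Xt X s x y) z t = 0 := by
  simp only [hp.Pr_mul_Xt hz, Finset.sum_add_distrib, ← Finset.sum_div, hp.Xt_rowsum]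
  ring

theorem upd_eq_row {z t : α} (hz : z ∈ rest x y) (ht : t ∈ rest x y) :
    upd X s x y z t = (Pr x y * Xt X s x y) z t +
      ((Pr x y * Xt X s x y) z x + (Pr x y * Xt X s x y) z y) / (kk α - 2) := by
  have h := hp.Pr_mul_Xt_rowsum hz
  rw [sum_eq_rest hp.ne] at h
  rw [upd, mul_Pr_apply, if_pos ht, eq_neg_of_add_eq_zero_right h]
  ring

/-- Entries of the new matrix. -/
theorem upd_apply {z t : α} (hz : z ∈ rest x y) (ht : t ∈ rest x y) :
    upd X s x y z t = Xt X s x y z t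
      + (Xt X s x y x t + Xt X s x y y t + Xt X s x y z x + Xt X s x y z y) / (kk α - 2)
      + (Xt X s x y x x + 2 * Xt X s x y x y + Xt X s x y y y) / (kk α - 2) ^ 2 := by
  rw [hp.upd_eq_row hz ht, hp.Pr_mul_Xt hz, hp.Pr_mul_Xt hz, hp.Pr_mul_Xt hz,
    hp.Xt_symm.apply x y]
  generalize kk α - 2 = k'
  ring

/-- `E` is the inverse of `s P - s J / k - X_blk`. -/
theorem E_inv :
    -e11 X s x y * ah X s x + eta X s x y * (s - ch X s x y) = 1 ∧
    e11 X s x y * (s - ch X s x y) - eta X s x y * ah X s y = 0 ∧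
    -eta X s x y * ah X s x + e22 X s x y * (s - ch X s x y) = 0 ∧
    eta X s x y * (s - ch X s x y) - e22 X s x y * ah X s y = 1 := by
  have hD := hp.del
  unfold e11 eta e22
  refine ⟨?_, ?_, ?_, ?_⟩ <;> field_simp <;> simp only [Del] <;> ring

/-- In terms of `K = X + s J / k` the step is a plain Schur complement. -/
theorem upd_apply_K {z t : α} (hz : z ∈ rest x y) (ht : t ∈ rest x y) :
    upd X s x y z t + s / (kk α - 2) = ch X s z t + e11 X s x y * (ch X s z x * ch X s x t)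
      + eta X s x y * (ch X s z x * ch X s y t + ch X s z y * ch X s x t)
      + e22 X s x y * (ch X s z y * ch X s y t) := by
  have hk : kk α - 2 ≠ 0 := (sub_pos.2 hp.card).ne'
  have hk0 : kk α ≠ 0 := by have := hp.card; positivity
  obtain ⟨h1, h2, h3, h4⟩ := hp.E_inv
  have hθ : s / kk α * (1 + 2 * (kk α - 2)⁻¹) = s * (kk α - 2)⁻¹ := by field_simp; ring
  rw [hp.upd_apply hz ht]
  simp only [Xt, of_apply, hp.symm.apply x y, ah, ch, div_eq_mul_inv, ← inv_pow] at h1 h2 h3 h4 hθ ⊢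
  generalize (kk α - 2)⁻¹ = κ at *
  generalize s * (kk α)⁻¹ = θ at *
  generalize e11 X s x y = e₁ at *
  generalize eta X s x y = η at *
  generalize e22 X s x y = e₂ at *
  -- `v = ρ - κ E⁻¹ 1`
  have g1 : e₁ * (s - X x x - X x y - 2 * θ) + η * (s - X x y - X y y - 2 * θ) = 1 := by
    linear_combination h1 + h2
  have g2 : η * (s - X x x - X x y - 2 * θ) + e₂ * (s - X x y - X y y - 2 * θ) = 1 := by
    linear_combination h3 + h4
  have a1 : κ * (X x x + X x y) = θ - κ * (s - X x x - X x y - 2 * θ) := by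
    linear_combination -hθ
  have a2 : κ * (X x y + X y y) = θ - κ * (s - X x y - X y y - 2 * θ) := by
    linear_combination -hθ
  have key : ∀ n₁ n₂ m₁ m₂ : ℝ, e₁ * n₁ + η * n₂ = 1 → η * n₁ + e₂ * n₂ = 1 → m₁ = θ - κ * n₁ →
      m₂ = θ - κ * n₂ →
      e₁ * ((X z x + m₁) * (X x t + m₁)) + η * ((X z x + m₁) * (X y t + m₂) +
        (X z y + m₂) * (X x t + m₁)) + e₂ * ((X z y + m₂) * (X y t + m₂)) =
      e₁ * ((X z x + θ) * (X x t + θ)) + η * ((X z x + θ) * (X y t + θ) +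
        (X z y + θ) * (X x t + θ)) + e₂ * ((X z y + θ) * (X y t + θ))
        - κ * (X z x + X z y + X x t + X y t + 4 * θ) + κ ^ 2 * (n₁ + n₂) := by
    rintro n₁ n₂ _ _ g1 g2 rfl rfl
    linear_combination (-κ * (X z x + X x t + 2 * θ) + κ ^ 2 * n₁) * g1 +
      (-κ * (X z y + X y t + 2 * θ) + κ ^ 2 * n₂) * g2
  linear_combination key _ _ _ _ g1 g2 a1 a2 - (2 * κ + 1) * hθ

/-- New diagonal entries. -/
theorem upd_diag {z : α} (hz : z ∈ rest x y) :
    upd X s x y z z = X z z + 2 * (X z x + X z y) / (kk α - 2)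
      + (X x x + 2 * X x y + X y y) / (kk α - 2) ^ 2
      + qE X s x y (X z x + (X x x + X x y) / (kk α - 2)) (X z y + (X x y + X y y) / (kk α - 2)) := by
  rw [hp.upd_apply hz hz]
  simp only [Xt, of_apply, qE, hp.symm.apply x y, hp.symm.apply z x, hp.symm.apply z y]
  generalize kk α - 2 = k'
  ring

/-- New squared row norms. -/
theorem upd_rho {z : α} (hz : z ∈ rest x y) :
    rho (upd X s x y) z = rho X z + 2 * (pw X 2 z x + pw X 2 z y) / (kk α - 2)
      + (rho X x + 2 * pw X 2 x y + rho X y) / (kk α - 2) ^ 2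
      + qR X s x y (X z x + (X x x + X x y) / (kk α - 2)) (X z y + (X x y + X y y) / (kk α - 2))
          (pw X 2 z x + (rho X x + pw X 2 x y) / (kk α - 2))
          (pw X 2 z y + (pw X 2 x y + rho X y) / (kk α - 2)) := by
  have hk : kk α - 2 ≠ 0 := (sub_pos.2 hp.card).ne'
  have hk0 : kk α ≠ 0 := by have := hp.card; positivity
  obtain ⟨h1, h2, h3, h4⟩ := hp.E_inv
  have hθ : s / kk α * (1 + 2 * (kk α - 2)⁻¹) = s * (kk α - 2)⁻¹ := by field_simp; ring
  have hpw : ∀ u v, ∑ t, X u t * X v t = pw X 2 u v := by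
    intro u v
    rw [pw, sq, Matrix.mul_apply]
    exact Finset.sum_congr rfl fun t _ => by rw [hp.symm.apply v t]
  -- reduction to the row `w` of `Pr * Xt`
  set w : α → ℝ := fun t => (Pr x y * Xt X s x y) z t with hw
  have hw0 : ∑ t ∈ rest x y, w t = -(w x + w y) := by
    have h := hp.Pr_mul_Xt_rowsum hz
    rw [sum_eq_rest hp.ne] at h
    exact eq_neg_of_add_eq_zero_right h
  have e1 : rho (upd X s x y) z =
      ∑ t, w t ^ 2 - w x ^ 2 - w y ^ 2 - (w x + w y) ^ 2 / (kk α - 2) := by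
    have hx : x ∉ rest x y := by simp [rest]
    have hy : y ∉ rest x y := by simp [rest]
    rw [rho_eq hp.upd_symm, sum_eq_rest hp.ne, hp.upd_symm.apply x z, hp.upd_symm.apply y z,
      hp.upd_out hx, hp.upd_out hy, sum_eq_rest hp.ne (fun t => w t ^ 2),
      Finset.sum_congr rfl (g := fun t => w t ^ 2 + 2 * ((w x + w y) / (kk α - 2)) * w t +
        ((w x + w y) / (kk α - 2)) ^ 2) (fun t ht => by rw [hp.upd_eq_row hz ht]; ring),
      Finset.sum_add_distrib, Finset.sum_add_distrib, ← Finset.mul_sum, hw0, sum_rest_const hp.ne]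
    field_simp
    ring
  obtain ⟨v₁, hv₁⟩ : ∃ v₁, v₁ = X z x + (X x x + X x y) / (kk α - 2) := ⟨_, rfl⟩
  obtain ⟨v₂, hv₂⟩ : ∃ v₂, v₂ = X z y + (X x y + X y y) / (kk α - 2) := ⟨_, rfl⟩
  obtain ⟨p, hp'⟩ : ∃ p, p = e11 X s x y * v₁ + eta X s x y * v₂ := ⟨_, rfl⟩
  obtain ⟨q, hq'⟩ : ∃ q, q = eta X s x y * v₁ + e22 X s x y * v₂ := ⟨_, rfl⟩
  have e2 : ∀ t, w t = X z t + ((kk α - 2)⁻¹ + p) * X x t + ((kk α - 2)⁻¹ + q) * X y t := by
    intro t
    simp only [hw, hp.Pr_mul_Xt hz]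
    simp only [Xt, of_apply, hp', hq', hv₁, hv₂, hp.symm.apply x y]
    ring
  have e3 : ∑ t, w t ^ 2 = rho X z + ((kk α - 2)⁻¹ + p) ^ 2 * rho X x +
      ((kk α - 2)⁻¹ + q) ^ 2 * rho X y + 2 * ((kk α - 2)⁻¹ + p) * pw X 2 z x +
      2 * ((kk α - 2)⁻¹ + q) * pw X 2 z y +
      2 * ((kk α - 2)⁻¹ + p) * ((kk α - 2)⁻¹ + q) * pw X 2 x y := by
    simp only [← pw_two_self, ← hpw, Finset.mul_sum, ← Finset.sum_add_distrib]
    exact Finset.sum_congr rfl fun t _ => by rw [e2]; ring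
  have ex : w x = v₁ + p * X x x + q * X x y := by
    rw [e2, hv₁, hp.symm.apply x y]; ring
  have ey : w y = v₂ + p * X x y + q * X y y := by
    rw [e2, hv₂]; ring
  have hA : w x = s * q - s / kk α * (p + q) := by
    rw [ex, hp', hq']
    simp only [ah, ch] at h1 h3
    linear_combination (-v₁) * h1 - v₂ * h3
  have hB : w y = s * p - s / kk α * (p + q) := by
    rw [ey, hp', hq']
    simp only [ah, ch] at h2 h4
    linear_combination (-v₁) * h2 - v₂ * h4
  have e4 : w x ^ 2 + w y ^ 2 + (kk α - 2)⁻¹ * (w x + w y) ^ 2 = s * (w x * q + w y * p) := by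
    linear_combination w x * hA + w y * hB +
      (w x + w y) * ((kk α - 2)⁻¹ * hA + (kk α - 2)⁻¹ * hB - (p + q) * hθ)
  rw [e1, e3, qR, ← hv₁, ← hv₂, ← hp', ← hq']
  simp only [div_eq_mul_inv, ← inv_pow]
  generalize (kk α - 2)⁻¹ = κ at e4 ⊢
  linear_combination -e4 - s * q * ex - s * p * ey

end Piv

end Crest.Agent.R062
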