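import Crest.Agent.R062.Bounds
import Crest.Agent.R062.IdentA

/-! Drift of the row-norm variance: exact formula and pointwise inequalities. -/

open Matrix Finset

set_option linter.unusedSectionVars false

namespace Crest.Agent.R062
variable {α : Type} [Fintype α] [DecidableEq α]

/-! ### real inequalities -/

theorem dv_sq_le {a b : ℝ} (h : |a| ≤ b) : a ^ 2 ≤ b ^ 2 := sq_le_sq' (abs_le.1 h).1 (abs_le.1 h).2

theorem dv_abs_mul {a b A B : ℝ} (ha : |a| ≤ A) (hb : |b| ≤ B) : |a * b| ≤ A * B := by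
  rw [abs_mul]; exact mul_le_mul ha hb (abs_nonneg _) ((abs_nonneg _).trans ha)

theorem dv_hb_sq {Λ e1 e2 η b v1 v2 : ℝ} (w1 ρ1 F1 c2 : ℝ) (hΛ : 1 ≤ Λ) (he : |e1| ≤ Λ)
    (heb : |e1| ≤ 102 / 100 * |b|) (hee : |e1 * e2| ≤ 1) (hη : |η| ≤ 101 / 100) (h1 : |v1| ≤ Λ)
    (h2 : |v2| ≤ Λ) :
    (2 * w1 * (e1 * v1 + η * v2) + ρ1 * (e1 ^ 2 * v1 ^ 2 + 2 * e1 * η * (v1 * v2))
      + F1 * η ^ 2 * v1 ^ 2 + c2 * (2 * e1 * η * v1 ^ 2 + (e1 * e2 + η ^ 2) * (v1 * v2))) ^ 2 ≤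
    200 * (Λ ^ 2 * (w1 ^ 2 * b ^ 2) + w1 ^ 2 * v2 ^ 2 + Λ ^ 4 * (ρ1 ^ 2 * v1 ^ 2 * b ^ 2)
      + F1 ^ 2 * v1 ^ 4 + Λ ^ 4 * (c2 ^ 2 * v1 ^ 2)) := by
  have hL : Λ ≤ Λ * Λ := le_mul_of_one_le_left (by linarith) hΛ
  have a1 : e1 ^ 2 ≤ 2 * b ^ 2 := by
    have := dv_sq_le heb
    rw [mul_pow, sq_abs] at this
    nlinarith [sq_nonneg b]
  have a2 : η ^ 2 ≤ 2 := by have := dv_sq_le hη; linarith
  have a3 : v1 ^ 2 ≤ Λ ^ 2 := dv_sq_le h1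
  have a4 : (e1 * v1 + 2 * (η * v2)) ^ 2 ≤ (4 * (Λ * Λ)) ^ 2 := by
    have b1 := abs_le.1 (dv_abs_mul he h1)
    have b2 := abs_le.1 (dv_abs_mul hη h2)
    exact dv_sq_le (abs_le.2 ⟨by linarith [b1.1, b2.1], by linarith [b1.2, b2.2]⟩)
  have a5 : (2 * (η * (e1 * v1)) + (e1 * e2 + η ^ 2) * v2) ^ 2 ≤ (6 * (Λ * Λ)) ^ 2 := by
    have b1 := abs_le.1 (dv_abs_mul hη (dv_abs_mul he h1))
    have b0 : |e1 * e2 + η ^ 2| ≤ 3 :=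
      abs_le.2 ⟨by linarith [(abs_le.1 hee).1, sq_nonneg η], by linarith [(abs_le.1 hee).2]⟩
    have b2 := abs_le.1 (dv_abs_mul b0 h2)
    exact dv_sq_le (abs_le.2 ⟨by linarith [b1.1, b2.1], by linarith [b1.2, b2.2]⟩)
  have t1 : (2 * w1 * e1 * v1) ^ 2 ≤ 8 * (Λ ^ 2 * (w1 ^ 2 * b ^ 2)) := by
    calc _ = 4 * w1 ^ 2 * (e1 ^ 2 * v1 ^ 2) := by ring
      _ ≤ 4 * w1 ^ 2 * (2 * b ^ 2 * Λ ^ 2) := by gcongr
      _ = _ := by ring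
  have t2 : (2 * w1 * η * v2) ^ 2 ≤ 8 * (w1 ^ 2 * v2 ^ 2) := by
    calc _ = 4 * (w1 ^ 2 * v2 ^ 2) * η ^ 2 := by ring
      _ ≤ 4 * (w1 ^ 2 * v2 ^ 2) * 2 := by gcongr
      _ = _ := by ring
  have t3 : (ρ1 * e1 * v1 * (e1 * v1 + 2 * (η * v2))) ^ 2 ≤
      32 * (Λ ^ 4 * (ρ1 ^ 2 * v1 ^ 2 * b ^ 2)) := by
    calc _ = ρ1 ^ 2 * v1 ^ 2 * (e1 ^ 2 * (e1 * v1 + 2 * (η * v2)) ^ 2) := by ring
      _ ≤ ρ1 ^ 2 * v1 ^ 2 * (2 * b ^ 2 * (4 * (Λ * Λ)) ^ 2) := by gcongr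
      _ = _ := by ring
  have t4 : (F1 * η ^ 2 * v1 ^ 2) ^ 2 ≤ 4 * (F1 ^ 2 * v1 ^ 4) := by
    calc _ = F1 ^ 2 * v1 ^ 4 * (η ^ 2) ^ 2 := by ring
      _ ≤ F1 ^ 2 * v1 ^ 4 * 2 ^ 2 := by gcongr
      _ = _ := by ring
  have t5 : (c2 * v1 * (2 * (η * (e1 * v1)) + (e1 * e2 + η ^ 2) * v2)) ^ 2 ≤
      36 * (Λ ^ 4 * (c2 ^ 2 * v1 ^ 2)) := by
    calc _ = c2 ^ 2 * v1 ^ 2 * (2 * (η * (e1 * v1)) + (e1 * e2 + η ^ 2) * v2) ^ 2 := by ring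
      _ ≤ c2 ^ 2 * v1 ^ 2 * (6 * (Λ * Λ)) ^ 2 := by gcongr
      _ = _ := by ring
  have key : ∀ a b c d e : ℝ,
      (a + b + c + d + e) ^ 2 ≤ 5 * (a ^ 2 + b ^ 2 + c ^ 2 + d ^ 2 + e ^ 2) := fun a b c d e => by
    nlinarith [sq_nonneg (a - b), sq_nonneg (a - c), sq_nonneg (a - d), sq_nonneg (a - e),
      sq_nonneg (b - c), sq_nonneg (b - d), sq_nonneg (b - e), sq_nonneg (c - d),
      sq_nonneg (c - e), sq_nonneg (d - e)]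
  have k := key (2 * w1 * e1 * v1) (2 * w1 * η * v2) (ρ1 * e1 * v1 * (e1 * v1 + 2 * (η * v2)))
    (F1 * η ^ 2 * v1 ^ 2) (c2 * v1 * (2 * (η * (e1 * v1)) + (e1 * e2 + η ^ 2) * v2))
  have p1 : 0 ≤ Λ ^ 4 * (ρ1 ^ 2 * v1 ^ 2 * b ^ 2) := by positivity
  have p2 : 0 ≤ Λ ^ 4 * (c2 ^ 2 * v1 ^ 2) := by positivity
  have p3 : 0 ≤ F1 ^ 2 * v1 ^ 4 := by positivity
  have p4 : 0 ≤ w1 ^ 2 * v2 ^ 2 := by positivity
  have p5 : 0 ≤ Λ ^ 2 * (w1 ^ 2 * b ^ 2) := by positivity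
  refine le_trans (le_of_eq (by ring)) (k.trans (by linarith))

theorem dv_r_sq {Λ e1 e2 η v1 v2 k : ℝ} (hΛ : 1 ≤ Λ) (he : |e1| ≤ Λ) (he' : |e2| ≤ Λ)
    (hη : |η| ≤ 101 / 100) (h1 : |v1| ≤ Λ) (h2 : |v2| ≤ Λ) (hk : 4 ≤ k) :
    (((e1 + η) * v1 + (e2 + η) * v2) * ((e1 + η) * v1 + (e2 + η) * v2 + 2) / k
      - 2 / (k * (k - 2))) ^ 2 ≤ 2304 * Λ ^ 6 / k ^ 2 * (v1 ^ 2 + v2 ^ 2) + 32 / k ^ 4 := by
  have hL : 1 ≤ Λ * Λ := one_le_mul_of_one_le_of_one_le hΛ hΛ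
  have a1 : |e1 + η| ≤ 3 * Λ := (abs_add_le _ _).trans (by linarith)
  have a2 : |e2 + η| ≤ 3 * Λ := (abs_add_le _ _).trans (by linarith)
  have a3 : ((e1 + η) * v1 + (e2 + η) * v2 + 2) ^ 2 ≤ (8 * (Λ * Λ)) ^ 2 := by
    have b1 := abs_le.1 (dv_abs_mul a1 h1)
    have b2 := abs_le.1 (dv_abs_mul a2 h2)
    exact dv_sq_le (abs_le.2 ⟨by linarith [b1.1, b2.1], by linarith [b1.2, b2.2]⟩)
  have a4 : ((e1 + η) * v1 + (e2 + η) * v2) ^ 2 ≤ 18 * Λ ^ 2 * (v1 ^ 2 + v2 ^ 2) := by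
    have b1 := mul_le_mul_of_nonneg_right (dv_sq_le a1) (sq_nonneg v1)
    have b2 := mul_le_mul_of_nonneg_right (dv_sq_le a2) (sq_nonneg v2)
    nlinarith [sq_nonneg ((e1 + η) * v1 - (e2 + η) * v2)]
  generalize (e1 + η) * v1 + (e2 + η) * v2 = G at a3 a4 ⊢
  have hk0 : 0 < k := by linarith
  have hk2 : 0 < k - 2 := by linarith
  have a5 : (G * (G + 2) / k) ^ 2 ≤ 1152 * Λ ^ 6 / k ^ 2 * (v1 ^ 2 + v2 ^ 2) := by
    calc _ = G ^ 2 * (G + 2) ^ 2 / k ^ 2 := by ring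
      _ ≤ 18 * Λ ^ 2 * (v1 ^ 2 + v2 ^ 2) * (8 * (Λ * Λ)) ^ 2 / k ^ 2 := by gcongr
      _ = _ := by ring
  have a6 : (2 / (k * (k - 2))) ^ 2 ≤ 16 / k ^ 4 := by
    calc _ ≤ (2 / (k * (k / 2))) ^ 2 := by gcongr; linarith
      _ = _ := by field_simp; norm_num
  have a7 : ∀ a b : ℝ, (a - b) ^ 2 ≤ 2 * a ^ 2 + 2 * b ^ 2 := fun a b => by
    nlinarith [sq_nonneg (a + b)]
  refine (a7 _ _).trans ?_
  have e1 : 2304 * Λ ^ 6 / k ^ 2 * (v1 ^ 2 + v2 ^ 2) =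
      2 * (1152 * Λ ^ 6 / k ^ 2 * (v1 ^ 2 + v2 ^ 2)) := by ring
  have e2 : 32 / k ^ 4 = 2 * (16 / k ^ 4) := by ring
  rw [e1, e2]
  linarith

theorem dv_sum_rest {x y : α} (hxy : x ≠ y) (u A B : α → ℝ) :
    ∑ z ∈ rest x y, (u z + (A z + B z)) ^ 2 ≤ ∑ z, u z ^ 2 - 9 / 10 * (u x ^ 2 + u y ^ 2)
      + 2 * ∑ z, u z * (A z + B z) + 11 / 10 * ∑ z, A z ^ 2 + 20 * ∑ z, B z ^ 2
      + 20 * (A x ^ 2 + A y ^ 2) := by
  have h1 : ∑ z ∈ rest x y, (u z + (A z + B z)) ^ 2 ≤ ∑ z ∈ rest x y,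
      (u z ^ 2 + 2 * (u z * (A z + B z)) + 11 / 10 * A z ^ 2 + 20 * B z ^ 2) :=
    sum_le_sum fun z _ => by nlinarith [sq_nonneg (A z - 10 * B z), sq_nonneg (B z)]
  simp only [sum_add_distrib, ← mul_sum] at h1
  have h2 : ∀ z, 0 ≤ 1 / 10 * u z ^ 2 + 2 * (u z * (A z + B z)) + 20 * A z ^ 2 + 20 * B z ^ 2 :=
    fun z => by nlinarith [sq_nonneg (u z + 10 * (A z + B z)), sq_nonneg (A z - B z)]
  rw [sum_eq_rest hxy fun z => u z ^ 2, sum_eq_rest hxy fun z => u z * (A z + B z),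
    sum_eq_rest hxy fun z => A z ^ 2, sum_eq_rest hxy fun z => B z ^ 2]
  linarith [h2 x, h2 y, sq_nonneg (A x), sq_nonneg (A y)]

/-- `ℓ¹` norm of the diagonal of `∑_z u_z a_z b_zᵀ` -/
theorem dv_diag_l1 (u : α → ℝ) (a b : α → α → ℝ) :
    ∑ x, |∑ z, u z * (a z x * b z x)| ≤
      ∑ z, |u z| * (Real.sqrt (∑ x, a z x ^ 2) * Real.sqrt (∑ x, b z x ^ 2)) := by
  refine (sum_le_sum fun x _ => abs_sum_le_sum_abs _ _).trans ?_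
  rw [sum_comm]
  refine sum_le_sum fun z _ => ?_
  simp only [abs_mul, ← mul_sum]
  refine mul_le_mul_of_nonneg_left ((le_abs_self _).trans ?_) (abs_nonneg _)
  simpa only [sq_abs] using pair_cs (fun x => |a z x|) (fun x => |b z x|)

/-- Frobenius norm of `∑_z u_z a_z a_zᵀ` -/
theorem dv_frob (u : α → ℝ) (a : α → α → ℝ) :
    Real.sqrt (∑ x, ∑ y, (∑ z, u z * (a z x * a z y)) ^ 2) ≤ ∑ z, |u z| * ∑ x, a z x ^ 2 := by
  set Θ : α → α → ℝ := fun x y => ∑ z, u z * (a z x * a z y) with hΘ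
  change Real.sqrt (∑ x, ∑ y, Θ x y ^ 2) ≤ _
  have h0 : 0 ≤ ∑ x, ∑ y, Θ x y ^ 2 := by positivity
  have h1 : ∑ x, ∑ y, Θ x y ^ 2 = ∑ z, u z * ∑ x, ∑ y, Θ x y * (a z x * a z y) := by
    simp only [mul_sum]
    rw [sum_comm (f := fun z x => ∑ y, u z * (Θ x y * (a z x * a z y)))]
    refine sum_congr rfl fun x _ => ?_
    rw [sum_comm]
    refine sum_congr rfl fun y _ => ?_
    rw [sq]
    conv_lhs => enter [2]; simp only [hΘ]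
    rw [mul_sum]
    exact sum_congr rfl fun z _ => by ring
  have h2 : ∑ x, ∑ y, Θ x y ^ 2 ≤
      Real.sqrt (∑ x, ∑ y, Θ x y ^ 2) * ∑ z, |u z| * ∑ x, a z x ^ 2 := by
    conv_lhs => rw [h1]
    rw [mul_sum]
    refine sum_le_sum fun z _ => (le_abs_self _).trans ?_
    rw [abs_mul, mul_left_comm]
    refine mul_le_mul_of_nonneg_left ((pair_cs2 _ _).trans_eq ?_) (abs_nonneg _)
    simp only [mul_pow, ← sum_mul_sum]
    rw [Real.sqrt_mul_self (by positivity)]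
  rcases (Real.sqrt_nonneg (∑ x, ∑ y, Θ x y ^ 2)).eq_or_lt with h | h
  · rw [← h]; positivity
  · refine le_of_mul_le_mul_left ?_ h
    rwa [Real.mul_self_sqrt h0]

/-! ### the pieces of the increment -/

noncomputable section
variable (X : Matrix α α ℝ) (s F : ℝ)

def dvU (z : α) : ℝ := rho X z - F
def dvR (z : α) : ℝ := rho X z + 1 / kk α
def dvT1 (x y : α) : ℝ := ∑ z, dvU X F z * (ch X s z x * ch X s z y)
def dvT2 (x y : α) : ℝ := ∑ z, dvU X F z * (pw X 2 z x * ch X s z y)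
def dvA (x y z : α) : ℝ := eta X s x y ^ 2 * dvU X F y * ch X s z x ^ 2
def dvB (x y z : α) : ℝ :=
  2 * pw X 2 z x * (e11 X s x y * ch X s z x + eta X s x y * ch X s z y)
    + (rho X x - 1) * (e11 X s x y ^ 2 * ch X s z x ^ 2
        + 2 * e11 X s x y * eta X s x y * (ch X s z x * ch X s z y))
    + (F - 1) * eta X s x y ^ 2 * ch X s z x ^ 2
    + pw X 2 x y * (2 * e11 X s x y * eta X s x y * ch X s z x ^ 2
        + (e11 X s x y * e22 X s x y + eta X s x y ^ 2) * (ch X s z x * ch X s z y))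
def dvr (x y z : α) : ℝ :=
  ((e11 X s x y + eta X s x y) * ch X s z x + (e22 X s x y + eta X s x y) * ch X s z y) *
    ((e11 X s x y + eta X s x y) * ch X s z x + (e22 X s x y + eta X s x y) * ch X s z y + 2) / kk α
    - 2 / (kk α * (kk α - 2))
def dvH (x y : α) : ℝ :=
  2 * (e11 X s x y * dvT2 X s F x x) + 2 * (eta X s x y * dvT2 X s F x y)
    + (rho X x - 1) * e11 X s x y ^ 2 * dvT1 X s F x x
    + eta X s x y ^ 2 * (dvT1 X s F x x * (rho X y - 1))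
    + 2 * (pw X 2 x y * e11 X s x y * eta X s x y * dvT1 X s F x x)
    + (2 * (rho X x - 1) * e11 X s x y * eta X s x y
        + pw X 2 x y * (e11 X s x y * e22 X s x y + eta X s x y ^ 2)) * dvT1 X s F x y
def dvU4 (x : α) : ℝ := ∑ z, ch X s z x ^ 4
def dvT (x y : α) : ℝ := ∑ z, ch X s z x ^ 2 * ch X s z y ^ 2
def dvW (x y : α) : ℝ := ∑ z, pw X 2 z x ^ 2 * ch X s z y ^ 2

end

variable {X : Matrix α α ℝ} {s F : ℝ} {x y : α}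

theorem dv_sum_H : ∑ z, dvU X F z * (dvA X s F x y z + dvB X s F x y z) = dvH X s F x y := by
  simp only [dvH, dvT1, dvT2, mul_sum, sum_mul, ← sum_add_distrib]
  refine sum_congr rfl fun z _ => ?_
  simp only [dvA, dvB, dvU]
  ring

theorem dv_ch_symm (hX : X.IsSymm) (x y : α) : ch X s y x = ch X s x y := by
  rw [ch, ch, hX.apply]
theorem dv_Del_symm (hX : X.IsSymm) (x y : α) : Del X s y x = Del X s x y := by
  rw [Del, Del, dv_ch_symm hX, mul_comm]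
theorem dv_eta_symm (hX : X.IsSymm) (x y : α) : eta X s y x = eta X s x y := by
  rw [eta, eta, dv_ch_symm hX, dv_Del_symm hX]
theorem dv_e11_symm (hX : X.IsSymm) (x y : α) : e11 X s y x = e22 X s x y := by
  rw [e11, e22, dv_Del_symm hX]
theorem dv_e22_symm (hX : X.IsSymm) (x y : α) : e22 X s y x = e11 X s x y := by
  rw [e11, e22, dv_Del_symm hX]

theorem Piv.dv_rho (hp : Piv X s x y) (F : ℝ) {z : α} (hz : z ∈ rest x y) :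
    rho (upd X s x y) z = rho X z + (dvA X s F x y z + dvA X s F y x z)
      + (dvB X s F x y z + dvB X s F y x z + dvr X s x y z) := by
  have hk : kk α - 2 ≠ 0 := (sub_pos.2 hp.card).ne'
  have hk0 : kk α ≠ 0 := by have := hp.card; positivity
  have hs : s * s = 1 := by rcases hp.sgn with h | h <;> simp [h]
  obtain ⟨h1, h2, h3, h4⟩ := hp.E_inv
  have hθ : (kk α)⁻¹ * (1 + 2 * (kk α - 2)⁻¹) = (kk α - 2)⁻¹ := by field_simp; ring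
  rw [hp.upd_rho hz]
  simp only [dvA, dvB, dvr, dvU, qR, dv_eta_symm hp.symm x y, dv_e11_symm hp.symm x y,
    dv_e22_symm hp.symm x y, pw_symm hp.symm 2 y x]
  simp only [ah, ch, div_eq_mul_inv, ← inv_pow, mul_inv] at h1 h2 h3 h4 ⊢
  generalize (kk α - 2)⁻¹ = κ at *
  generalize (kk α)⁻¹ = ι at *
  generalize e11 X s x y = e₁ at *
  generalize eta X s x y = η at *
  generalize e22 X s x y = e₂ at *
  obtain ⟨v₁, hv₁⟩ : ∃ v₁, v₁ = X z x + (X x x + X x y) * κ := ⟨_, rfl⟩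
  obtain ⟨v₂, hv₂⟩ : ∃ v₂, v₂ = X z y + (X x y + X y y) * κ := ⟨_, rfl⟩
  obtain ⟨P, hP⟩ : ∃ P, P = e₁ * v₁ + η * v₂ := ⟨_, rfl⟩
  obtain ⟨Q, hQ⟩ : ∃ Q, Q = η * v₁ + e₂ * v₂ := ⟨_, rfl⟩
  obtain ⟨g₁, hg₁⟩ : ∃ g, g = e₁ * (X z x + s * ι) + η * (X z y + s * ι) := ⟨_, rfl⟩
  obtain ⟨g₂, hg₂⟩ : ∃ g, g = η * (X z x + s * ι) + e₂ * (X z y + s * ι) := ⟨_, rfl⟩
  rw [← hv₁, ← hv₂, ← hP, ← hQ]
  have a1 : P = g₁ - κ := by
    rw [hP, hg₁, hv₁, hv₂]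
    linear_combination (-κ) * h1 - κ * h2 - s * (e₁ + η) * hθ
  have a2 : Q = g₂ - κ := by
    rw [hQ, hg₂, hv₁, hv₂]
    linear_combination (-κ) * h3 - κ * h4 - s * (e₂ + η) * hθ
  have b1 : v₁ = -(X x x + s * ι) * P + (s - (X x y + s * ι)) * Q := by
    rw [hP, hQ]; linear_combination (-v₁) * h1 - v₂ * h3
  have b2 : v₂ = (s - (X x y + s * ι)) * P - (X y y + s * ι) * Q := by
    rw [hP, hQ]; linear_combination (-v₁) * h2 - v₂ * h4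
  have c1 : s * (v₁ * Q + v₂ * P) = P ^ 2 + Q ^ 2 - s * X x y * (P ^ 2 + Q ^ 2)
      - s * (X x x + X y y) * (P * Q) - (P + Q) ^ 2 * ι := by
    linear_combination s * Q * b1 + s * P * b2 + (P ^ 2 + Q ^ 2 - (P + Q) ^ 2 * ι) * hs
  rw [c1, a1, a2]
  transitivity rho X z + 2 * (pw X 2 z x * g₁ + pw X 2 z y * g₂) + (rho X x - 1) * g₁ ^ 2
    + (rho X y - 1) * g₂ ^ 2 + 2 * pw X 2 x y * (g₁ * g₂) + (g₁ + g₂) * (g₁ + g₂ + 2) * ι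
    - 2 * (ι * κ)
  · linear_combination (-2 * (g₁ + g₂) + 2 * κ) * hθ
  · rw [hg₁, hg₂]; ring

end Crest.Agent.R062
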