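import Mathlib

/-!
Row 62 (non-bipartite Ramanujan graphs of every degree in polynomial time): definitions.

Half-edges ("stubs") are glued one pair at a time.  For each sign `s = ±1` we keep a symmetric
matrix `X` on the free stubs (a Schur complement).  Gluing `x, y` replaces `X` by `upd X s x y`.
The potential `pot` is a sum of normalised statistics of the two matrices.
-/

open Matrix Finset

namespace Crest.Agent.R062

/-- Numerical parameters of the construction. -/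
structure Par (K : Type) where
  N : K
  n : K
  M : K
  m : K
  T3 : K

section generic
variable {K : Type} [Field K] [LinearOrder K] [IsStrictOrderedRing K]

namespace Par
variable (p : Par K)

/-- End of the phase in which the trace is pushed down. -/
def k1 : K := p.N ^ 8000
def kb (k : K) : K := k + p.M
def F (k : K) : K := k / (k + p.M)
def gtau (k : K) : K := p.N ^ 3710 * min 1 (max 0 ((k - p.k1) / p.k1))
def stau2 (k : K) : K := p.N ^ 6580 * p.F k
def sT (k : K) : K := p.N ^ 6720 * p.F k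
def Gf (k : K) : K := p.N * k * p.F k
def G3sq (k : K) : K := p.N ^ 2 * p.n ^ 2 * p.F k ^ 6 + p.M ^ 2 * p.F k ^ 3
def G4 (k : K) : K := p.N ^ 20 * (p.n ^ 2 * p.F k ^ 4 / p.kb k + p.M * p.F k ^ 2)
def GV (k : K) : K := p.N ^ 3 * p.M * p.F k ^ 2
def GR (k : K) : K := p.N ^ 40 * p.F k
def s3 : K := p.n / p.N ^ 2
def GD : K := p.N ^ 500 * p.n

end Par

variable {α : Type} [Fintype α] [DecidableEq α]

/-- `tr X j` is the trace of `X ^ j`. -/
def tr (X : Matrix α α K) (j : ℕ) : K := trace (X ^ j)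
/-- Squared norm of row `z` (for symmetric `X`). -/
def rho (X : Matrix α α K) (z : α) : K := (X ^ 2) z z
def RR (X : Matrix α α K) : K := ∑ z, X z z ^ 2
def VV (X : Matrix α α K) (T : Finset α) (c : K) : K := ∑ z ∈ T, (rho X z - c) ^ 2
def DD (X Y : Matrix α α K) : K := trace (X ^ 2 * Y ^ 2)

def P1 (p : Par K) (k : K) (X : Matrix α α K) : K :=
  (max (tr X 1 - p.gtau k) 0 ^ 2 + max (-tr X 1) 0 ^ 2) / p.stau2 k
def P2 (p : Par K) (k : K) (X : Matrix α α K) : K := (tr X 2 - k * p.F k) ^ 2 / p.sT k ^ 2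
def P2l (p : Par K) (k : K) (X : Matrix α α K) : K := tr X 2 / p.Gf k
def P3 (p : Par K) (k : K) (X : Matrix α α K) : K := tr X 3 ^ 2 / p.G3sq k
def P4 (p : Par K) (k : K) (X : Matrix α α K) : K := tr X 4 / p.G4 k
def P5 (p : Par K) (k : K) (T : Finset α) (X : Matrix α α K) : K := VV X T (p.F k) / p.GV k
def P6 (p : Par K) (k : K) (X : Matrix α α K) : K := RR X / p.GR k
def P8 (p : Par K) (k : K) (X : Matrix α α K) : K :=
  if p.k1 ≤ k then (tr X 3 - p.T3) ^ 2 / p.s3 ^ 2 else 0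
def P9 (p : Par K) (k : K) (X Y : Matrix α α K) : K :=
  if p.k1 ≤ k then DD X Y / p.GD else 0

/-- Potential of one matrix; `T` is the set of free stubs and `k` its cardinality. -/
def pot1 (p : Par K) (k : K) (T : Finset α) (X : Matrix α α K) : K :=
  P1 p k X + P2 p k X + P2l p k X + P3 p k X + P4 p k X + P5 p k T X + P6 p k X + P8 p k X

/-- Total potential. -/
def pot (p : Par K) (k : K) (T : Finset α) (X Y : Matrix α α K) : K :=
  pot1 p k T X + pot1 p k T Y + P9 p k X Y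

end generic

/-! ### One gluing step, on the type `α` of currently free stubs -/

noncomputable section step
variable {α : Type} [Fintype α] [DecidableEq α]

/-- The number of free stubs as a real number. -/
def kk (α : Type) [Fintype α] : ℝ := Fintype.card α

def ah (X : Matrix α α ℝ) (s : ℝ) (x : α) : ℝ := X x x + s / kk α
def ch (X : Matrix α α ℝ) (s : ℝ) (x y : α) : ℝ := X x y + s / kk α
def Del (X : Matrix α α ℝ) (s : ℝ) (x y : α) : ℝ := (s - ch X s x y) ^ 2 - ah X s x * ah X s y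
def eta (X : Matrix α α ℝ) (s : ℝ) (x y : α) : ℝ := (s - ch X s x y) / Del X s x y
def e11 (X : Matrix α α ℝ) (s : ℝ) (x y : α) : ℝ := ah X s y / Del X s x y
def e22 (X : Matrix α α ℝ) (s : ℝ) (x y : α) : ℝ := ah X s x / Del X s x y

/-- `X + X ι E ιᵀ X` with `E = (s P - s J / k - X_blk)⁻¹`. -/
def Xt (X : Matrix α α ℝ) (s : ℝ) (x y : α) : Matrix α α ℝ :=
  Matrix.of fun z t => X z t + e11 X s x y * (X z x * X x t)
    + eta X s x y * (X z x * X y t + X z y * X x t) + e22 X s x y * (X z y * X y t)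

/-- The remaining stubs. -/
def rest (x y : α) : Finset α := (univ.erase x).erase y

/-- Orthogonal projection onto the vectors vanishing at `x, y` with zero sum. -/
def Pr (x y : α) : Matrix α α ℝ :=
  Matrix.of fun z t => if z ∈ rest x y ∧ t ∈ rest x y then
    (if z = t then 1 else 0) - 1 / (kk α - 2) else 0

/-- The matrix after gluing `x` and `y` (it vanishes on the rows and columns `x, y`). -/
def upd (X : Matrix α α ℝ) (s : ℝ) (x y : α) : Matrix α α ℝ := Pr x y * Xt X s x y * Pr x y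

/-- Entry of a power. -/
def pw (X : Matrix α α ℝ) (j : ℕ) (x y : α) : ℝ := (X ^ j) x y

/-- Trace of the `2 × 2` matrix `C_i = (B_{i+2} - s B_{i+1} P) E`. -/
def trC (X : Matrix α α ℝ) (s : ℝ) (i : ℕ) (x y : α) : ℝ :=
  eta X s x y * (2 * pw X (i + 2) x y - s * (pw X (i + 1) x x + pw X (i + 1) y y))
    + (pw X (i + 2) x x - s * pw X (i + 1) x y) * e11 X s x y
    + (pw X (i + 2) y y - s * pw X (i + 1) x y) * e22 X s x y

/-- Mixed determinant of `N_i` and `N_j`, `N_i = B_{i+2} - s B_{i+1} P`. -/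
def dN (X : Matrix α α ℝ) (s : ℝ) (i j : ℕ) (x y : α) : ℝ :=
  (pw X (i + 2) x x - s * pw X (i + 1) x y) * (pw X (j + 2) y y - s * pw X (j + 1) x y)
    - (pw X (i + 2) x y - s * pw X (i + 1) x x) * (pw X (j + 2) x y - s * pw X (j + 1) y y)

def el1 (X : Matrix α α ℝ) (s : ℝ) (x y : α) : ℝ := trC X s 0 x y
def el2 (X : Matrix α α ℝ) (s : ℝ) (x y : α) : ℝ :=
  trC X s 1 x y + dN X s 0 0 x y / Del X s x y
def el3 (X : Matrix α α ℝ) (s : ℝ) (x y : α) : ℝ :=
  trC X s 2 x y + (dN X s 0 1 x y + dN X s 1 0 x y) / Del X s x y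
def el4 (X : Matrix α α ℝ) (s : ℝ) (x y : α) : ℝ :=
  trC X s 3 x y + (dN X s 0 2 x y + dN X s 1 1 x y + dN X s 2 0 x y) / Del X s x y

/-- The size that is capped on admissible pairs. -/
def J1 (X : Matrix α α ℝ) (s : ℝ) (x y : α) : ℝ :=
  |pw X 2 x y| + |X x x| + |X y y| + rho X x * |ah X s y| + rho X y * |ah X s x|

/-- Average over ordered pairs with density `W` (relative to the uniform distribution). -/
def Ex (W Z : α → α → ℝ) : ℝ := (∑ x, ∑ y, W x y * Z x y) / kk α ^ 2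

end step

/-! ### Real-valued scales and the hypotheses of one step -/

noncomputable section ctx

namespace Par
variable (p : Par ℝ)
def Om (k : ℝ) : ℝ := Real.sqrt (Real.sqrt (p.G4 k))
def G3 (k : ℝ) : ℝ := Real.sqrt (p.G3sq k)
def stau (k : ℝ) : ℝ := Real.sqrt (p.stau2 k)
/-- Bound for `|tr X| + 1`. -/
def tauB (k : ℝ) : ℝ := p.gtau k + p.stau k + 1
/-- The cap on `J1`. -/
def L (k : ℝ) : ℝ := Real.sqrt (k * p.F k / p.N ^ 60)
def Ups (k : ℝ) : ℝ := p.N * Real.sqrt k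
def Row (k : ℝ) : ℝ := p.N ^ 4 * Real.sqrt k
end Par

/-- The numerical range of the parameters. -/
structure Num (p : Par ℝ) (k : ℝ) : Prop where
  hN : 10 ^ 14 ≤ p.N
  n_lo : p.N ^ 10000 ≤ p.n
  n_hi : p.n ≤ p.N ^ 10001
  M_lo : p.N ^ 6849 ≤ p.M
  M_hi : p.M ≤ p.N ^ 6851
  k_lo : p.N ^ 3409 ≤ k
  k_hi : k ≤ p.N * p.n
  m_lo : 1 / p.N ≤ p.m
  m_hi : p.m ^ 2 ≤ 1 / 2
  T3_lo : p.n / p.N ≤ p.T3

variable {α : Type} [Fintype α] [DecidableEq α]

/-- One matrix with all its invariants. -/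
structure Sys (p : Par ℝ) (X : Matrix α α ℝ) : Prop where
  symm : X.IsSymm
  rowsum : ∀ x, ∑ y, X x y = 0
  psd : ∀ h : α → ℝ, 0 ≤ h ⬝ᵥ (X *ᵥ h) + p.m * (h ⬝ᵥ h)
  pot_le : pot1 p (kk α) univ X ≤ 1

/-- A density on pairs that is close to uniform (up to the tilt `h`). -/
structure NU (p : Par ℝ) (W h : α → α → ℝ) : Prop where
  nonneg : ∀ x y, 0 ≤ W x y
  le : ∀ x y, W x y ≤ 21 / 20
  frob : ∀ Θ : α → α → ℝ, |∑ x, ∑ y, (W x y - 1 - h x y) * Θ x y|
    ≤ p.Ups (kk α) * Real.sqrt (∑ x, ∑ y, Θ x y ^ 2)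
  bil : ∀ u v : α → ℝ, |∑ x, ∑ y, (W x y - 1) * (u x * v y)|
    ≤ p.Ups (kk α) * Real.sqrt (∑ x, u x ^ 2) * Real.sqrt (∑ y, v y ^ 2)
  row : ∀ x, ∑ y, (W x y - 1) ^ 2 ≤ p.Row (kk α)
  col : ∀ y, ∑ x, (W x y - 1) ^ 2 ≤ p.Row (kk α)

/-- The probability density `ϱ` used to average over pairs; `sz` measures the distance of the
pivot factors from `1`. -/
structure Meas (p : Par ℝ) (ϱ h sz : α → α → ℝ) : Prop where
  total : ∑ x, ∑ y, ϱ x y = kk α ^ 2
  symm : ∀ x y, ϱ x y = ϱ y x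
  small : ∀ x y, ϱ x y ≠ 0 → x ≠ y ∧ 0 ≤ sz x y ∧ sz x y ≤ 1 / 2500
  good : ∀ ω : α → α → ℝ, (∀ x y, ϱ x y ≠ 0 → |ω x y - 1| ≤ 30 * sz x y) →
    NU p (fun x y => ϱ x y * ω x y) h

/-- The pairs charged by `ϱ` are admissible for `X`. -/
def Adm (p : Par ℝ) (ϱ sz : α → α → ℝ) (X : Matrix α α ℝ) (s : ℝ) : Prop :=
  ∀ x y, ϱ x y ≠ 0 →
    |ch X s x y| + |ah X s x * ah X s y| ≤ sz x y ∧ J1 X s x y ≤ p.L (kk α)

/-- Correlation of the tilt with `X ^ 2`. -/
def cor (h : α → α → ℝ) (X : Matrix α α ℝ) : ℝ := ∑ x, ∑ y, h x y * pw X 2 x y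

/-- The tilt pushes the trace down when this is needed, and is harmless otherwise. -/
structure Tilt (p : Par ℝ) (h : α → α → ℝ) (X : Matrix α α ℝ) (s : ℝ) : Prop where
  up : s * cor h X ≤ p.stau (kk α) * kk α / p.N
  down : tr X 1 ≤ 0 → -(s * cor h X) ≤ p.stau (kk α) * kk α / p.N
  gain : 0 < tr X 1 → p.gtau (kk α - 2) < p.gtau (kk α) →
    s * cor h X ≤ -(kk α ^ 2 * (p.gtau (kk α) - p.gtau (kk α - 2)))

/-- Everything that is known about one matrix during one step. -/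
structure Ctx (p : Par ℝ) (ϱ h sz : α → α → ℝ) (X : Matrix α α ℝ) (s : ℝ) : Prop where
  num : Num p (kk α)
  sys : Sys p X
  sgn : s = 1 ∨ s = -1
  meas : Meas p ϱ h sz
  adm : Adm p ϱ sz X s

end ctx

end Crest.Agent.R062
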