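import Crest.Agent.R062.Run

/-! The completion and the spectral bound. -/

open Matrix Finset

namespace Crest.Agent.R062
variable {d n : ℕ} {l : St} {s : ℚ}

theorem mem_freeL {k₀ : ℕ} {z : ℕ} : z ∈ freeL k₀ l ↔ z < k₀ ∧ z ∉ used l := by
  simp [freeL]

theorem sum_free (k₀ : ℕ) (l : St) (φ : ℕ → ℝ) :
    ∑ z : ↥(free k₀ l), φ ((z : Fin k₀) : ℕ) = ((freeL k₀ l).map φ).sum := by
  rw [← List.sum_toFinset _ (freeL_nodup k₀ l)]
  refine Finset.sum_bij (fun z _ => ((z : Fin k₀) : ℕ)) ?_ ?_ ?_ ?_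
  · intro z _
    exact List.mem_toFinset.2 (mem_freeL.2 ⟨(z : Fin k₀).2, mem_free.1 z.2⟩)
  · intro z _ z' _ e
    exact Subtype.ext (Fin.ext e)
  · intro z hz
    obtain ⟨h1, h2⟩ := mem_freeL.1 (List.mem_toFinset.1 hz)
    exact ⟨⟨⟨z, h1⟩, mem_free.2 h2⟩, mem_univ _, rfl⟩
  · intro z _; rfl

theorem Good.length_freeL (hg : Good d n l) : (freeL (n * d) l).length = kf (n * d) l := by
  have := (freeL_append_perm hg.nodup hg.used_lt).length_eq
  rw [List.length_append, List.length_range, length_used] at this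
  unfold kf; omega

section
variable (h : Big d n)
include h

theorem Big.last_small (hs : s = 1 ∨ s = -1) :
    tr (XF d n s (run d n (steps d n))) 4 ≤ (1 / (NN n : ℝ) ^ 2) ^ 4 := by
  obtain ⟨hg, hl, -⟩ := h.run_spec (steps d n) le_rfl
  have hn := hg.num h hl.le
  have e : ((par d n).cast).N = (NN n : ℝ) := by simp [Par.cast, par]
  have hk : kk ↥(free (n * d) (run d n (steps d n))) ≤ ((par d n).cast).N ^ 3410 := by
    rw [hg.kk_free, e]
    have := h.steps_hi
    have : kf (n * d) (run d n (steps d n)) ≤ NN n ^ 3410 := by unfold kf; omega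
    exact_mod_cast this
  have h1 := hn.Om_small hk
  rw [e] at h1
  exact ((h.last_spec hs).t4_le hn).trans (pow_le_pow_left₀ hn.Om_pos.le h1 4)

/-- The remaining free stubs belong to distinct vertices. -/
theorem Big.last_distinct :
    ((freeL (n * d) (run d n (steps d n))).map fun z => z / d).Nodup := by
  obtain ⟨hg, hl, -⟩ := h.run_spec (steps d n) le_rfl
  have hn := hg.num h hl.le
  refine List.Nodup.map_on ?_ (freeL_nodup _ _)
  intro z hz t ht hzt
  by_contra hne
  obtain ⟨z1, z2⟩ := mem_freeL.1 hz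
  obtain ⟨t1, t2⟩ := mem_freeL.1 ht
  have hsv := hg.same_vertex (s := 1) (Or.inl rfl) (z := ⟨z, z1⟩) (t := ⟨t, t1⟩) z2 t2
    (fun e => hne (congrArg Fin.val e)) hzt
  have sy := hg.XF_symm (s := 1) (Or.inl rfl)
  have h4 := h.last_small (s := 1) (Or.inl rfl)
  have hN : (10 : ℝ) ^ 14 ≤ (NN n : ℝ) := by exact_mod_cast h.N_ge
  have hN0 : (0 : ℝ) < (NN n : ℝ) := lt_of_lt_of_le (by norm_num) hN
  have b1 := abs_entry_le sy (by positivity) h4 ⟨⟨z, z1⟩, mem_free.2 z2⟩ ⟨⟨t, t1⟩, mem_free.2 t2⟩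
  have b2 := abs_entry_le sy (by positivity) h4 ⟨⟨z, z1⟩, mem_free.2 z2⟩ ⟨⟨z, z1⟩, mem_free.2 z2⟩
  simp only [XF, XR, submatrix_apply, map_apply, incl, Function.Embedding.coe_subtype] at b1 b2
  rw [hsv] at b1
  push_cast at b1
  have hm : 1 / (NN n : ℝ) ≤ (mm d n : ℝ) := by simpa [Par.cast, par] using hn.m_lo
  have c1 := (abs_le.1 b1).2
  have c2 := (abs_le.1 b2).1
  have c3 : 2 * (1 / (NN n : ℝ) ^ 2) < 1 / (NN n : ℝ) := by
    rw [mul_one_div, div_lt_div_iff₀ (by positivity) hN0]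
    nlinarith
  linarith

theorem Big.final_spec (he : Even n) :
    (used (final d n)).Perm (List.range (n * d)) ∧ Simple d (final d n) ∧
      ∀ s : ℚ, s = 1 ∨ s = -1 → ∀ x : Fin n → ℝ, ∑ i, x i = 0 →
        2 * (s : ℝ) * edgeSum d x (final d n) ≤ (theta d n : ℝ) * (x ⬝ᵥ x) := by
  obtain ⟨hg, hl, -⟩ := h.run_spec (steps d n) le_rfl
  have hn := hg.num h hl.le
  have hd : 0 < d := by have := h.hd; omega
  have hdist := h.last_distinct
  have hsmall := fun (s : ℚ) (hs : s = 1 ∨ s = -1) => h.last_small hs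
  unfold final
  set l := run d n (steps d n) with hldef
  have hlen := hg.length_freeL
  have hkN : NN n ^ 3409 ≤ kf (n * d) l := by
    have := h.steps_lo; unfold kf; omega
  have hN := h.N_ge
  have hk5 : 5 * NN n ≤ kf (n * d) l := by
    refine le_trans ?_ hkN
    calc 5 * NN n ≤ NN n * NN n := Nat.mul_le_mul_right _ (by omega)
      _ = NN n ^ 2 := by ring
      _ ≤ NN n ^ 3409 := Nat.pow_le_pow_right (by omega) (by norm_num)
  have hev : Even (freeL (n * d) l).length := by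
    rw [hlen]; unfold kf
    exact (Nat.even_sub hg.length_le).2 (by simp [he.mul_right])
  obtain ⟨hp, hok⟩ := complete_spec (okPair d l) (freeL (n * d) l) (d + d ^ 2) (freeL_nodup _ _) hev
    (fun a _ => card_not_ok hd hg.nodup a _) (by have := h.count_le; omega)
  set L := complete (okPair d l) (freeL (n * d) l)
  refine ⟨?_, ?_, ?_⟩
  · rw [used_append]
    exact (hp.append_right _).trans (freeL_append_perm hg.nodup hg.used_lt)
  · exact hg.simple.append hok ((hp.map _).nodup_iff.2 hdist)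
  · intro s hs x hx
    have hJ := hg.Jinv h hs (by omega) x hx
    rw [← free_map, Jinv_submatrix (supp_XR d n s l)] at hJ
    have m0 : (0 : ℝ) ≤ (mm d n : ℝ) := by exact_mod_cast h.mm_pos.le
    have m1 : (mm d n : ℝ) < 1 := by exact_mod_cast h.mm_lt_one
    have hN' : (1 : ℝ) ≤ (NN n : ℝ) := by exact_mod_cast le_trans (by norm_num) hN
    have hX : ∀ v : ↥(free (n * d) l) → ℝ, v ⬝ᵥ (XF d n s l *ᵥ v) ≤ v ⬝ᵥ v := by
      intro v
      have h1 := mulVec_sq_le (hg.XF_symm hs) (by positivity) (hsmall s hs) v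
      have h2 : (1 / (NN n : ℝ) ^ 2) ^ 2 ≤ 1 :=
        pow_le_one₀ (by positivity) (by rw [div_le_one (by positivity)]; exact one_le_pow₀ hN')
      have h3 : 0 ≤ ∑ z, v z ^ 2 := Finset.sum_nonneg fun z _ => sq_nonneg _
      have h4 : ∑ z, (XF d n s l *ᵥ v) z ^ 2 ≤ ∑ z, v z ^ 2 := by nlinarith
      have h5 : v ⬝ᵥ v = ∑ z, v z ^ 2 := by simp [dotProduct, sq]
      have h6 : 2 * (v ⬝ᵥ (XF d n s l *ᵥ v)) ≤ ∑ z, v z ^ 2 + ∑ z, (XF d n s l *ᵥ v) z ^ 2 := by
        rw [dotProduct, Finset.mul_sum, ← Finset.sum_add_distrib]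
        exact Finset.sum_le_sum fun z _ => by nlinarith [sq_nonneg (v z - (XF d n s l *ᵥ v) z)]
      linarith
    have hF := hJ.final m0 m1 hX
    have hs' : (s : ℝ) = 1 ∨ (s : ℝ) = -1 := by
      rcases hs with rfl | rfl <;> simp
    have hM := matching_le (fun z => lift x (z / d)) hs' L
    have e1 := sum_free (n * d) l (fun z => lift x (z / d))
    have e2 := sum_free (n * d) l (fun z => lift x (z / d) ^ 2)
    have e3 : ((univ : Finset ↥(free (n * d) l)).card : ℝ) = ((used L).length : ℝ) := by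
      rw [hp.length_eq, hlen, ← hg.card_free]; simp
    rw [(hp.map _).sum_eq, (hp.map _).sum_eq, ← e1, ← e2, ← e3] at hM
    rw [edgeSum_append]
    unfold cov at hF
    simp only [Function.comp, incl, Function.Embedding.coe_subtype, ← sq] at hF
    unfold edgeSum at hF ⊢
    linarith

end

end Crest.Agent.R062
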