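import Crest.Agent.R062.Comb

/-! The graph of a perfect matching of the stubs. -/

open Matrix Finset Crest.CombinatoricsR

namespace Crest.Agent.R062
variable {d n : ℕ} {l : St}

theorem getD_outBits (i j : Fin n) :
    (outBits d n l).getD (i.val * n + j.val) false = adjV d l i j := by
  have hn : 0 < n := i.pos
  have hlt : i.val * n + j.val < n * n := by
    have h1 : (i.val + 1) * n ≤ n * n := Nat.mul_le_mul_right _ i.2
    have h2 := j.2
    rw [Nat.add_mul] at h1
    omega
  have h1 : (i.val * n + j.val) / n = i.val := by
    rw [Nat.add_comm, Nat.add_mul_div_right _ _ hn, Nat.div_eq_of_lt j.2, Nat.zero_add]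
  have h2 : (i.val * n + j.val) % n = j.val := by
    rw [Nat.add_comm, Nat.add_mul_mod_self_right, Nat.mod_eq_of_lt j.2]
  rw [List.getD_eq_getElem _ _ (by simpa [outBits] using hlt)]
  simp only [outBits, List.getElem_map, List.getElem_range, h1, h2]

theorem adj_outBits (i j : Fin n) :
    (GraphCode.adjGraph n (outBits d n l)).Adj i j ↔ i ≠ j ∧ adjV d l i j = true := by
  change (i ≠ j ∧ _ ∧ _) ↔ _
  rw [getD_outBits, getD_outBits, adjV_comm d l j i, and_self]

theorem adjV_cons (e : ℕ × ℕ) (u v : ℕ) : adjV d (e :: l) u v = true ↔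
    (e.1 / d = u ∧ e.2 / d = v) ∨ (e.1 / d = v ∧ e.2 / d = u) ∨ adjV d l u v = true := by
  simp [adjV, or_assoc]

theorem Simple.irrefl (hs : Simple d l) (u : ℕ) : ¬ adjV d l u u = true := by
  induction l with
  | nil => simp [adjV]
  | cons e l ih =>
    have h1 := hs.1
    simp only [okPair, Bool.and_eq_true, Bool.not_eq_true', beq_eq_false_iff_ne] at h1
    rw [adjV_cons]
    rintro (h | h | h)
    · exact h1.1 (h.1.trans h.2.symm)
    · exact h1.1 (h.1.trans h.2.symm)
    · exact ih hs.2 h

theorem sum_adjV (hs : Simple d l) (hlt : ∀ z ∈ used l, z / d < n) (w : ℕ → ℕ → ℝ) :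
    ∑ i ∈ range n, ∑ j ∈ range n, (if adjV d l i j = true then w i j else 0) =
      (l.map fun e => w (e.1 / d) (e.2 / d) + w (e.2 / d) (e.1 / d)).sum := by
  induction l with
  | nil => simp [adjV]
  | cons e l ih =>
    have h1 := hs.1
    simp only [okPair, Bool.and_eq_true, Bool.not_eq_true', beq_eq_false_iff_ne] at h1
    rw [used_cons'] at hlt
    have ha : e.1 / d ∈ range n := mem_range.2 (hlt _ (by simp))
    have hb : e.2 / d ∈ range n := mem_range.2 (hlt _ (by simp))
    rw [List.map_cons, List.sum_cons, ← ih hs.2 fun z hz => hlt z (by simp [hz])]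
    obtain ⟨hne, hna⟩ := h1
    have hna' : adjV d l (e.2 / d) (e.1 / d) = false := by rw [adjV_comm]; exact hna
    have key : ∀ i j, (if adjV d (e :: l) i j = true then w i j else 0) =
        ((if e.1 / d = i then if e.2 / d = j then w i j else 0 else 0) +
          (if e.2 / d = i then if e.1 / d = j then w i j else 0 else 0)) +
          (if adjV d l i j = true then w i j else 0) := by
      intro i j
      simp only [adjV_cons]
      generalize e.1 / d = a at *
      generalize e.2 / d = b at *
      by_cases h1 : a = i ∧ b = j
      · obtain ⟨rfl, rfl⟩ := h1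
        simp [hna, hne.symm]
      · by_cases h2 : a = j ∧ b = i
        · obtain ⟨rfl, rfl⟩ := h2
          simp [hna', hne]
        · have e1 : (if a = i then if b = j then w i j else 0 else 0) = 0 := by
            split_ifs with p q
            · exact absurd ⟨p, q⟩ h1
            · rfl
            · rfl
          have e2 : (if b = i then if a = j then w i j else 0 else 0) = 0 := by
            split_ifs with p q
            · exact absurd ⟨q, p⟩ h2
            · rfl
            · rfl
          simp [h1, h2, e1, e2]
    have hs1 : ∀ a b, a ∈ range n → b ∈ range n →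
        ∑ i ∈ range n, ∑ j ∈ range n, (if a = i then if b = j then w i j else 0 else 0)
          = w a b := by
      intro a b ha hb
      rw [sum_eq_single a (fun i _ hi => by simp [hi.symm]) (fun h => absurd ha h)]
      simp [mem_range.1 hb]
    simp only [key, sum_add_distrib, hs1 _ _ ha hb, hs1 _ _ hb ha]

theorem sum_adjV_fin (hd : 0 < d) (hp : (used l).Perm (List.range (n * d)))
    (hs : Simple d l) (w : ℕ → ℕ → ℝ) :
    ∑ i : Fin n, ∑ j : Fin n, (if i ≠ j ∧ adjV d l i j = true then w i j else 0) =
      (l.map fun e => w (e.1 / d) (e.2 / d) + w (e.2 / d) (e.1 / d)).sum := by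
  rw [← sum_adjV (n := n) hs fun z hz =>
    (Nat.div_lt_iff_lt_mul hd).2 (List.mem_range.1 (hp.subset hz)), sum_range]
  refine sum_congr rfl fun i _ => ?_
  rw [sum_range]
  refine sum_congr rfl fun j _ => ?_
  by_cases h : i = j
  · subst h
    simp [hs.irrefl]
  · simp [h]

open Classical in
theorem regular_outBits (hd : 0 < d) (hp : (used l).Perm (List.range (n * d)))
    (hs : Simple d l) : (GraphCode.adjGraph n (outBits d n l)).IsRegularOfDegree d := by
  intro v
  have h := sum_adjV_fin hd hp hs fun i _ => if i = v then 1 else 0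
  have h1 : ∀ l : St, (l.map fun e => (if e.1 / d = v then (1 : ℝ) else 0) +
      (if e.2 / d = v then (1 : ℝ) else 0)).sum =
      ((used l).countP fun z => decide (z / d = v) : ℕ) := by
    intro l
    induction l with
    | nil => simp [used]
    | cons e l ih =>
      rw [List.map_cons, List.sum_cons, ih, used_cons', List.countP_cons, List.countP_cons]
      push_cast
      simp only [decide_eq_true_eq]
      ring
  have h2 : ((List.range (n * d)).countP fun z => decide (z / d = v)) = d := by
    rw [List.countP_eq_length_filter,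
      ← List.toFinset_card_of_nodup (List.nodup_range.filter _)]
    have : ((List.range (n * d)).filter fun z => decide (z / d = v)).toFinset =
        Ico (v * d) (v * d + d) := by
      ext z
      rw [List.mem_toFinset, List.mem_filter, List.mem_range, decide_eq_true_eq,
        ← div_eq_iff_mem_Ico hd]
      refine ⟨fun h => h.2, fun h => ⟨?_, h⟩⟩
      rw [← Nat.div_lt_iff_lt_mul hd, h]
      exact v.2
    rw [this]
    simp
  rw [h1, hp.countP_eq, h2, sum_eq_single v (fun i _ hi => by simp [Fin.val_inj, hi])
    (fun h => absurd (mem_univ _) h)] at h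
  simp only [if_true, sum_boole] at h
  rw [← SimpleGraph.card_neighborFinset_eq_degree, SimpleGraph.neighborFinset_eq_filter]
  have h3 : (univ.filter fun j : Fin n => v ≠ j ∧ adjV d l v j = true).card = d := by
    exact_mod_cast h
  refine Eq.trans ?_ h3
  congr 1
  ext j
  simp [adj_outBits]

open Classical in
theorem form_outBits (hd : 0 < d) (hp : (used l).Perm (List.range (n * d)))
    (hs : Simple d l) (x : Fin n → ℝ) :
    x ⬝ᵥ ((GraphCode.adjGraph n (outBits d n l)).adjMatrix ℝ *ᵥ x) = 2 * edgeSum d x l := by
  have h := sum_adjV_fin hd hp hs fun i j => lift x i * lift x j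
  have hx : ∀ i : Fin n, lift x i = x i := fun i => by simp [lift]
  have h1 : (l.map fun e => lift x (e.1 / d) * lift x (e.2 / d) +
      lift x (e.2 / d) * lift x (e.1 / d)).sum = 2 * edgeSum d x l := by
    rw [edgeSum, ← List.sum_map_mul_left]
    congr 1
    refine List.map_congr_left fun e _ => ?_
    ring
  rw [← h1, ← h]
  simp only [dotProduct, mulVec, SimpleGraph.adjMatrix_apply, adj_outBits, hx, mul_sum]
  refine sum_congr rfl fun i _ => sum_congr rfl fun j _ => ?_
  split_ifs <;> simp

end Crest.Agent.R062
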