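import Crest.Agent.R062.Defs

/-! Newton identities for the traces of the glued matrix. -/

open Matrix Finset

namespace Crest.Agent.R062
variable {α : Type} [Fintype α] [DecidableEq α]

section words
variable (X : Matrix α α ℝ) (V : Matrix α (Fin 2) ℝ) (W : Matrix (Fin 2) α ℝ)

theorem identB_cyc (M : Matrix α α ℝ) : trace (M * (V * W)) = trace (W * M * V) := by
  rw [← Matrix.mul_assoc, trace_mul_comm, ← Matrix.mul_assoc]

theorem identB_comm (A B : Matrix α α ℝ) : trace (A * B - B * A) = 0 := by
  rw [trace_sub, trace_mul_comm, sub_self]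

theorem identB_w1 : trace ((X + V * W) ^ 1) = trace (X ^ 1) + trace (W * X ^ 0 * V) := by
  rw [pow_one, pow_one, trace_add, ← identB_cyc, pow_zero, Matrix.one_mul]

theorem identB_w2 : trace ((X + V * W) ^ 2) = trace (X ^ 2) + (2 * trace (W * X ^ 1 * V)
    + trace (W * X ^ 0 * V * (W * X ^ 0 * V))) := by
  have h1 := identB_cyc V W (X ^ 1)
  have h2 : trace (V * W * (V * W)) = trace (W * X ^ 0 * V * (W * X ^ 0 * V)) := by
    rw [identB_cyc]; simp only [pow_zero, Matrix.mul_one, Matrix.mul_assoc]
  generalize V * W = T at *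
  have e : (X + T) ^ 2 = X ^ 2 + X ^ 1 * T + X ^ 1 * T + T * T + (T * X - X * T) := by
    noncomm_ring
  rw [e]
  simp only [trace_add, identB_comm, h1, h2]
  ring

theorem identB_w3 : trace ((X + V * W) ^ 3) = trace (X ^ 3) + (3 * trace (W * X ^ 2 * V)
    + 3 * trace (W * X ^ 1 * V * (W * X ^ 0 * V))
    + trace (W * X ^ 0 * V * (W * X ^ 0 * V) * (W * X ^ 0 * V))) := by
  have h1 := identB_cyc V W (X ^ 2)
  have h2 : trace (X * (V * W) * (V * W)) = trace (W * X ^ 1 * V * (W * X ^ 0 * V)) := by
    rw [identB_cyc]; simp only [pow_zero, pow_one, Matrix.mul_one, Matrix.mul_assoc]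
  have h3 : trace (V * W * (V * W) * (V * W)) =
      trace (W * X ^ 0 * V * (W * X ^ 0 * V) * (W * X ^ 0 * V)) := by
    rw [identB_cyc]; simp only [pow_zero, Matrix.mul_one, Matrix.mul_assoc]
  generalize V * W = T at *
  have e : (X + T) ^ 3 = X ^ 3 + X ^ 2 * T + X ^ 2 * T + X ^ 2 * T + X * T * T + X * T * T
      + X * T * T + T * T * T + (X * T * X - X * (X * T)) + (T * (X * X) - X * X * T)
      + (T * (X * T) - X * T * T) + (T * T * X - X * (T * T)) := by
    noncomm_ring
  rw [e]
  simp only [trace_add, identB_comm, h1, h2, h3]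
  ring

theorem identB_w4 : trace ((X + V * W) ^ 4) = trace (X ^ 4) + (4 * trace (W * X ^ 3 * V)
    + 4 * trace (W * X ^ 2 * V * (W * X ^ 0 * V)) + 2 * trace (W * X ^ 1 * V * (W * X ^ 1 * V))
    + 4 * trace (W * X ^ 1 * V * (W * X ^ 0 * V) * (W * X ^ 0 * V))
    + trace (W * X ^ 0 * V * (W * X ^ 0 * V) * (W * X ^ 0 * V) * (W * X ^ 0 * V))) := by
  have h1 := identB_cyc V W (X ^ 3)
  have h2 : trace (X * X * (V * W) * (V * W)) = trace (W * X ^ 2 * V * (W * X ^ 0 * V)) := by
    rw [identB_cyc]; simp only [pow_zero, pow_two, Matrix.mul_one, Matrix.mul_assoc]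
  have h3 : trace (X * (V * W) * X * (V * W)) = trace (W * X ^ 1 * V * (W * X ^ 1 * V)) := by
    rw [identB_cyc]; simp only [pow_one, Matrix.mul_assoc]
  have h4 : trace (X * (V * W) * (V * W) * (V * W)) =
      trace (W * X ^ 1 * V * (W * X ^ 0 * V) * (W * X ^ 0 * V)) := by
    rw [identB_cyc]; simp only [pow_zero, pow_one, Matrix.mul_one, Matrix.mul_assoc]
  have h5 : trace (V * W * (V * W) * (V * W) * (V * W)) =
      trace (W * X ^ 0 * V * (W * X ^ 0 * V) * (W * X ^ 0 * V) * (W * X ^ 0 * V)) := by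
    rw [identB_cyc]; simp only [pow_zero, Matrix.mul_one, Matrix.mul_assoc]
  generalize V * W = T at *
  have e : (X + T) ^ 4 = X ^ 4 + X ^ 3 * T + X ^ 3 * T + X ^ 3 * T + X ^ 3 * T
      + X * X * T * T + X * X * T * T + X * X * T * T + X * X * T * T
      + X * T * X * T + X * T * X * T
      + X * T * T * T + X * T * T * T + X * T * T * T + X * T * T * T + T * T * T * T
      + (X * X * T * X - X * (X * X * T)) + (X * T * (X * X) - X * X * (X * T))
      + (T * (X * X * X) - X * X * X * T) + (X * T * T * X - X * (X * T * T))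
      + (T * T * (X * X) - X * X * (T * T)) + (T * (X * X * T) - X * X * T * T)
      + (T * (X * T * X) - X * T * X * T) + (T * (X * T * T) - X * T * T * T)
      + (T * T * (X * T) - X * T * (T * T)) + (T * T * T * X - X * (T * T * T)) := by
    noncomm_ring
  rw [e]
  simp only [trace_add, identB_comm, h1, h2, h3, h4, h5]
  ring

end words

theorem identB_Pr_mul (x y : α) (M : Matrix α α ℝ) (z t : α) : (Pr x y * M) z t =
    if z ∈ rest x y then M z t - (∑ u ∈ rest x y, M u t) / (kk α - 2) else 0 := by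
  rw [Matrix.mul_apply]
  by_cases hz : z ∈ rest x y
  · have : ∀ u, Pr x y z u * M u t = if u ∈ rest x y then
        (if z = u then M u t else 0) - M u t / (kk α - 2) else 0 := fun u => by
      simp only [Pr, of_apply, hz, true_and]
      split_ifs <;> ring
    simp only [this]
    rw [← Finset.sum_filter, Finset.filter_mem_eq_inter, Finset.univ_inter, if_pos hz,
      Finset.sum_sub_distrib, Finset.sum_ite_eq, if_pos hz, Finset.sum_div]
  · simp [Pr, hz]

theorem identB_sum_rest {x y : α} (hne : x ≠ y) (f : α → ℝ) :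
    ∑ u ∈ rest x y, f u = ∑ u, f u - f x - f y := by
  have h1 := Finset.add_sum_erase univ f (mem_univ x)
  have h2 := Finset.add_sum_erase (univ.erase x) f (mem_erase.2 ⟨hne.symm, mem_univ y⟩)
  unfold rest
  linarith

theorem identB_Pr_Pr {x y : α} (hne : x ≠ y) (hk : 2 < kk α) : Pr x y * Pr x y = Pr x y := by
  ext z t
  have h : ∑ u ∈ rest x y, Pr x y u t = 0 := by
    by_cases ht : t ∈ rest x y
    · have h1 : ∑ u ∈ rest x y, (1 : ℝ) = kk α - 2 := by
        rw [identB_sum_rest hne]; simp [kk]; ring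
      have h2 : kk α - 2 ≠ 0 := by linarith [sub_pos.2 hk] |> ne_of_gt
      rw [Finset.sum_congr rfl (g := fun u => (if u = t then 1 else 0) - 1 / (kk α - 2))
        fun u hu => by simp [Pr, hu, ht], Finset.sum_sub_distrib, Finset.sum_ite_eq', if_pos ht,
        ← Finset.sum_div, h1, div_self h2, sub_self]
    · simp [Pr, ht]
  rw [identB_Pr_mul, h]
  split_ifs with hz
  · simp
  · simp [Pr, hz]

theorem identB_tr_upd (X : Matrix α α ℝ) (s : ℝ) {x y : α} (hne : x ≠ y) (hk : 2 < kk α)
    (j : ℕ) : tr (upd X s x y) (j + 1) = trace ((Pr x y * Xt X s x y) ^ (j + 1)) := by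
  set A := Pr x y * Xt X s x y with hA
  have h1 : Pr x y * A = A := by rw [hA, ← Matrix.mul_assoc, identB_Pr_Pr hne hk]
  have h2 : ∀ j : ℕ, (A * Pr x y) ^ (j + 1) = A ^ (j + 1) * Pr x y := fun j => by
    induction j with
    | zero => simp
    | succ j ih =>
      rw [pow_succ, ih, pow_succ A (j + 1), Matrix.mul_assoc, ← Matrix.mul_assoc (Pr x y), h1,
        ← Matrix.mul_assoc]
  unfold tr upd
  rw [← hA, h2, trace_mul_comm, pow_succ', ← Matrix.mul_assoc, h1]

/-- left factor of the rank two update -/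
noncomputable def identBV (X : Matrix α α ℝ) (s : ℝ) (x y : α) : Matrix α (Fin 2) ℝ :=
  Matrix.of fun z => ![X z x - (if z = y then s else 0) + s / kk α,
    X z y - (if z = x then s else 0) + s / kk α]

/-- right factor of the rank two update -/
noncomputable def identBW (X : Matrix α α ℝ) (s : ℝ) (x y : α) : Matrix (Fin 2) α ℝ :=
  Matrix.of ![fun t => e11 X s x y * X x t + eta X s x y * X y t,
    fun t => eta X s x y * X x t + e22 X s x y * X y t]

section main
variable {X : Matrix α α ℝ} {s : ℝ} {x y : α} (hs : X.IsSymm) (h0 : ∀ z, ∑ t, X z t = 0)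
  (hne : x ≠ y) (hD : Del X s x y ≠ 0) (hk : 2 < kk α)

include hs h0 hne hD hk in
theorem identB_rank : Pr x y * Xt X s x y = X + identBV X s x y * identBW X s x y := by
  ext z t
  have hc : ∀ u, ∑ z, X z u = 0 := fun u => by
    rw [← h0 u]; exact Finset.sum_congr rfl fun z _ => hs.apply u z
  have hsum : ∑ u, Xt X s x y u t = 0 := by
    simp only [Xt, of_apply, Finset.sum_add_distrib, mul_add, ← Finset.mul_sum, ← Finset.sum_mul,
      hc]
    simp
  have hyx : X y x = X x y := hs.apply x y
  have hk0 : kk α ≠ 0 := by linarith [sub_pos.2 hk] |> ne_of_gt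
  have hk2 : kk α - 2 ≠ 0 := by linarith [sub_pos.2 hk] |> ne_of_gt
  have i1 : ah X s x * e11 X s x y - (s - ch X s x y) * eta X s x y = -1 := by
    unfold e11 eta; field_simp; unfold Del; ring
  have i2 : ah X s x * eta X s x y - (s - ch X s x y) * e22 X s x y = 0 := by
    unfold e22 eta; field_simp; ring
  have i3 : ah X s y * e22 X s x y - (s - ch X s x y) * eta X s x y = -1 := by
    unfold e22 eta; field_simp; unfold Del; ring
  have i4 : ah X s y * eta X s x y - (s - ch X s x y) * e11 X s x y = 0 := by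
    unfold e11 eta; field_simp; ring
  unfold ah ch at i1 i2 i3 i4
  have hq : s / kk α * (kk α - 2) = s - 2 * (s / kk α) := by field_simp
  rw [identB_Pr_mul, identB_sum_rest hne, hsum]
  simp only [Matrix.add_apply, Matrix.mul_apply, Fin.sum_univ_two, identBV, identBW, Xt, of_apply,
    Matrix.cons_val_zero, Matrix.cons_val_one, hyx]
  by_cases hzx : z = x
  · subst hzx
    rw [if_neg (by simp [rest]), if_neg hne, if_pos rfl]
    linear_combination (-X z t) * i1 - X y t * i2
  by_cases hzy : z = y
  · subst hzy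
    rw [if_neg (by simp [rest]), if_pos rfl, if_neg hzx, hyx]
    linear_combination (-X z t) * i3 - X x t * i4
  rw [if_pos (by simp [rest, hzx, hzy]), if_neg hzx, if_neg hzy]
  rw [sub_eq_iff_eq_add, ← sub_eq_iff_eq_add', eq_comm, div_eq_iff hk2]
  linear_combination (-X x t) * i1 - X y t * i2 - X y t * i3 - X x t * i4
    + ((e11 X s x y * X x t + eta X s x y * X y t)
      + (eta X s x y * X x t + e22 X s x y * X y t)) * hq

include hs h0 in
theorem identB_block (i : ℕ) : identBW X s x y * X ^ i * identBV X s x y =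
    !![e11 X s x y, eta X s x y; eta X s x y, e22 X s x y] *
    !![pw X (i + 2) x x - s * pw X (i + 1) x y, pw X (i + 2) x y - s * pw X (i + 1) x x;
      pw X (i + 2) x y - s * pw X (i + 1) y y, pw X (i + 2) y y - s * pw X (i + 1) x y] := by
  have h1 : identBW X s x y * X ^ i = !![e11 X s x y, eta X s x y; eta X s x y, e22 X s x y] *
      (X ^ (i + 1)).submatrix ![x, y] id := by
    ext a t
    fin_cases a <;>
      simp [identBW, Matrix.mul_apply, Fin.sum_univ_two, pow_succ', add_mul, Finset.mul_sum,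
        Finset.sum_add_distrib, mul_assoc]
  have h2 : ∀ u, ∑ t, (X ^ (i + 1)) u t = 0 := fun u => by
    simp only [pow_succ, Matrix.mul_apply]
    rw [Finset.sum_comm]
    simp only [← Finset.mul_sum, h0, mul_zero, Finset.sum_const_zero]
  have h3 : ∀ u v w, ∑ t, (X ^ (i + 1)) u t * (X t v - (if t = w then s else 0) + s / kk α) =
      (X ^ (i + 2)) u v - s * (X ^ (i + 1)) u w := fun u v w => by
    simp only [mul_add, mul_sub, Finset.sum_add_distrib, Finset.sum_sub_distrib,
      ← Finset.sum_mul, h2, mul_ite, mul_zero, Finset.sum_ite_eq', mem_univ, if_true]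
    rw [pow_succ X (i + 1), Matrix.mul_apply]
    ring
  have h4 : ∀ j, (X ^ j) y x = (X ^ j) x y := fun j => (hs.pow j).apply x y
  rw [h1, Matrix.mul_assoc]
  congr 1
  ext a b
  fin_cases a <;> fin_cases b <;> simp [identBV, Matrix.mul_apply, h3, h4, pw, -mul_ite]

include hD in
theorem identB_det (d : ℝ) :
    d / Del X s x y = d * (eta X s x y ^ 2 - e11 X s x y * e22 X s x y) := by
  unfold eta e11 e22; field_simp; unfold Del; ring

include hs h0 hne hD hk

theorem identB_tr_one : tr (upd X s x y) 1 = tr X 1 + el1 X s x y := by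
  rw [identB_tr_upd X s hne hk 0, identB_rank hs h0 hne hD hk]
  refine (identB_w1 _ _ _).trans ?_
  simp only [identB_block hs h0, Matrix.mul_fin_two, trace_fin_two_of, tr, el1, trC]
  ring

theorem identB_tr_two : tr (upd X s x y) 2 = tr X 2 + (2 * el2 X s x y + el1 X s x y ^ 2) := by
  rw [identB_tr_upd X s hne hk 1, identB_rank hs h0 hne hD hk]
  refine (identB_w2 _ _ _).trans ?_
  simp only [identB_block hs h0, Matrix.mul_fin_two, trace_fin_two_of, tr, el1, el2, trC, dN,
    identB_det hD]
  ring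

theorem identB_tr_three : tr (upd X s x y) 3 = tr X 3
    + (3 * el3 X s x y + 3 * el1 X s x y * el2 X s x y + el1 X s x y ^ 3) := by
  rw [identB_tr_upd X s hne hk 2, identB_rank hs h0 hne hD hk]
  refine (identB_w3 _ _ _).trans ?_
  simp only [identB_block hs h0, Matrix.mul_fin_two, trace_fin_two_of, tr, el1, el2, el3, trC, dN,
    identB_det hD]
  ring

theorem identB_tr_four : tr (upd X s x y) 4 = tr X 4
    + (4 * el4 X s x y + 4 * el1 X s x y * el3 X s x y + 2 * el2 X s x y ^ 2
      + 4 * el1 X s x y ^ 2 * el2 X s x y + el1 X s x y ^ 4) := by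
  rw [identB_tr_upd X s hne hk 3, identB_rank hs h0 hne hD hk]
  refine (identB_w4 _ _ _).trans ?_
  simp only [identB_block hs h0, Matrix.mul_fin_two, trace_fin_two_of, tr, el1, el2, el3, el4,
    trC, dN, identB_det hD]
  ring

end main

end Crest.Agent.R062
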