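import Crest.Agent.R062.IdentA
import Crest.Agent.R062.IdentB

/-! Exact identities for one gluing step. -/

open Matrix Finset

namespace Crest.Agent.R062
variable {α : Type} [Fintype α] [DecidableEq α]

namespace Piv
variable {X : Matrix α α ℝ} {s : ℝ} {x y : α} (hp : Piv X s x y)
include hp

theorem tr_one : tr (upd X s x y) 1 = tr X 1 + el1 X s x y :=
  identB_tr_one hp.symm hp.rowsum hp.ne hp.del hp.card
theorem tr_two : tr (upd X s x y) 2 = tr X 2 + (2 * el2 X s x y + el1 X s x y ^ 2) :=
  identB_tr_two hp.symm hp.rowsum hp.ne hp.del hp.card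
theorem tr_three : tr (upd X s x y) 3 = tr X 3
    + (3 * el3 X s x y + 3 * el1 X s x y * el2 X s x y + el1 X s x y ^ 3) :=
  identB_tr_three hp.symm hp.rowsum hp.ne hp.del hp.card
theorem tr_four : tr (upd X s x y) 4 = tr X 4
    + (4 * el4 X s x y + 4 * el1 X s x y * el3 X s x y + 2 * el2 X s x y ^ 2
      + 4 * el1 X s x y ^ 2 * el2 X s x y + el1 X s x y ^ 4) :=
  identB_tr_four hp.symm hp.rowsum hp.ne hp.del hp.card

end Piv

end Crest.Agent.R062
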