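import Crest.Agent.R062.Inv

/-! Transport along an embedding of index types, and from `ℚ` to `ℝ`. -/

open Matrix Finset

namespace Crest.Agent.R062
variable {α ι : Type} [Fintype α] [DecidableEq α] [Fintype ι] [DecidableEq ι]

/-- `X` vanishes outside the range of `e`. -/
def Supp (e : α ↪ ι) (X : Matrix ι ι ℝ) : Prop :=
  ∀ z t, X z t ≠ 0 → z ∈ Set.range e ∧ t ∈ Set.range e

section sub
variable {e : α ↪ ι} {X Y : Matrix ι ι ℝ}

omit [DecidableEq α] [DecidableEq ι] in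
theorem sum_eq_sum_emb (e : α ↪ ι) {f : ι → ℝ} (hf : ∀ z, f z ≠ 0 → z ∈ Set.range e) :
    ∑ z, f z = ∑ a, f (e a) := by
  rw [← Finset.sum_map univ e f]
  symm
  refine Finset.sum_subset (Finset.subset_univ _) fun z _ hz => ?_
  by_contra h0
  obtain ⟨a, rfl⟩ := hf z h0
  exact hz (Finset.mem_map_of_mem e (mem_univ a))

omit [Fintype α] [DecidableEq α] [DecidableEq ι] in
theorem Supp.mul (hX : Supp e X) (hY : Supp e Y) : Supp e (X * Y) := by
  intro z t h
  rw [Matrix.mul_apply] at h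
  obtain ⟨u, -, hu⟩ := Finset.exists_ne_zero_of_sum_ne_zero h
  exact ⟨(hX z u (left_ne_zero_of_mul hu)).1, (hY u t (right_ne_zero_of_mul hu)).2⟩

omit [DecidableEq α] [DecidableEq ι] in
theorem Supp.submatrix_mul (hX : Supp e X) (Y : Matrix ι ι ℝ) :
    (X * Y).submatrix e e = X.submatrix e e * Y.submatrix e e := by
  ext a b
  simp only [submatrix_apply, Matrix.mul_apply]
  exact sum_eq_sum_emb e fun u hu => (hX _ _ (left_ne_zero_of_mul hu)).2

omit [Fintype α] [DecidableEq α] in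
theorem Supp.pow (hX : Supp e X) (j : ℕ) : Supp e (X ^ (j + 1)) := by
  induction j with
  | zero => simpa using hX
  | succ j ih => rw [pow_succ]; exact ih.mul hX

theorem Supp.submatrix_pow (hX : Supp e X) (j : ℕ) :
    (X ^ j).submatrix e e = X.submatrix e e ^ j := by
  induction j with
  | zero => simp
  | succ j ih => rw [pow_succ', pow_succ', hX.submatrix_mul, ih]

omit [DecidableEq α] [DecidableEq ι] in
theorem Supp.trace_eq (hX : Supp e X) : trace X = trace (X.submatrix e e) :=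
  sum_eq_sum_emb e (f := fun z => X z z) fun z hz => (hX z z hz).1

theorem Supp.tr_eq (hX : Supp e X) (j : ℕ) : tr X (j + 1) = tr (X.submatrix e e) (j + 1) := by
  rw [tr, tr, (hX.pow j).trace_eq, hX.submatrix_pow]

theorem Supp.pot1_eq (hX : Supp e X) (p : Par ℝ) (k : ℝ) (T : Finset α) :
    pot1 p k (T.map e) X = pot1 p k T (X.submatrix e e) := by
  have h1 : tr X 1 = tr (X.submatrix e e) 1 := hX.tr_eq 0
  have h2 : tr X 2 = tr (X.submatrix e e) 2 := hX.tr_eq 1
  have h3 : tr X 3 = tr (X.submatrix e e) 3 := hX.tr_eq 2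
  have h4 : tr X 4 = tr (X.submatrix e e) 4 := hX.tr_eq 3
  have h5 : ∀ c, VV X (T.map e) c = VV (X.submatrix e e) T c := by
    intro c
    simp only [VV, rho, Finset.sum_map, ← hX.submatrix_pow, submatrix_apply]
  have h6 : RR X = RR (X.submatrix e e) :=
    sum_eq_sum_emb e (f := fun z => X z z ^ 2) fun z hz =>
      (hX z z fun h0 => hz (by simp [h0])).1
  simp only [pot1, P1, P2, P2l, P3, P4, P5, P6, P8, h1, h2, h3, h4, h5, h6]

theorem pot_submatrix (hX : Supp e X) (hY : Supp e Y) (p : Par ℝ) (k : ℝ) (T : Finset α) :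
    pot p k (T.map e) X Y = pot p k T (X.submatrix e e) (Y.submatrix e e) := by
  have h : DD X Y = DD (X.submatrix e e) (Y.submatrix e e) := by
    have h2 : Supp e (X ^ 2) := hX.pow 1
    have h2' : Supp e (Y ^ 2) := hY.pow 1
    rw [DD, DD, (h2.mul h2').trace_eq, h2.submatrix_mul, hX.submatrix_pow, hY.submatrix_pow]
  simp only [pot, P9, hX.pot1_eq, hY.pot1_eq, h]

omit [DecidableEq α] [DecidableEq ι] in
theorem Supp.form_eq (hX : Supp e X) (h : ι → ℝ) :
    h ⬝ᵥ (X *ᵥ h) = (h ∘ e) ⬝ᵥ (X.submatrix e e *ᵥ (h ∘ e)) := by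
  simp only [dotProduct, mulVec, Function.comp_apply, submatrix_apply]
  rw [sum_eq_sum_emb e (f := fun z => h z * ∑ t, X z t * h t) fun z hz => ?_]
  · refine Finset.sum_congr rfl fun a _ => ?_
    rw [sum_eq_sum_emb e (f := fun t => X (e a) t * h t) fun t ht =>
      (hX _ _ (left_ne_zero_of_mul ht)).2]
  · obtain ⟨u, -, hu⟩ := Finset.exists_ne_zero_of_sum_ne_zero (right_ne_zero_of_mul hz)
    exact (hX z u (left_ne_zero_of_mul hu)).1

omit [Fintype α] [DecidableEq α] [Fintype ι] [DecidableEq ι] in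
theorem cov_map (e : α ↪ ι) (T : Finset α) (h g : ι → ℝ) :
    cov (T.map e) h g = cov T (h ∘ e) (g ∘ e) := by
  simp only [cov, Finset.sum_map, Finset.card_map, Function.comp_apply]

theorem Jinv_submatrix (hX : Supp e X) (T : Finset α) (s m : ℝ) (g : ι → ℝ) (Q : ℝ) :
    Jinv (T.map e) X s m g Q ↔ Jinv T (X.submatrix e e) s m (g ∘ e) Q := by
  simp only [Jinv, cov_map, hX.form_eq, Finset.sum_map, Finset.card_map, Function.comp_apply]
  refine ⟨fun H h => ?_, fun H h => H (h ∘ e)⟩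
  have := H (Function.extend e h 0)
  rwa [Function.extend_comp e.injective] at this

end sub

/-- The parameters as real numbers. -/
def Par.cast (p : Par ℚ) : Par ℝ := ⟨p.N, p.n, p.M, p.m, p.T3⟩

theorem map_cast_pow (X : Matrix ι ι ℚ) (j : ℕ) :
    (X.map (fun q : ℚ => (q : ℝ))) ^ j = (X ^ j).map (fun q : ℚ => (q : ℝ)) :=
  (map_pow (Rat.castHom ℝ).mapMatrix X j).symm

omit [DecidableEq ι] in
theorem map_cast_mul (X Y : Matrix ι ι ℚ) :
    X.map (fun q : ℚ => (q : ℝ)) * Y.map (fun q : ℚ => (q : ℝ))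
      = (X * Y).map (fun q : ℚ => (q : ℝ)) :=
  (Matrix.map_mul (f := Rat.castHom ℝ)).symm

omit [DecidableEq ι] in
theorem trace_map_cast (X : Matrix ι ι ℚ) :
    trace (X.map (fun q : ℚ => (q : ℝ))) = ((trace X : ℚ) : ℝ) := by
  simp [trace]

theorem tr_cast (X : Matrix ι ι ℚ) (j : ℕ) :
    tr (X.map (fun q : ℚ => (q : ℝ))) j = ((tr X j : ℚ) : ℝ) := by
  rw [tr, tr, map_cast_pow, trace_map_cast]

theorem pot1_cast (p : Par ℚ) (k : ℚ) (T : Finset ι) (X : Matrix ι ι ℚ) :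
    ((pot1 p k T X : ℚ) : ℝ) = pot1 p.cast (k : ℝ) T (X.map (fun q : ℚ => (q : ℝ))) := by
  have hk : p.cast.k1 ≤ (k : ℝ) ↔ p.k1 ≤ k := by
    simp only [Par.k1, Par.cast]
    exact_mod_cast Iff.rfl
  simp only [pot1, P1, P2, P2l, P3, P4, P5, P6, P8, tr_cast, hk, VV, RR, rho, map_cast_pow,
    Matrix.map_apply, Par.gtau, Par.stau2, Par.sT, Par.Gf, Par.G3sq, Par.G4, Par.GV, Par.GR, Par.s3,
    Par.F, Par.kb]
  simp only [Par.k1, Par.cast]
  split_ifs <;> push_cast <;> rfl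

theorem pot_cast (p : Par ℚ) (k : ℚ) (T : Finset ι) (X Y : Matrix ι ι ℚ) :
    ((pot p k T X Y : ℚ) : ℝ)
      = pot p.cast (k : ℝ) T (X.map (fun q : ℚ => (q : ℝ))) (Y.map (fun q : ℚ => (q : ℝ))) := by
  have hk : p.cast.k1 ≤ (k : ℝ) ↔ p.k1 ≤ k := by
    simp only [Par.k1, Par.cast]
    exact_mod_cast Iff.rfl
  simp only [pot, ← pot1_cast, P9, hk, DD, map_cast_pow, map_cast_mul, trace_map_cast, Par.GD]
  simp only [Par.cast]
  split_ifs <;> push_cast <;> rfl

end Crest.Agent.R062
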