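import Crest.Agent.R062.State
import Crest.Agent.R062.Sub

/-! The states of the algorithm follow the recursion `upd`. -/

open Matrix Finset

namespace Crest.Agent.R062
variable {d n : ℕ} {l : St} {s : ℚ}

theorem mem_free {k₀ : ℕ} {z : Fin k₀} : z ∈ free k₀ l ↔ (z : ℕ) ∉ used l := by
  simp [free]

theorem used_cons (e : ℕ × ℕ) : used (e :: l) = e.1 :: e.2 :: used l := by
  simp [used]

theorem valid.ne {x y : Fin (n * d)} (hv : valid d n l x y) : x ≠ y := by
  rintro rfl
  have := hv.2.2.1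
  simp [okPair] at this

theorem free_map (k₀ : ℕ) (l : St) : (univ : Finset ↥(free k₀ l)).map (incl k₀ l) = free k₀ l := by
  ext z
  simp [incl]

theorem free_cons {k₀ : ℕ} (x y : ↥(free k₀ l)) :
    free k₀ (((x : Fin k₀), (y : Fin k₀)) :: l) = (rest x y).map (incl k₀ l) := by
  ext z
  rw [mem_free, used_cons, Finset.mem_map]
  simp only [List.mem_cons, not_or, rest, Finset.mem_erase, mem_univ, and_true]
  constructor
  · rintro ⟨h1, h2, h3⟩
    refine ⟨⟨z, mem_free.2 h3⟩, ⟨fun e => h2 ?_, fun e => h1 ?_⟩, rfl⟩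
    · rw [← e]
    · rw [← e]
  · rintro ⟨w, ⟨h1, h2⟩, rfl⟩
    exact ⟨fun e => h2 (Subtype.ext (Fin.ext e)), fun e => h1 (Subtype.ext (Fin.ext e)),
      mem_free.1 w.2⟩

theorem link_XR_ne {z t : Fin (n * d)} (h : XR d n s l z t ≠ 0) :
    (z : ℕ) ∉ used l ∧ (t : ℕ) ∉ used l := by
  by_contra hc
  apply h
  simp only [XR, Xs, Matrix.map_apply, Matrix.of_apply, if_neg hc, Rat.cast_zero]

theorem supp_XR (d n : ℕ) (s : ℚ) (l : St) : Supp (incl (n * d) l) (XR d n s l) := by
  intro z t h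
  obtain ⟨h1, h2⟩ := link_XR_ne h
  exact ⟨⟨⟨z, mem_free.2 h1⟩, rfl⟩, ⟨⟨t, mem_free.2 h2⟩, rfl⟩⟩

theorem supp_XR_cons (d n : ℕ) (s : ℚ) (l : St) (e : ℕ × ℕ) :
    Supp (incl (n * d) l) (XR d n s (e :: l)) := by
  intro z t h
  obtain ⟨h1, h2⟩ := link_XR_ne h
  rw [used_cons] at h1 h2
  exact ⟨⟨⟨z, mem_free.2 fun e => h1 (by simp [e])⟩, rfl⟩,
    ⟨⟨t, mem_free.2 fun e => h2 (by simp [e])⟩, rfl⟩⟩

theorem link_sum_supp {α ι : Type} [Fintype α] [Fintype ι] {e : α ↪ ι} {X : Matrix ι ι ℝ}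
    (hX : Supp e X) (z : ι) : ∑ t, X z (e t) = ∑ t, X z t := by
  rw [← Finset.sum_map univ e (fun t => X z t)]
  refine Finset.sum_subset (Finset.subset_univ _) fun t _ ht => ?_
  by_contra h
  obtain ⟨w, rfl⟩ := (hX z t h).2
  exact ht (Finset.mem_map_of_mem _ (mem_univ w))

theorem link_mem_used {e : ℕ × ℕ} (he : e ∈ l) : e.1 ∈ used l ∧ e.2 ∈ used l := by
  simp only [used, List.mem_flatMap]
  exact ⟨⟨e, he, by simp⟩, ⟨e, he, by simp⟩⟩

section alg
variable {ι : Type} [Fintype ι] [DecidableEq ι]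

theorem link_unique {K₀ P K : Matrix ι ι ℚ} (h : (1 - s • (K₀ * P)) * K = K₀) :
    (1 - s • (K₀ * P))⁻¹ * K₀ = K := by
  have h1 : (1 - s • (K₀ * P)) * (1 + s • (K * P)) = 1 := by
    rw [Matrix.mul_add, Matrix.mul_one, Matrix.mul_smul, ← Matrix.mul_assoc, h, sub_add_cancel]
  have h2 := Matrix.isUnit_det_of_right_inverse h1
  calc (1 - s • (K₀ * P))⁻¹ * K₀ = (1 - s • (K₀ * P))⁻¹ * ((1 - s • (K₀ * P)) * K) := by rw [h]
    _ = K := by rw [← Matrix.mul_assoc, Matrix.nonsing_inv_mul _ h2, Matrix.one_mul]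

/-- The rank-two update. -/
def linkStep (K : Matrix ι ι ℚ) (s : ℚ) (x y : ι) : Matrix ι ι ℚ :=
  Matrix.of fun z t => K z t
    + K y y / ((s - K x y) ^ 2 - K x x * K y y) * (K z x * K x t)
    + (s - K x y) / ((s - K x y) ^ 2 - K x x * K y y) * (K z x * K y t + K z y * K x t)
    + K x x / ((s - K x y) ^ 2 - K x x * K y y) * (K z y * K y t)

omit [Fintype ι] [DecidableEq ι] in
theorem linkStep_symm {K : Matrix ι ι ℚ} (hK : K.IsSymm) (x y : ι) : (linkStep K s x y).IsSymm := by
  ext z t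
  simp only [linkStep, transpose_apply, of_apply, hK.apply z t, hK.apply x t, hK.apply y t,
    hK.apply z x, hK.apply z y]
  ring

theorem linkStep_spec {K₀ P K : Matrix ι ι ℚ} (hs : s = 1 ∨ s = -1) (hK : K.IsSymm)
    (h : (1 - s • (K₀ * P)) * K = K₀) {x y : ι}
    (hD : (s - K x y) ^ 2 - K x x * K y y ≠ 0) :
    (1 - s • (K₀ * (P + Matrix.single x y 1 + Matrix.single y x 1))) * linkStep K s x y = K₀ := by
  have hs2 : s ^ 2 = 1 := by rcases hs with rfl | rfl <;> norm_num
  have h1 : 1 - s • (K₀ * (P + Matrix.single x y 1 + Matrix.single y x 1))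
      = (1 - s • (K₀ * P)) * (1 - s • (K * (Matrix.single x y 1 + Matrix.single y x 1))) := by
    rw [Matrix.mul_sub, Matrix.mul_one, Matrix.mul_smul, ← Matrix.mul_assoc, h, add_assoc,
      Matrix.mul_add K₀ P, smul_add, sub_sub]
  have h2 : (1 - s • (K * (Matrix.single x y 1 + Matrix.single y x 1))) * linkStep K s x y = K := by
    ext z t
    have e : ∀ a b : ι, (K * Matrix.single a b (1 : ℚ) * linkStep K s x y) z t
        = K z a * linkStep K s x y b t := fun a b => by
      rw [Matrix.mul_assoc, Matrix.mul_apply, Finset.sum_eq_single a]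
      · rw [Matrix.single_mul_apply_same, one_mul]
      · intro c _ hc
        rw [Matrix.single_mul_apply_of_ne _ _ _ _ _ hc, mul_zero]
      · simp
    rw [Matrix.sub_mul, Matrix.one_mul, Matrix.smul_mul, Matrix.mul_add, Matrix.add_mul,
      Matrix.sub_apply, Matrix.smul_apply, Matrix.add_apply, e, e]
    simp only [linkStep, of_apply, smul_eq_mul, hK.apply x y]
    have hy : s * (K y t + K y y / ((s - K x y) ^ 2 - K x x * K y y) * (K x y * K x t)
        + (s - K x y) / ((s - K x y) ^ 2 - K x x * K y y) * (K x y * K y t + K y y * K x t)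
        + K x x / ((s - K x y) ^ 2 - K x x * K y y) * (K y y * K y t))
        = K y y / ((s - K x y) ^ 2 - K x x * K y y) * K x t
          + (s - K x y) / ((s - K x y) ^ 2 - K x x * K y y) * K y t := by
      linear_combination (-s * K y t) * inv_mul_cancel₀ hD
        + ((s - K x y) ^ 2 - K x x * K y y)⁻¹ * (K y y * K x t + (s - K x y) * K y t) * hs2
    have hx : s * (K x t + K y y / ((s - K x y) ^ 2 - K x x * K y y) * (K x x * K x t)
        + (s - K x y) / ((s - K x y) ^ 2 - K x x * K y y) * (K x x * K y t + K x y * K x t)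
        + K x x / ((s - K x y) ^ 2 - K x x * K y y) * (K x y * K y t))
        = (s - K x y) / ((s - K x y) ^ 2 - K x x * K y y) * K x t
          + K x x / ((s - K x y) ^ 2 - K x x * K y y) * K y t := by
      linear_combination (-s * K x t) * inv_mul_cancel₀ hD
        + ((s - K x y) ^ 2 - K x x * K y y)⁻¹ * (K x x * K y t + (s - K x y) * K x t) * hs2
    linear_combination (-K z x) * hy - K z y * hx
  rw [h1, Matrix.mul_assoc, h2, h]

end alg

theorem link_Pm_cons {x y : Fin (n * d)} (hv : valid d n l x y) :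
    Pm (n * d) (((x : ℕ), (y : ℕ)) :: l)
      = Pm (n * d) l + Matrix.single x y 1 + Matrix.single y x 1 := by
  have hne := hv.ne
  ext z t
  simp only [Pm, of_apply, Matrix.add_apply, Matrix.single_apply, List.mem_cons, Prod.mk.injEq,
    Fin.val_inj]
  by_cases h1 : x = z ∧ y = t
  · obtain ⟨rfl, rfl⟩ := h1
    have h2 : ¬(((x : ℕ), (y : ℕ)) ∈ l ∨ ((y : ℕ), (x : ℕ)) ∈ l) := fun h =>
      h.elim (fun h => hv.1 (link_mem_used h).1) fun h => hv.1 (link_mem_used h).2
    simp [h2, hne.symm]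
  by_cases h2 : y = z ∧ x = t
  · obtain ⟨rfl, rfl⟩ := h2
    have h3 : ¬(((y : ℕ), (x : ℕ)) ∈ l ∨ ((x : ℕ), (y : ℕ)) ∈ l) := fun h =>
      h.elim (fun h => hv.1 (link_mem_used h).2) fun h => hv.1 (link_mem_used h).1
    simp [h3, hne]
  have h3 : ¬(z = x ∧ t = y) := fun h => h1 ⟨h.1.symm, h.2.symm⟩
  have h4 : ¬(t = x ∧ z = y) := fun h => h2 ⟨h.2.symm, h.1.symm⟩
  simp [h1, h2, h3, h4]

theorem link_Kt_nil : Kt d n s [] = K0 d n s := by
  have : Pm (n * d) [] = 0 := by
    ext z t
    simp [Pm]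
  simp [Kt, this]

theorem link_K0_symm : (K0 d n s).IsSymm := by
  ext z t
  simp only [K0, transpose_apply, of_apply, eq_comm]

theorem valid.link_del {x y : Fin (n * d)} (hv : valid d n l x y) (hs : s = 1 ∨ s = -1) :
    0 < DelQ d n s l x y := by
  rcases hs with rfl | rfl
  exacts [hv.2.2.2.1, hv.2.2.2.2]

theorem link_K0_rowsum (hn : 0 < n * d) (z : Fin (n * d)) : ∑ t, K0 d n s z t = s := by
  have hd : 0 < d := Nat.pos_of_mul_pos_left hn
  have hn' : ((n : ℚ) * d) ≠ 0 := by exact_mod_cast hn.ne'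
  have h1 : ∑ t : Fin (n * d), (if (z : ℕ) / d = (t : ℕ) / d then cc d n else 0) = cc d n * d := by
    rw [Fin.sum_univ_eq_sum_range (fun t => if (z : ℕ) / d = t / d then cc d n else 0),
      ← Finset.sum_filter]
    have : (Finset.range (n * d)).filter (fun t => (z : ℕ) / d = t / d)
        = Finset.Ico ((z : ℕ) / d * d) ((z : ℕ) / d * d + d) := by
      ext t
      have hq : (z : ℕ) / d < n := (Nat.div_lt_iff_lt_mul hd).2 z.2
      have hq' : ((z : ℕ) / d + 1) * d ≤ n * d := Nat.mul_le_mul_right d hq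
      rw [Finset.mem_filter, Finset.mem_range, Finset.mem_Ico, eq_comm, Nat.div_eq_iff hd]
      rw [add_mul, one_mul] at hq'
      omega
    rw [this, Finset.sum_const, Nat.card_Ico, Nat.add_sub_cancel_left, nsmul_eq_mul, mul_comm]
  have h2 : ∑ t : Fin (n * d), (if (z : ℕ) = (t : ℕ) then mm d n else 0) = mm d n := by
    simp [Fin.val_inj]
  simp only [K0, of_apply, Finset.sum_add_distrib, Finset.sum_sub_distrib, h1, h2,
    Finset.sum_const, card_univ, Fintype.card_fin, nsmul_eq_mul, Nat.cast_mul]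
  rw [mul_div_cancel₀ _ hn']
  ring

namespace Good
variable (hg : Good d n l)
include hg

theorem nodup : (used l).Nodup := by
  induction hg with
  | nil => simp [used]
  | cons _ hv ih =>
    rw [used_cons, List.nodup_cons, List.nodup_cons, List.mem_cons, not_or]
    exact ⟨⟨fun e => hv.ne (Fin.ext e), hv.1⟩, hv.2.1, ih⟩
theorem used_lt : ∀ z ∈ used l, z < n * d := by
  induction hg with
  | nil => simp [used]
  | @cons l x y _ hv ih =>
    intro z hz
    rw [used_cons, List.mem_cons, List.mem_cons] at hz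
    rcases hz with rfl | rfl | hz
    exacts [x.2, y.2, ih z hz]
theorem simple : Simple d l := by
  induction hg with
  | nil => trivial
  | cons _ hv ih => exact ⟨hv.2.2.1, ih⟩
theorem link_card : (free (n * d) l).card + 2 * l.length = n * d := by
  induction hg with
  | nil => simp [free, used]
  | @cons l x y _ hv ih =>
    have h1 : free (n * d) (((x : ℕ), (y : ℕ)) :: l) = ((free (n * d) l).erase x).erase y := by
      ext z
      simp only [mem_free, used_cons, List.mem_cons, not_or, Finset.mem_erase, Fin.val_inj]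
      tauto
    have h2 := Finset.card_erase_add_one (mem_free.2 hv.1)
    have h3 := Finset.card_erase_add_one
      (Finset.mem_erase.2 ⟨hv.ne.symm, mem_free.2 hv.2.1⟩ : y ∈ (free (n * d) l).erase x)
    rw [h1, List.length_cons]
    omega
theorem length_le : 2 * l.length ≤ n * d := by
  have := hg.link_card
  omega
theorem card_free : (free (n * d) l).card = kf (n * d) l := by
  have := hg.link_card
  unfold kf
  omega
theorem kk_free : kk ↥(free (n * d) l) = (kf (n * d) l : ℝ) := by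
  rw [kk, Fintype.card_coe, hg.card_free]

/-- The closed form solves its defining equation and is symmetric. -/
theorem Kt_spec (hs : s = 1 ∨ s = -1) :
    (1 - s • (K0 d n s * Pm (n * d) l)) * Kt d n s l = K0 d n s ∧ (Kt d n s l).IsSymm := by
  induction hg with
  | nil =>
    have : Pm (n * d) [] = 0 := by
      ext z t
      simp [Pm]
    rw [link_Kt_nil, this]
    exact ⟨by simp, link_K0_symm⟩
  | @cons l x y _ hv ih =>
    have h1 := linkStep_spec hs ih.2 ih.1 (hv.link_del hs).ne'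
    rw [← link_Pm_cons hv] at h1
    have h2 : Kt d n s (((x : ℕ), (y : ℕ)) :: l) = _ := link_unique h1
    rw [h2]
    exact ⟨h1, linkStep_symm ih.2 x y⟩

/-- The Schur complement recursion. -/
theorem Kt_cons (hs : s = 1 ∨ s = -1) {x y : Fin (n * d)} (hv : valid d n l x y)
    (z t : Fin (n * d)) :
    Kt d n s (((x : ℕ), (y : ℕ)) :: l) z t = Kt d n s l z t
      + Kt d n s l y y / DelQ d n s l x y * (Kt d n s l z x * Kt d n s l x t)
      + (s - Kt d n s l x y) / DelQ d n s l x y
          * (Kt d n s l z x * Kt d n s l y t + Kt d n s l z y * Kt d n s l x t)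
      + Kt d n s l x x / DelQ d n s l x y * (Kt d n s l z y * Kt d n s l y t) := by
  have ih := hg.Kt_spec hs
  have h1 := linkStep_spec hs ih.2 ih.1 (hv.link_del hs).ne'
  rw [← link_Pm_cons hv] at h1
  have h2 : Kt d n s (((x : ℕ), (y : ℕ)) :: l) = _ := link_unique h1
  rw [h2]
  rfl

theorem link_same (hs : s = 1 ∨ s = -1) {z t : Fin (n * d)} (hz : (z : ℕ) ∉ used l)
    (ht : (t : ℕ) ∉ used l) (hv : (z : ℕ) / d = (t : ℕ) / d) (w : Fin (n * d)) :
    Kt d n s l w z - Kt d n s l w t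
      = (if w = t then mm d n else 0) - (if w = z then mm d n else 0) := by
  induction hg generalizing w with
  | nil =>
    simp only [link_Kt_nil, K0, of_apply, hv, Fin.val_inj]
    ring
  | @cons l x y hg hxy ih =>
    rw [used_cons, List.mem_cons, List.mem_cons, not_or, not_or, Fin.val_inj, Fin.val_inj]
      at hz ht
    have hx := ih hz.2.2 ht.2.2 x
    have hy := ih hz.2.2 ht.2.2 y
    rw [if_neg (Ne.symm ht.1), if_neg (Ne.symm hz.1), sub_zero, sub_eq_zero] at hx
    rw [if_neg (Ne.symm ht.2.1), if_neg (Ne.symm hz.2.1), sub_zero, sub_eq_zero] at hy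
    rw [hg.Kt_cons hs hxy, hg.Kt_cons hs hxy, hx, hy, ← ih hz.2.2 ht.2.2 w]
    ring

/-- Two free stubs of one vertex. -/
theorem same_vertex (hs : s = 1 ∨ s = -1) {z t : Fin (n * d)} (hz : (z : ℕ) ∉ used l)
    (ht : (t : ℕ) ∉ used l) (hne : z ≠ t) (hv : (z : ℕ) / d = (t : ℕ) / d) :
    Xs d n s l z t = Xs d n s l z z + mm d n := by
  have := hg.link_same hs hz ht hv z
  rw [if_neg hne, if_pos rfl] at this
  simp only [Xs, of_apply, hz, ht, not_false_eq_true, and_self, if_true]
  linarith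

theorem XF_symm (hs : s = 1 ∨ s = -1) : (XF d n s l).IsSymm := by
  ext z t
  simp only [XF, XR, Xs, transpose_apply, submatrix_apply, Matrix.map_apply, of_apply, and_comm,
    (hg.Kt_spec hs).2.apply (incl _ l z) (incl _ l t)]

omit hg in
theorem link_XF (z t : ↥(free (n * d) l)) :
    XF d n s l z t = (Kt d n s l z t : ℝ) - (s : ℝ) / (kf (n * d) l : ℝ) := by
  have hz := mem_free.1 z.2
  have ht := mem_free.1 t.2
  change ((Xs d n s l z t : ℚ) : ℝ) = _
  simp only [Xs, of_apply, hz, ht, not_false_eq_true, and_self, if_true]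
  push_cast
  rfl

theorem link_ch (z t : ↥(free (n * d) l)) :
    ch (XF d n s l) (s : ℝ) z t = (Kt d n s l z t : ℝ) := by
  rw [ch, link_XF, hg.kk_free, sub_add_cancel]

theorem link_ah (z : ↥(free (n * d) l)) :
    ah (XF d n s l) (s : ℝ) z = (Kt d n s l z z : ℝ) := hg.link_ch z z

theorem Del_XF (x y : ↥(free (n * d) l)) :
    Del (XF d n s l) (s : ℝ) x y = (DelQ d n s l x y : ℝ) := by
  rw [Del, DelQ, hg.link_ch, hg.link_ah, hg.link_ah]
  push_cast
  rfl

theorem link_piv (hs : s = 1 ∨ s = -1) (hk : 2 < kf (n * d) l) {x y : ↥(free (n * d) l)}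
    (hv : valid d n l x y) (hr : ∀ z, ∑ t, XF d n s l z t = 0) :
    Piv (XF d n s l) (s : ℝ) x y where
  symm := hg.XF_symm hs
  rowsum := hr
  sgn := by rcases hs with rfl | rfl <;> simp
  ne := fun e => hv.ne (by rw [e])
  del := by
    rw [hg.Del_XF]
    exact_mod_cast (hv.link_del hs).ne'
  card := by
    rw [hg.kk_free]
    exact_mod_cast hk

theorem link_aux (hs : s = 1 ∨ s = -1) (hk : 2 < kf (n * d) l) {x y : ↥(free (n * d) l)}
    (hv : valid d n l x y) (hp : Piv (XF d n s l) (s : ℝ) x y) :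
    (XR d n s ((((x : Fin (n * d)) : ℕ), ((y : Fin (n * d)) : ℕ)) :: l)).submatrix
      (incl _ l) (incl _ l) = upd (XF d n s l) (s : ℝ) x y := by
  have hmem : ∀ z : ↥(free (n * d) l), ((z : Fin (n * d)) : ℕ) ∉
      used ((((x : Fin (n * d)) : ℕ), ((y : Fin (n * d)) : ℕ)) :: l) ↔ z ∈ rest x y := fun z => by
    rw [← mem_free, free_cons]
    exact Finset.mem_map' (incl _ l)
  ext z t
  change ((Xs d n s _ (z : Fin (n * d)) (t : Fin (n * d)) : ℚ) : ℝ) = _
  simp only [Xs, of_apply, hmem]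
  by_cases hz : z ∈ rest x y
  swap
  · rw [hp.upd_out hz, if_neg (fun h => hz h.1), Rat.cast_zero]
  by_cases ht : t ∈ rest x y
  swap
  · rw [← hp.upd_symm.apply, hp.upd_out ht, if_neg (fun h => ht h.2), Rat.cast_zero]
  have h1 := hp.upd_apply_K hz ht
  have h2 : ((kf (n * d) ((((x : Fin (n * d)) : ℕ), ((y : Fin (n * d)) : ℕ)) :: l) : ℕ) : ℝ)
      = kk ↥(free (n * d) l) - 2 := by
    have : kf (n * d) l
        = kf (n * d) ((((x : Fin (n * d)) : ℕ), ((y : Fin (n * d)) : ℕ)) :: l) + 2 := by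
      unfold kf at hk ⊢
      rw [List.length_cons]
      omega
    rw [hg.kk_free, this]
    push_cast
    ring
  simp only [e11, e22, eta, hg.link_ch, hg.link_ah, hg.Del_XF] at h1
  rw [if_pos ⟨hz, ht⟩, hg.Kt_cons hs hv]
  push_cast
  rw [h2]
  linarith

theorem XF_rowsum (hs : s = 1 ∨ s = -1) (hn : 0 < n * d) (hk : 0 < kf (n * d) l)
    (z : ↥(free (n * d) l)) : ∑ t, XF d n s l z t = 0 := by
  induction hg with
  | nil =>
    have h1 : ∑ t, XF d n s [] z t = ∑ t, XR d n s [] z t := link_sum_supp (supp_XR d n s []) z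
    have h2 : ∀ t, XR d n s [] z t = (K0 d n s z t : ℝ) - (s : ℝ) / ((n * d : ℕ) : ℝ) := fun t => by
      simp [XR, Xs, used, link_Kt_nil, kf]
    have h3 : ((n * d : ℕ) : ℝ) ≠ 0 := by exact_mod_cast hn.ne'
    rw [h1]
    simp only [h2, Finset.sum_sub_distrib, ← Rat.cast_sum, link_K0_rowsum hn, Finset.sum_const,
      card_univ, Fintype.card_fin, nsmul_eq_mul]
    rw [mul_div_cancel₀ _ h3, sub_self]
  | @cons l x y hg hv ih =>
    have hk2 : 2 < kf (n * d) l := by
      unfold kf at hk ⊢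
      rw [List.length_cons] at hk
      omega
    have hv' : valid d n l (⟨x, mem_free.2 hv.1⟩ : ↥(free (n * d) l))
      (⟨y, mem_free.2 hv.2.1⟩ : ↥(free (n * d) l)) := hv
    have hp := hg.link_piv hs hk2 hv' (ih (by omega))
    have h1 := hg.link_aux hs hk2 hv' hp
    have hz : (z : Fin (n * d)) ∈ free (n * d) l := by
      have := mem_free.1 z.2
      rw [used_cons] at this
      exact mem_free.2 fun e => this (by simp [e])
    have h2 := hp.upd_rowsum ⟨z, hz⟩
    rw [← h1] at h2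
    have h3 := link_sum_supp (supp_XR d n s (((x : ℕ), (y : ℕ)) :: l)) z
    have h4 := link_sum_supp (supp_XR_cons d n s l ((x : ℕ), (y : ℕ))) z
    exact (h3.trans h4.symm).trans h2

theorem piv (hs : s = 1 ∨ s = -1) (hk : 2 < kf (n * d) l) {x y : ↥(free (n * d) l)}
    (hv : valid d n l x y) : Piv (XF d n s l) (s : ℝ) x y := by
  refine hg.link_piv hs hk hv (hg.XF_rowsum hs ?_ (by omega))
  unfold kf at hk
  omega

/-- The next matrix, seen on the currently free stubs, is `upd`. -/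
theorem link (hs : s = 1 ∨ s = -1) (hk : 2 < kf (n * d) l) {x y : ↥(free (n * d) l)}
    (hv : valid d n l x y) :
    (XR d n s ((((x : Fin (n * d)) : ℕ), ((y : Fin (n * d)) : ℕ)) :: l)).submatrix
      (incl _ l) (incl _ l) = upd (XF d n s l) (s : ℝ) x y :=
  hg.link_aux hs hk hv (hg.piv hs hk hv)

end Good

end Crest.Agent.R062
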