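import Crest.Agent.R062.Params
import Crest.Agent.R062.Link
import Crest.Agent.R062.Bounds

/-! The initial state. -/

open Matrix Finset

namespace Crest.Agent.R062
variable {d n : ℕ}

theorem free_nil (k₀ : ℕ) : free k₀ [] = univ := by
  ext z; simp [free, used]

theorem divNat_eq_iff {z t : Fin (n * d)} : z.divNat = t.divNat ↔ (z : ℕ) / d = (t : ℕ) / d := by
  rw [Fin.ext_iff]; rfl

theorem sum_divNat (φ : Fin n → ℝ) : ∑ t : Fin (n * d), φ t.divNat = d * ∑ v, φ v := by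
  rw [← finProdFinEquiv.sum_comp, Fintype.sum_prod_type]
  have : ∀ (a : Fin n) (b : Fin d), (finProdFinEquiv (a, b)).divNat = a := fun a b =>
    congrArg Prod.fst (finProdFinEquiv.symm_apply_apply (a, b))
  simp only [this, sum_const, card_univ, Fintype.card_fin, nsmul_eq_mul, Finset.mul_sum]

theorem XR_nil (s : ℚ) (z t : Fin (n * d)) :
    XR d n s [] z t = (if z.divNat = t.divNat then (cc d n : ℝ) else 0)
      - (if z = t then (mm d n : ℝ) else 0) + ((mm d n : ℝ) - cc d n * d) / ((n : ℝ) * d) := by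
  have hP : Pm (n * d) [] = 0 := by ext z t; simp [Pm]
  have hK : Kt d n s [] = K0 d n s := by simp [Kt, hP]
  simp only [XR, Xs, hK, K0, kf, used, map_apply, of_apply, List.flatMap_nil, List.not_mem_nil,
    not_false_eq_true, and_self, if_true, List.length_nil, mul_zero, Nat.sub_zero, divNat_eq_iff,
    Fin.val_inj]
  split_ifs <;> push_cast <;> ring

/-- The same-vertex matrix. -/
def SS (d n : ℕ) : Matrix (Fin (n * d)) (Fin (n * d)) ℝ :=
  Matrix.of fun z t => if z.divNat = t.divNat then 1 else 0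

/-- The all-ones matrix. -/
def JJ (d n : ℕ) : Matrix (Fin (n * d)) (Fin (n * d)) ℝ := Matrix.of fun _ _ => 1

theorem sum_same (v : Fin n) : ∑ t : Fin (n * d), (if v = t.divNat then (1 : ℝ) else 0) = d := by
  rw [sum_divNat (fun w => if v = w then (1 : ℝ) else 0)]; simp

theorem SS_SS : SS d n * SS d n = (d : ℝ) • SS d n := by
  ext z t
  simp only [Matrix.mul_apply, SS, of_apply, Matrix.smul_apply, smul_eq_mul]
  rw [sum_divNat (fun w => (if z.divNat = w then (1 : ℝ) else 0) * (if w = t.divNat then 1 else 0))]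
  simp
theorem SS_JJ : SS d n * JJ d n = (d : ℝ) • JJ d n := by
  ext z t
  simp only [Matrix.mul_apply, SS, JJ, of_apply, Matrix.smul_apply, smul_eq_mul, mul_one]
  exact sum_same _
theorem JJ_SS : JJ d n * SS d n = (d : ℝ) • JJ d n := by
  ext z t
  simp only [Matrix.mul_apply, SS, JJ, of_apply, Matrix.smul_apply, smul_eq_mul, mul_one, one_mul]
  simp only [eq_comm (b := t.divNat)]
  exact sum_same _
theorem JJ_JJ : JJ d n * JJ d n = ((n : ℝ) * d) • JJ d n := by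
  ext z t
  simp [Matrix.mul_apply, JJ]

noncomputable def AA (d n : ℕ) : Matrix (Fin (n * d)) (Fin (n * d)) ℝ :=
  (1 / (d : ℝ)) • SS d n - (1 / ((n : ℝ) * d)) • JJ d n
noncomputable def BB (d n : ℕ) : Matrix (Fin (n * d)) (Fin (n * d)) ℝ :=
  1 - (1 / (d : ℝ)) • SS d n

section
variable (hd : (0 : ℝ) < d) (hn : (0 : ℝ) < n)
include hd hn

theorem AA_AA : AA d n * AA d n = AA d n := by
  simp only [AA, sub_mul, mul_sub, smul_mul_assoc, mul_smul_comm, SS_SS, SS_JJ, JJ_SS, JJ_JJ,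
    smul_smul]
  ext z t
  simp only [Matrix.sub_apply, Matrix.smul_apply, smul_eq_mul]
  field_simp; ring
theorem AA_BB : AA d n * BB d n = 0 := by
  simp only [AA, BB, sub_mul, mul_sub, smul_mul_assoc, mul_smul_comm, SS_SS, SS_JJ, JJ_SS, JJ_JJ,
    smul_smul, mul_one]
  ext z t
  simp only [Matrix.sub_apply, Matrix.smul_apply, smul_eq_mul, Matrix.zero_apply]
  field_simp; ring
theorem BB_AA : BB d n * AA d n = 0 := by
  simp only [AA, BB, sub_mul, mul_sub, smul_mul_assoc, mul_smul_comm, SS_SS, SS_JJ, JJ_SS, JJ_JJ,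
    smul_smul, one_mul]
  ext z t
  simp only [Matrix.sub_apply, Matrix.smul_apply, smul_eq_mul, Matrix.zero_apply]
  field_simp; ring
omit hn in
theorem BB_BB : BB d n * BB d n = BB d n := by
  simp only [BB, sub_mul, mul_sub, smul_mul_assoc, mul_smul_comm, SS_SS, smul_smul, one_mul,
    mul_one]
  ext z t
  simp only [Matrix.sub_apply, Matrix.smul_apply, smul_eq_mul]
  field_simp; ring

theorem XR_nil_eq (s : ℚ) :
    XR d n s [] = ((cc d n : ℝ) * d - mm d n) • AA d n + (-(mm d n : ℝ)) • BB d n := by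
  ext z t
  rw [XR_nil]
  simp only [AA, BB, SS, JJ, Matrix.add_apply, Matrix.sub_apply, Matrix.smul_apply, of_apply, smul_eq_mul, Matrix.one_apply]
  split_ifs <;> field_simp <;> ring

theorem XR_nil_pow (s : ℚ) (j : ℕ) :
    XR d n s [] ^ (j + 1)
      = ((cc d n : ℝ) * d - mm d n) ^ (j + 1) • AA d n + (-(mm d n : ℝ)) ^ (j + 1) • BB d n := by
  induction j with
  | zero => simpa using XR_nil_eq hd hn s
  | succ j ih =>
    rw [pow_succ, ih, XR_nil_eq hd hn s]
    simp only [add_mul, mul_add, smul_mul_assoc, mul_smul_comm, AA_AA hd hn, AA_BB hd hn,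
      BB_AA hd hn, BB_BB hd, smul_zero, add_zero, zero_add, smul_smul]
    rw [← pow_succ', ← pow_succ']

end

/-- The initial traces. -/
noncomputable def t0 (d n j : ℕ) : ℝ :=
  ((n : ℝ) - 1) * ((cc d n : ℝ) * d - mm d n) ^ j + (n : ℝ) * ((d : ℝ) - 1) * (-(mm d n : ℝ)) ^ j

section
variable (hd : (0 : ℝ) < d) (hn : (0 : ℝ) < n)
include hd hn

theorem XR_nil_diag (s : ℚ) (j : ℕ) (z : Fin (n * d)) :
    (XR d n s [] ^ (j + 1)) z z = t0 d n (j + 1) / ((n : ℝ) * d) := by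
  rw [XR_nil_pow hd hn]
  simp only [AA, BB, SS, JJ, Matrix.add_apply, Matrix.sub_apply, Matrix.smul_apply, of_apply, smul_eq_mul, Matrix.one_apply,
    if_true, t0]
  field_simp

theorem tr_nil (s : ℚ) (j : ℕ) : tr (XR d n s []) (j + 1) = t0 d n (j + 1) := by
  simp only [tr, trace, Matrix.diag, XR_nil_diag hd hn, sum_const, card_univ, Fintype.card_fin,
    nsmul_eq_mul]
  push_cast; field_simp

theorem RR_nil (s : ℚ) : RR (XR d n s []) = t0 d n 1 ^ 2 / ((n : ℝ) * d) := by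
  have := XR_nil_diag hd hn s 0
  simp only [zero_add, pow_one] at this
  simp only [RR, this, sum_const, card_univ, Fintype.card_fin, nsmul_eq_mul]
  push_cast; field_simp

theorem VV_nil (s : ℚ) (F : ℝ) :
    VV (XR d n s []) univ F = (t0 d n 2 - (n : ℝ) * d * F) ^ 2 / ((n : ℝ) * d) := by
  have := XR_nil_diag hd hn s 1
  simp only [VV, rho, this, sum_const, card_univ, Fintype.card_fin, nsmul_eq_mul]
  push_cast; field_simp

theorem DD_nil : DD (XR d n 1 []) (XR d n (-1) []) = t0 d n 4 := by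
  have e : XR d n (-1) [] = XR d n 1 [] := by rw [XR_nil_eq hd hn, XR_nil_eq hd hn]
  rw [e, DD, ← pow_add]
  exact tr_nil hd hn 1 3

end

namespace Big
variable (h : Big d n)
include h

theorem F_init : (par d n).cast.F ((n : ℝ) * d) = (pp d n : ℝ) := by
  have hd : (0 : ℝ) < d := by have := h.hd; positivity
  have hn : (0 : ℝ) < n := by exact_mod_cast h.n_pos
  have hp : (0 : ℝ) < pp d n := by
    have : (0 : ℚ) < pp d n := by linarith [h.half_le_pp]
    exact_mod_cast this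
  simp only [Par.F, Par.cast, par, MM]
  push_cast
  field_simp
  ring

/-- Size of the initial traces. -/
theorem t0_bounds :
    0 ≤ t0 d n 1 ∧ t0 d n 1 ≤ (NN n : ℝ) ^ 3701 ∧
    |t0 d n 2 - (n : ℝ) * d * (pp d n : ℝ)| ≤ (NN n : ℝ) ^ 3701 ∧
    |t0 d n 3| ≤ 2 * n * (d : ℝ) ^ 3 ∧ t0 d n 4 ≤ 2 * n * (d : ℝ) ^ 4 ∧
    t0 d n 3 = (TT d n : ℝ) := by
  have hd : (3 : ℝ) ≤ d := by exact_mod_cast h.hd
  have hN : (10 : ℝ) ^ 14 ≤ NN n := by exact_mod_cast h.N_ge
  have hN0 : (0 : ℝ) < NN n := lt_of_lt_of_le (by norm_num) hN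
  have hd3 : (10 : ℝ) ^ 14 * (d : ℝ) ^ 3 ≤ NN n := by
    exact_mod_cast h.d_pow_le' (j := 3) (by norm_num)
  have nlo : (NN n : ℝ) ^ 10000 ≤ n := by exact_mod_cast h.n_lo
  have nhi : (n : ℝ) ≤ 2 * (NN n : ℝ) ^ 10000 := by exact_mod_cast h.n_hi
  have n4 : (4 : ℝ) ≤ n := by
    have : (NN n : ℝ) ≤ n := by exact_mod_cast h.N_le_n
    linarith [show (4 : ℝ) ≤ 10 ^ 14 by norm_num]
  have m0 : (0 : ℝ) < mm d n := by exact_mod_cast h.mm_pos
  have m1 : (mm d n : ℝ) < 1 := by exact_mod_cast h.mm_lt_one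
  have c1 : (cc d n : ℝ) ≤ 1 := by exact_mod_cast h.cc_le_one
  have hL : (LL n : ℝ) ^ 2 = (NN n : ℝ) ^ 6300 := by
    simp only [LL]; push_cast; rw [← pow_mul]
  have e1 : (NN n : ℝ) ^ 10000 = (NN n : ℝ) ^ 3700 * (NN n : ℝ) ^ 6300 := by rw [← pow_add]
  have e2 : (NN n : ℝ) ^ 3701 = (NN n : ℝ) ^ 3700 * NN n := by rw [← pow_succ]
  have A1 : (1 : ℝ) ≤ (NN n : ℝ) ^ 3700 :=
    one_le_pow₀ (by linarith [show (1 : ℝ) ≤ 10 ^ 14 by norm_num])
  have B0 : (0 : ℝ) < (NN n : ℝ) ^ 6300 := pow_pos hN0 _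
  have ec : (cc d n : ℝ) * d - mm d n
      = ((d : ℝ) - 1) * mm d n + 8 * (d : ℝ) ^ 2 / (NN n : ℝ) ^ 6300 := by
    rw [← hL]; unfold cc; push_cast; ring
  have ep : (pp d n : ℝ) = ((d : ℝ) - 1) * (mm d n : ℝ) ^ 2 := by unfold pp; push_cast; ring
  have eT : t0 d n 3 = (TT d n : ℝ) := by unfold t0 TT; push_cast; ring
  have a1 : (cc d n : ℝ) * d - mm d n ≤ d := by nlinarith
  rw [e1] at nlo nhi
  rw [e2]
  have x1 : 8 * (d : ℝ) ^ 2 * (NN n : ℝ) ^ 3700
      ≤ (n : ℝ) * (8 * (d : ℝ) ^ 2 / (NN n : ℝ) ^ 6300) := by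
    rw [← mul_div_assoc, le_div_iff₀ B0]
    nlinarith [mul_le_mul_of_nonneg_left nlo (show (0 : ℝ) ≤ 8 * (d : ℝ) ^ 2 by positivity)]
  have x2 : (n : ℝ) * (8 * (d : ℝ) ^ 2 / (NN n : ℝ) ^ 6300)
      ≤ 16 * (d : ℝ) ^ 2 * (NN n : ℝ) ^ 3700 := by
    rw [← mul_div_assoc, div_le_iff₀ B0]
    nlinarith [mul_le_mul_of_nonneg_left nhi (show (0 : ℝ) ≤ 8 * (d : ℝ) ^ 2 by positivity)]
  have x0 : 0 < 8 * (d : ℝ) ^ 2 / (NN n : ℝ) ^ 6300 := by positivity
  refine ⟨?_, ?_, ?_, ?_, ?_, eT⟩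
  all_goals unfold t0
  all_goals try rw [ep]
  all_goals
    generalize (NN n : ℝ) ^ 3700 = A at *
    generalize 8 * (d : ℝ) ^ 2 / (NN n : ℝ) ^ 6300 = ε at *
    generalize (NN n : ℝ) ^ 6300 = B at *
    generalize (cc d n : ℝ) * d - mm d n = a at *
    generalize (mm d n : ℝ) = m at *
    generalize (NN n : ℝ) = N at *
    generalize (n : ℝ) = ν at *
    generalize (d : ℝ) = D at *
  · have : (ν - 1) * a ^ 1 + ν * (D - 1) * (-m) ^ 1 = ν * ε - a := by rw [ec]; ring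
    rw [this]
    nlinarith [mul_le_mul_of_nonneg_left A1 (show (0 : ℝ) ≤ 8 * D ^ 2 by positivity)]
  · have : (ν - 1) * a ^ 1 + ν * (D - 1) * (-m) ^ 1 = ν * ε - a := by rw [ec]; ring
    rw [this]
    have y1 : 16 * D ^ 2 ≤ N := by nlinarith
    have y2 : 0 ≤ a := by rw [ec]; nlinarith
    nlinarith [mul_le_mul_of_nonneg_left y1 (show (0 : ℝ) ≤ A by linarith)]
  · have : (ν - 1) * a ^ 2 + ν * (D - 1) * (-m) ^ 2 - ν * D * ((D - 1) * m ^ 2)
        = (ν * ε) * (a + (D - 1) * m) - a ^ 2 := by rw [ec]; ring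
    rw [this]
    have y2 : 0 ≤ a := by rw [ec]; nlinarith
    have y3 : a + (D - 1) * m ≤ 2 * D := by nlinarith
    have y4 : 0 ≤ a + (D - 1) * m := by nlinarith
    have y5 : (ν * ε) * (a + (D - 1) * m) ≤ (16 * D ^ 2 * A) * (2 * D) :=
      mul_le_mul x2 y3 y4 (by positivity)
    have y6 : 0 ≤ (ν * ε) * (a + (D - 1) * m) := by positivity
    have y7 : a ^ 2 ≤ D ^ 2 := pow_le_pow_left₀ y2 a1 2
    have y8 : 32 * D ^ 3 ≤ N := by nlinarith
    have y9 : D ^ 2 ≤ N := by nlinarith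
    rw [abs_le]
    constructor
    · nlinarith [mul_le_mul_of_nonneg_right A1 hN0.le]
    · nlinarith [mul_le_mul_of_nonneg_left y8 (show (0 : ℝ) ≤ A by linarith), sq_nonneg a]
  · have y2 : 0 ≤ a := by rw [ec]; nlinarith
    have y7 : a ^ 3 ≤ D ^ 3 := pow_le_pow_left₀ y2 a1 3
    have y3 : 0 ≤ a ^ 3 := by positivity
    have y4 : m ^ 3 ≤ 1 := pow_le_one₀ m0.le m1.le
    have y5 : 0 ≤ m ^ 3 := by positivity
    have y6 : (D - 1) * m ^ 3 ≤ D ^ 3 := by nlinarith
    have y8 : (ν - 1) * a ^ 3 ≤ ν * D ^ 3 := by nlinarith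
    have y9 : ν * ((D - 1) * m ^ 3) ≤ ν * D ^ 3 := mul_le_mul_of_nonneg_left y6 (by linarith)
    have z1 : 0 ≤ (ν - 1) * a ^ 3 := mul_nonneg (by linarith) y3
    have z2 : 0 ≤ ν * ((D - 1) * m ^ 3) := mul_nonneg (by linarith) (mul_nonneg (by linarith) y5)
    rw [abs_le]
    constructor <;> nlinarith
  · have y2 : 0 ≤ a := by rw [ec]; nlinarith
    have y7 : a ^ 4 ≤ D ^ 4 := pow_le_pow_left₀ y2 a1 4
    have y3 : 0 ≤ a ^ 4 := by positivity
    have y4 : m ^ 4 ≤ 1 := pow_le_one₀ m0.le m1.le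
    have y5 : 0 ≤ m ^ 4 := by positivity
    have y0 : D ≤ D ^ 4 := le_self_pow₀ (by linarith) (by norm_num)
    have y6 : (D - 1) * m ^ 4 ≤ D ^ 4 := by nlinarith
    have y8 : (ν - 1) * a ^ 4 ≤ ν * D ^ 4 := by nlinarith
    have y9 : ν * ((D - 1) * m ^ 4) ≤ ν * D ^ 4 := mul_le_mul_of_nonneg_left y6 (by linarith)
    nlinarith

end Big

section num
attribute [local irreducible] Par.k1 Par.stau2 Par.sT Par.GR Par.GD Par.GV Par.G4 Par.G3sq Par.Gf
  Par.s3

theorem init_num {p : Par ℝ} {k D : ℝ} (hn : Num p k) (hD : 1 ≤ D) (hDN : D ^ 10 ≤ p.N)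
    (hk : p.n ≤ k) (hk' : k ≤ p.n * D) (hF : 1 / 2 ≤ p.F k) :
    (p.N ^ 3701) ^ 2 ≤ p.sT k ^ 2 / 100 ∧ k * p.F k + p.N ^ 3701 ≤ p.Gf k / 100 ∧
    (2 * p.n * D ^ 3) ^ 2 ≤ p.G3sq k / 100 ∧ 2 * p.n * D ^ 4 ≤ p.G4 k / 100 ∧
    (p.N ^ 3701) ^ 2 / k ≤ p.GV k / 100 ∧ (p.N ^ 3701) ^ 2 / k ≤ p.GR k / 100 ∧
    2 * p.n * D ^ 4 ≤ p.GD / 100 ∧ 2 * p.k1 ≤ k ∧ p.N ^ 3701 ≤ p.N ^ 3710 := by
  have D0 : 0 < D := by linarith
  have l1 : 0 ≤ Real.log D := Real.log_nonneg hD
  have l2 : 10 * Real.log D ≤ Real.log p.N := by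
    have := Real.log_le_log (by positivity) hDN
    rw [Real.log_pow] at this; exact_mod_cast this
  have l3 : Real.log p.n ≤ Real.log k := Real.log_le_log hn.n_pos hk
  have l4 : Real.log k ≤ Real.log p.n + Real.log D := by
    rw [← Real.log_mul hn.n_pos.ne' D0.ne']; exact Real.log_le_log hn.k_pos hk'
  have l5 : -Real.log 2 ≤ Real.log (p.F k) := by
    have := Real.log_le_log (by norm_num) hF
    rwa [one_div, Real.log_inv] at this
  refine ⟨?_, ?_, ?_, ?_, ?_, ?_, ?_, ?_, pow_le_pow_right₀ hn.one_le_N (by norm_num)⟩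
  all_goals lognum hn

end num

theorem div_le_hundredth {a b : ℝ} (hb : 0 < b) (h : a ≤ b / 100) : a / b ≤ 1 / 100 := by
  rw [div_le_iff₀ hb]; linarith

theorem Big.Phi_nil (h : Big d n) : (Phi d n [] : ℝ) ≤ 1 / 4 := by
  have hd3 : (3 : ℝ) ≤ d := by exact_mod_cast h.hd
  have hd : (0 : ℝ) < d := by linarith
  have hn0 : (0 : ℝ) < n := by exact_mod_cast h.n_pos
  have eN : (par d n).cast.N = (NN n : ℝ) := by simp [Par.cast, par]
  have en : (par d n).cast.n = (n : ℝ) := by simp [Par.cast, par]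
  have eT : (par d n).cast.T3 = (TT d n : ℝ) := by simp [Par.cast, par]
  have hnk : (n : ℝ) ≤ (n : ℝ) * d := by nlinarith
  have hn : Num (par d n).cast ((n : ℝ) * d) := by
    refine h.num ?_ le_rfl
    have : NN n ^ 3409 ≤ n := (Nat.pow_le_pow_right h.N_pos (by norm_num)).trans h.n_lo
    exact le_trans (by exact_mod_cast this) hnk
  have hF := h.F_init
  have hF2 : 1 / 2 ≤ (par d n).cast.F ((n : ℝ) * d) := by
    rw [hF]
    have : ((1 / 2 : ℚ) : ℝ) ≤ (pp d n : ℝ) := Rat.cast_le.2 h.half_le_pp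
    push_cast at this; exact this
  obtain ⟨b1, b2, b3, b4, b5, b6⟩ := h.t0_bounds
  obtain ⟨n1, n2, n3, n4, n5, n6, n7, n8, n9⟩ := init_num (D := d) hn (by linarith)
    (by
      rw [eN]
      have : d ^ 10 ≤ NN n := le_trans (Nat.le_mul_of_pos_left _ (by norm_num)) h.hN
      exact_mod_cast this) (by rw [en]; exact hnk) (by rw [en]) hF2
  rw [← hF] at b3
  rw [← eN] at b2 b3
  rw [← en] at b4 b5
  rw [← eT] at b6
  have ek : ((kf (n * d) [] : ℚ) : ℝ) = (n : ℝ) * d := by simp [kf]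
  rw [Phi, pot_cast, ek, free_nil]
  change pot _ _ _ (XR d n 1 []) (XR d n (-1) []) ≤ _
  have e9 := DD_nil hd hn0
  have kpos := hn.k_pos
  have key : ∀ s : ℚ, pot1 (par d n).cast ((n : ℝ) * d) univ (XR d n s []) ≤ 6 / 100 := by
    intro s
    have e1 : tr (XR d n s []) 1 = _ := tr_nil hd hn0 s 0
    have e2 : tr (XR d n s []) 2 = _ := tr_nil hd hn0 s 1
    have e3 : tr (XR d n s []) 3 = _ := tr_nil hd hn0 s 2
    have e4 : tr (XR d n s []) 4 = _ := tr_nil hd hn0 s 3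
    have e5 := VV_nil hd hn0 s ((par d n).cast.F ((n : ℝ) * d))
    have e6 := RR_nil hd hn0 s
    simp only [zero_add, Nat.reduceAdd] at e1 e2 e3 e4
    generalize (par d n).cast = p at *
    generalize (n : ℝ) * d = k at *
    have hg : p.gtau k = p.N ^ 3710 := by
      have : 1 ≤ (k - p.k1) / p.k1 := by rw [le_div_iff₀ hn.k1_pos]; linarith
      unfold Par.gtau
      rw [min_eq_left (le_max_of_le_right this), mul_one]
    have q1 : P1 p k (XR d n s []) = 0 := by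
      unfold P1
      rw [e1, hg, max_eq_right (by linarith), max_eq_right (by linarith)]
      simp
    have sq3 : (t0 d n 2 - k * p.F k) ^ 2 ≤ (p.N ^ 3701) ^ 2 := by
      rw [← sq_abs]; exact pow_le_pow_left₀ (abs_nonneg _) b3 2
    have q2 : P2 p k (XR d n s []) ≤ 1 / 100 := by
      unfold P2; rw [e2]
      exact div_le_hundredth (pow_pos hn.sT_pos 2) (sq3.trans n1)
    have q2l : P2l p k (XR d n s []) ≤ 1 / 100 := by
      unfold P2l; rw [e2]
      exact div_le_hundredth hn.Gf_pos (by linarith [(abs_le.1 b3).2])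
    have q3 : P3 p k (XR d n s []) ≤ 1 / 100 := by
      unfold P3; rw [e3]
      refine div_le_hundredth hn.G3sq_pos (le_trans ?_ n3)
      rw [← sq_abs]; exact pow_le_pow_left₀ (abs_nonneg _) b4 2
    have q4 : P4 p k (XR d n s []) ≤ 1 / 100 := by
      unfold P4; rw [e4]
      exact div_le_hundredth hn.G4_pos (b5.trans n4)
    have q5 : P5 p k univ (XR d n s []) ≤ 1 / 100 := by
      unfold P5; rw [e5]
      exact div_le_hundredth hn.GV_pos ((div_le_div_of_nonneg_right sq3 kpos.le).trans n5)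
    have q6 : P6 p k (XR d n s []) ≤ 1 / 100 := by
      unfold P6; rw [e6]
      exact div_le_hundredth hn.GR_pos
        ((div_le_div_of_nonneg_right (pow_le_pow_left₀ b1 b2 2) kpos.le).trans n6)
    have q8 : P8 p k (XR d n s []) = 0 := by
      unfold P8; rw [e3, b6]; simp
    unfold pot1
    linarith
  have q9 : P9 (par d n).cast ((n : ℝ) * d) (XR d n 1 []) (XR d n (-1) []) ≤ 1 / 100 := by
    unfold P9
    split_ifs
    · rw [e9]; exact div_le_hundredth hn.GD_pos (b5.trans n7)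
    · norm_num
  unfold pot
  linarith [key 1, key (-1)]

theorem lift_div (x : Fin n → ℝ) (z : Fin (n * d)) : lift x ((z : ℕ) / d) = x z.divNat := by
  unfold lift
  exact dif_pos z.divNat.2

theorem Big.Jinv_nil (h : Big d n) {s : ℚ} (hs : s = 1 ∨ s = -1) (x : Fin n → ℝ)
    (hx : ∑ i, x i = 0) :
    Jinv (free (n * d) []) (XR d n s []) (s : ℝ) (mm d n : ℝ) (fun z => lift x ((z : ℕ) / d))
      ((theta d n : ℝ) * (x ⬝ᵥ x)) := by
  have hd : (0 : ℝ) < d := by have := h.hd; positivity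
  have hn0 : (0 : ℝ) < n := by exact_mod_cast h.n_pos
  have c0 : (0 : ℝ) < cc d n := by exact_mod_cast h.cc_pos
  have et : (theta d n : ℝ) = mm d n * d + (1 - (mm d n : ℝ) ^ 2) / cc d n := by
    unfold theta; push_cast; ring
  intro v
  simp only [free_nil, lift_div, cov]
  set H : Fin n → ℝ := fun w => ∑ z : Fin (n * d), if z.divNat = w then v z else 0 with hH
  have fib : ∀ φ : Fin n → ℝ, ∑ z : Fin (n * d), v z * φ z.divNat = ∑ w, H w * φ w := by
    intro φ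
    simp only [hH, Finset.sum_mul]
    rw [Finset.sum_comm]
    refine Finset.sum_congr rfl fun z _ => ?_
    simp [ite_mul]
  have s1 : ∑ z : Fin (n * d), x z.divNat = 0 := by rw [sum_divNat, hx, mul_zero]
  have s2 : ∑ z : Fin (n * d), x z.divNat * x z.divNat = d * (x ⬝ᵥ x) :=
    sum_divNat (fun w => x w * x w)
  have s3 : ∑ z, v z = ∑ w, H w := by simpa using fib (fun _ => 1)
  have s4 : v ⬝ᵥ (XR d n s [] *ᵥ v) = cc d n * ∑ w, H w * H w - mm d n * ∑ z, v z * v z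
      + ((mm d n : ℝ) - cc d n * d) / ((n : ℝ) * d) * (∑ z, v z) ^ 2 := by
    have r : ∀ z, (XR d n s [] *ᵥ v) z = cc d n * H z.divNat - mm d n * v z
        + ((mm d n : ℝ) - cc d n * d) / ((n : ℝ) * d) * ∑ t, v t := by
      intro z
      simp only [mulVec, dotProduct, XR_nil, add_mul, sub_mul, sum_add_distrib, sum_sub_distrib,
        ite_mul, zero_mul, sum_ite_eq, mem_univ, if_true, hH, Finset.mul_sum, mul_ite, mul_zero]
      congr 2
      exact Finset.sum_congr rfl fun t _ => by simp only [eq_comm]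
    rw [← fib H]
    simp only [dotProduct, r, mul_add, mul_sub, sum_add_distrib, sum_sub_distrib, Finset.mul_sum, sq,
      Finset.sum_mul]
    congr 1
    · congr 1 <;> exact Finset.sum_congr rfl fun z _ => by ring
    · exact Finset.sum_congr rfl fun z _ => Finset.sum_congr rfl fun t _ => by ring
  rw [s1, s2, s4, fib x, s3, et]
  simp only [card_univ, Fintype.card_fin]
  push_cast
  set S := ∑ w, H w with hS
  have key : ∑ w, 2 * (1 - (mm d n : ℝ) ^ 2) * ((H w - S / n) * x w)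
      ≤ ∑ w, (cc d n * (H w - S / n) ^ 2 + (1 - (mm d n : ℝ) ^ 2) ^ 2 / cc d n * (x w * x w)) := by
    refine Finset.sum_le_sum fun w _ => ?_
    have : cc d n * (H w - S / n) ^ 2 + (1 - (mm d n : ℝ) ^ 2) ^ 2 / cc d n * (x w * x w)
        - 2 * (1 - (mm d n : ℝ) ^ 2) * ((H w - S / n) * x w)
        = (cc d n * (H w - S / n) - (1 - (mm d n : ℝ) ^ 2) * x w) ^ 2 / cc d n := by
      field_simp; ring
    have h2 : 0 ≤ (cc d n * (H w - S / n) - (1 - (mm d n : ℝ) ^ 2) * x w) ^ 2 / cc d n := by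
      positivity
    linarith
  have k1 : ∑ w, 2 * (1 - (mm d n : ℝ) ^ 2) * ((H w - S / n) * x w)
      = 2 * (1 - (mm d n : ℝ) ^ 2) * ∑ w, H w * x w := by
    rw [← Finset.mul_sum]
    simp only [sub_mul, sum_sub_distrib, ← Finset.mul_sum, hx, mul_zero, sub_zero]
  have k2 : ∑ w, (H w - S / n) ^ 2 = ∑ w, H w * H w - S ^ 2 / n := by
    have : ∀ w, (H w - S / n) ^ 2 = H w * H w - 2 * (S / n) * H w + (S / n) ^ 2 := fun w => by ring
    simp only [this, sum_add_distrib, sum_sub_distrib, ← Finset.mul_sum, ← hS, sum_const, card_univ,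
      Fintype.card_fin, nsmul_eq_mul]
    field_simp; ring
  rw [k1, sum_add_distrib, ← Finset.mul_sum, ← Finset.mul_sum, k2] at key
  have k3 : x ⬝ᵥ x = ∑ w, x w * x w := rfl
  rw [← k3] at key
  refine le_of_eq_of_le (by ring) (key.trans (le_of_eq ?_))
  field_simp
  ring

end Crest.Agent.R062
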