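import Crest.Agent.R062.Ident

/-! The quadratic invariant that controls the spectrum of the final graph, and transport of all
statistics along an embedding of index types. -/

open Matrix Finset

namespace Crest.Agent.R062
variable {α : Type} [Fintype α] [DecidableEq α]

/-- Centred inner product on `T`. -/
noncomputable def cov (T : Finset α) (h g : α → ℝ) : ℝ :=
  ∑ z ∈ T, h z * g z - (∑ z ∈ T, h z) * (∑ z ∈ T, g z) / (T.card : ℝ)

/-- The invariant.  `g` is a test vector on the stubs and `Q` is the remaining budget. -/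
def Jinv (T : Finset α) (X : Matrix α α ℝ) (s m : ℝ) (g : α → ℝ) (Q : ℝ) : Prop :=
  ∀ h : α → ℝ, 2 * (1 - m ^ 2) * cov T h g
    ≤ h ⬝ᵥ (X *ᵥ h) + m * cov T h h
      + (1 - m ^ 2) * (Q - s * (∑ z ∈ T, g z) ^ 2 / (T.card : ℝ) - m * cov T g g)

variable {X : Matrix α α ℝ} {s m Q : ℝ} {g : α → ℝ} {T : Finset α}

/-- An indefinite binary form takes a positive value. -/
theorem exists_pos_form {a b c : ℝ} (h : a * b < c ^ 2) :
    ∃ t₁ t₂ : ℝ, 0 < a * t₁ ^ 2 + 2 * c * t₁ * t₂ + b * t₂ ^ 2 := by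
  rcases lt_trichotomy a 0 with ha | ha | ha
  · exact ⟨c, -a, by nlinarith [mul_pos_of_neg_of_neg ha (sub_neg.2 h)]⟩
  · subst ha
    have hc : c ≠ 0 := by
      rintro rfl
      simp at h
    refine ⟨(1 - b) / (2 * c), 1, ?_⟩
    have : 2 * c * ((1 - b) / (2 * c)) = 1 - b := by field_simp
    rw [this]
    simp
  · exact ⟨1, 0, by simpa using ha⟩

/-- A quadratic polynomial that is nonnegative has a nonnegative leading coefficient. -/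
theorem lead_nonneg {a b c : ℝ} (h : ∀ l : ℝ, 0 ≤ c + 2 * l * b + l ^ 2 * a) : 0 ≤ a := by
  by_contra ha
  push Not at ha
  have h0 : 0 ≤ c := by simpa using h 0
  obtain ⟨L, hL⟩ : ∃ L : ℝ, L = 1 + c / (-a) := ⟨_, rfl⟩
  have hq : 0 ≤ c / (-a) := div_nonneg h0 (by linarith)
  have hLa : L * a = a - c := by
    rw [hL]
    have : a ≠ 0 := ha.ne
    field_simp
    ring
  have h1 := h L
  have h2 := h (-L)
  have hL1 : 1 ≤ L := by linarith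
  have h3 : 0 ≤ c + L * (L * a) := by nlinarith
  rw [hLa] at h3
  nlinarith

/-- The `2 × 2` core of the invariant. -/
theorem two_by_two {n₁ n₂ n₃ h₁ h₂ h₃ d₁ d₂ C : ℝ} (hN : n₁ * n₃ ≤ n₂ ^ 2)
    (hM : (n₁ - h₁) * (n₃ - h₃) < (n₂ - h₂) ^ 2)
    (H : ∀ t₁ t₂ : ℝ, 0 ≤ C + (n₁ * d₁ ^ 2 + 2 * n₂ * d₁ * d₂ + n₃ * d₂ ^ 2)
      + 2 * (t₁ * (n₁ * d₁ + n₂ * d₂) + t₂ * (n₂ * d₁ + n₃ * d₂))
      + (h₁ * t₁ ^ 2 + 2 * h₂ * t₁ * t₂ + h₃ * t₂ ^ 2)) : 0 ≤ C := by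
  obtain ⟨t₁, t₂, ht⟩ := exists_pos_form hM
  obtain ⟨D, hD⟩ : ∃ D, D = n₁ * d₁ ^ 2 + 2 * n₂ * d₁ * d₂ + n₃ * d₂ ^ 2 := ⟨_, rfl⟩
  obtain ⟨β, hβ⟩ : ∃ β, β = t₁ * (n₁ * d₁ + n₂ * d₂) + t₂ * (n₂ * d₁ + n₃ * d₂) := ⟨_, rfl⟩
  obtain ⟨η, hη⟩ : ∃ η, η = h₁ * t₁ ^ 2 + 2 * h₂ * t₁ * t₂ + h₃ * t₂ ^ 2 := ⟨_, rfl⟩
  obtain ⟨ν, hν⟩ : ∃ ν, ν = n₁ * t₁ ^ 2 + 2 * n₂ * t₁ * t₂ + n₃ * t₂ ^ 2 := ⟨_, rfl⟩
  have H' : ∀ l : ℝ, 0 ≤ (C + D) + 2 * l * β + l ^ 2 * η := by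
    intro l
    have := H (l * t₁) (l * t₂)
    rw [hD, hβ, hη]
    convert this using 1
    ring
  have hη0 : 0 ≤ η := lead_nonneg H'
  have hνη : η < ν := by
    rw [hη, hν]
    linarith
  have hν0 : 0 < ν := lt_of_le_of_lt hη0 hνη
  have hCS : ν * D ≤ β ^ 2 := by
    have e : β ^ 2 - ν * D = (n₂ ^ 2 - n₁ * n₃) * (t₁ * d₂ - t₂ * d₁) ^ 2 := by
      rw [hβ, hν, hD]
      ring
    have : 0 ≤ (n₂ ^ 2 - n₁ * n₃) * (t₁ * d₂ - t₂ * d₁) ^ 2 :=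
      mul_nonneg (sub_nonneg.2 hN) (sq_nonneg _)
    linarith
  obtain ⟨l, hl⟩ : ∃ l, l = -β / ν := ⟨_, rfl⟩
  have hlν : l * ν = -β := by
    rw [hl]
    field_simp
  have h1 := H' l
  have h2 : l ^ 2 * η ≤ l ^ 2 * ν := mul_le_mul_of_nonneg_left hνη.le (sq_nonneg _)
  have h3 : l ^ 2 * ν = -(l * β) := by
    rw [sq, mul_assoc, hlν]
    ring
  have h4 : D + l * β ≤ 0 := by
    have : ν * (D + l * β) ≤ 0 := by
      have : ν * (l * β) = -β ^ 2 := by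
        rw [← mul_assoc, mul_comm ν l, hlν]
        ring
      linarith [mul_add ν D (l * β)]
    by_contra hc
    push Not at hc
    linarith [mul_pos hν0 hc]
  linarith

/-- The scalar form of one step. -/
theorem step_core {θ κ s m a b c r₁ r₂ w₁ w₂ p₁ p₂ G B L q : ℝ} (hs : s ^ 2 = 1)
    (hθ : θ * (1 + 2 * κ) = κ) (hθ2 : 2 * θ ≤ 1) (hm : m ^ 2 ≤ 1)
    (hD : (a + s * θ) * (b + s * θ) < (s - (c + s * θ)) ^ 2)
    (hw₁ : w₁ = -(a + s * θ) * r₁ + (s - (c + s * θ)) * r₂)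
    (hw₂ : w₂ = (s - (c + s * θ)) * r₁ - (b + s * θ) * r₂)
    (H : ∀ u₁ u₂ : ℝ, 2 * (1 - m ^ 2) * (G + u₁ * p₁ + u₂ * p₂)
      ≤ (B + 2 * (u₁ * w₁ + u₂ * w₂) + (a * u₁ ^ 2 + 2 * c * u₁ * u₂ + b * u₂ ^ 2))
        + m * (L + u₁ ^ 2 + u₂ ^ 2 - (u₁ + u₂) ^ 2 * θ) + (1 - m ^ 2) * q) :
    2 * (1 - m ^ 2) * G ≤ (B + (w₁ * r₁ + w₂ * r₂)) + m * L + (1 - m ^ 2) *
      (q - (s * (2 * p₁ * p₂ + κ * (p₁ + p₂) ^ 2) - m * (p₁ ^ 2 + p₂ ^ 2 + κ * (p₁ + p₂) ^ 2))) := by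
  obtain ⟨π₁, hπ₁⟩ : ∃ π₁, π₁ = s * (p₂ + κ * (p₁ + p₂)) - m * (p₁ + κ * (p₁ + p₂)) := ⟨_, rfl⟩
  obtain ⟨π₂, hπ₂⟩ : ∃ π₂, π₂ = s * (p₁ + κ * (p₁ + p₂)) - m * (p₂ + κ * (p₁ + p₂)) := ⟨_, rfl⟩
  obtain ⟨n₁, hn₁⟩ : ∃ n₁, n₁ = m - (s + m) * θ := ⟨_, rfl⟩
  obtain ⟨n₂, hn₂⟩ : ∃ n₂, n₂ = s - (s + m) * θ := ⟨_, rfl⟩
  have e₁ : (1 - m ^ 2) * p₁ = n₁ * π₁ + n₂ * π₂ := by
    rw [hπ₁, hπ₂, hn₁, hn₂]
    linear_combination (-p₁) * hs + (s ^ 2 - m ^ 2) * (p₁ + p₂) * hθ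
  have e₂ : (1 - m ^ 2) * p₂ = n₂ * π₁ + n₁ * π₂ := by
    rw [hπ₁, hπ₂, hn₁, hn₂]
    linear_combination (-p₂) * hs + (s ^ 2 - m ^ 2) * (p₁ + p₂) * hθ
  have e₃ : s * (2 * p₁ * p₂ + κ * (p₁ + p₂) ^ 2) - m * (p₁ ^ 2 + p₂ ^ 2 + κ * (p₁ + p₂) ^ 2)
      = p₁ * π₁ + p₂ * π₂ := by
    rw [hπ₁, hπ₂]
    ring
  rw [e₃, ← sub_nonneg]
  refine two_by_two (n₁ := n₁) (n₂ := n₂) (n₃ := n₁) (h₁ := a + m * (1 - θ)) (h₂ := c - m * θ)
    (h₃ := b + m * (1 - θ)) (d₁ := r₁ - π₁) (d₂ := r₂ - π₂) ?_ ?_ fun t₁ t₂ => ?_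
  · have e : n₂ ^ 2 - n₁ * n₁ = (1 - m ^ 2) * (1 - 2 * θ) := by
      rw [hn₁, hn₂]
      linear_combination (1 - 2 * θ) * hs
    have : 0 ≤ (1 - m ^ 2) * (1 - 2 * θ) := mul_nonneg (by linarith) (by linarith)
    linarith
  · rw [hn₁, hn₂]
    convert hD using 1 <;> ring
  · have h := sub_nonneg.2 (H (r₁ + t₁) (r₂ + t₂))
    convert h using 1
    have hw₁' : w₁ = (n₁ - (a + m * (1 - θ))) * r₁ + (n₂ - (c - m * θ)) * r₂ := by
      rw [hw₁, hn₁, hn₂]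
      ring
    have hw₂' : w₂ = (n₂ - (c - m * θ)) * r₁ + (n₁ - (b + m * (1 - θ))) * r₂ := by
      rw [hw₂, hn₁, hn₂]
      ring
    rw [hw₁', hw₂']
    linear_combination (2 * (r₁ + t₁) - π₁) * e₁ + (2 * (r₂ + t₂) - π₂) * e₂

theorem card_rest {x y : α} (h : x ≠ y) : ((rest x y).card : ℝ) = kk α - 2 := by
  have := sum_rest_const h (1 : ℝ)
  simpa using this

theorem Pr_mulVec (x y : α) (h : α → ℝ) (z : α) :
    (Pr x y *ᵥ h) z =
      if z ∈ rest x y then h z - (∑ u ∈ rest x y, h u) / (kk α - 2) else 0 := by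
  have := Pr_mul_apply x y (Matrix.of fun u _ => h u) z z
  simpa [Matrix.mul_apply, mulVec, dotProduct] using this

theorem cov_rest {x y : α} (hxy : x ≠ y) (h g : α → ℝ) :
    cov (rest x y) h g = (Pr x y *ᵥ h) ⬝ᵥ g := by
  simp only [dotProduct, Pr_mulVec, cov, card_rest hxy, ite_mul, zero_mul]
  rw [← Finset.sum_filter, Finset.filter_mem_eq_inter, Finset.univ_inter]
  simp only [sub_mul, Finset.sum_sub_distrib, ← Finset.mul_sum]
  ring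

omit [DecidableEq α] in
theorem Xt_form {x y : α} (hX : X.IsSymm) (v : α → ℝ) :
    v ⬝ᵥ (Xt X s x y *ᵥ v) = v ⬝ᵥ (X *ᵥ v)
      + ((X *ᵥ v) x * (e11 X s x y * (X *ᵥ v) x + eta X s x y * (X *ᵥ v) y)
        + (X *ᵥ v) y * (eta X s x y * (X *ᵥ v) x + e22 X s x y * (X *ᵥ v) y)) := by
  have h1 : ∀ z, (Xt X s x y *ᵥ v) z = (X *ᵥ v) z
      + X x z * (e11 X s x y * (X *ᵥ v) x + eta X s x y * (X *ᵥ v) y)
      + X y z * (eta X s x y * (X *ᵥ v) x + e22 X s x y * (X *ᵥ v) y) := by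
    intro z
    simp only [mulVec, dotProduct, Xt, of_apply, Finset.mul_sum, ← Finset.sum_add_distrib,
      hX.apply x z, hX.apply y z]
    exact Finset.sum_congr rfl fun t _ => by ring
  obtain ⟨r₁, hr₁⟩ : ∃ r₁, r₁ = e11 X s x y * (X *ᵥ v) x + eta X s x y * (X *ᵥ v) y := ⟨_, rfl⟩
  obtain ⟨r₂, hr₂⟩ : ∃ r₂, r₂ = eta X s x y * (X *ᵥ v) x + e22 X s x y * (X *ᵥ v) y := ⟨_, rfl⟩
  rw [← hr₁, ← hr₂] at h1 ⊢
  have h2 : ∀ u, (X *ᵥ v) u = ∑ z, X u z * v z := fun u => rfl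
  rw [dotProduct, dotProduct, h2 x, h2 y, Finset.sum_mul, Finset.sum_mul,
    ← Finset.sum_add_distrib, ← Finset.sum_add_distrib]
  exact Finset.sum_congr rfl fun z _ => by rw [h1]; ring

/-- One gluing step preserves the invariant. -/
theorem Jinv.step {x y : α} (hp : Piv X s x y) (hd : 0 < Del X s x y) (hm0 : 0 ≤ m) (hm1 : m < 1)
    (hJ : Jinv univ X s m g Q) :
    Jinv (rest x y) (upd X s x y) s m g (Q - 2 * s * (g x * g y)) := by
  intro h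
  have hk : 0 < kk α - 2 := sub_pos.2 hp.card
  have hk0 : 0 < kk α := by linarith
  have hx : x ∉ rest x y := by simp [rest]
  have hy : y ∉ rest x y := by simp [rest]
  have hcard : ((univ : Finset α).card : ℝ) = kk α := by simp [kk]
  obtain ⟨v, hv⟩ : ∃ v, v = Pr x y *ᵥ h := ⟨_, rfl⟩
  have hvx : v x = 0 := by rw [hv, Pr_mulVec, if_neg hx]
  have hvy : v y = 0 := by rw [hv, Pr_mulVec, if_neg hy]
  have hv0 : ∑ z, v z = 0 := by
    rw [sum_eq_rest hp.ne, hvx, hvy, Finset.sum_congr rfl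
      (g := fun z => h z - (∑ u ∈ rest x y, h u) / (kk α - 2))
      (fun z hz => by rw [hv, Pr_mulVec, if_pos hz]), Finset.sum_sub_distrib,
      sum_rest_const hp.ne, mul_div_cancel₀ _ hk.ne']
    ring
  have hvv : v ⬝ᵥ h = v ⬝ᵥ v := by
    have e : ∀ z, v z * h z = v z * v z + (∑ u ∈ rest x y, h u) / (kk α - 2) * v z := by
      intro z
      by_cases hz : z ∈ rest x y
      · have : v z = h z - (∑ u ∈ rest x y, h u) / (kk α - 2) := by rw [hv, Pr_mulVec, if_pos hz]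
        rw [this]
        ring
      · have : v z = 0 := by rw [hv, Pr_mulVec, if_neg hz]
        rw [this]
        ring
    simp only [dotProduct, e, Finset.sum_add_distrib, ← Finset.mul_sum, hv0, mul_zero, add_zero]
  have hupd : h ⬝ᵥ (upd X s x y *ᵥ h) = v ⬝ᵥ (Xt X s x y *ᵥ v) := by
    rw [upd, ← mulVec_mulVec, ← mulVec_mulVec, dotProduct_mulVec, ← mulVec_transpose,
      (Pr_symm x y).eq, hv]
  obtain ⟨h1, h2, h3, h4⟩ := hp.E_inv
  have hs : s ^ 2 = 1 := by rcases hp.sgn with h | h <;> simp [h]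
  obtain ⟨S, hS⟩ : ∃ S, S = ∑ z, g z := ⟨_, rfl⟩
  have hS' : ∑ z ∈ rest x y, g z = S - g x - g y := by
    rw [hS, sum_eq_rest hp.ne]
    ring
  have hgg : ∑ z ∈ rest x y, g z * g z = ∑ z, g z * g z - g x * g x - g y * g y := by
    rw [sum_eq_rest hp.ne]
    ring
  have key := step_core (θ := (kk α)⁻¹) (κ := (kk α - 2)⁻¹) (s := s) (m := m) (a := X x x)
    (b := X y y) (c := X x y)
    (r₁ := e11 X s x y * (X *ᵥ v) x + eta X s x y * (X *ᵥ v) y)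
    (r₂ := eta X s x y * (X *ᵥ v) x + e22 X s x y * (X *ᵥ v) y)
    (w₁ := (X *ᵥ v) x) (w₂ := (X *ᵥ v) y) (p₁ := g x - S / kk α) (p₂ := g y - S / kk α)
    (G := v ⬝ᵥ g) (B := v ⬝ᵥ (X *ᵥ v)) (L := v ⬝ᵥ v)
    (q := Q - s * S ^ 2 / kk α - m * cov univ g g) hs (by field_simp; ring)
    (by
      rw [← div_eq_mul_inv, div_le_one hk0]
      linarith)
    (by nlinarith)
    (by simpa only [Del, ah, ch, div_eq_mul_inv, sub_pos] using hd)
    (by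
      simp only [ah, ch, div_eq_mul_inv] at h1 h3
      linear_combination (-(X *ᵥ v) x) * h1 - (X *ᵥ v) y * h3)
    (by
      simp only [ah, ch, div_eq_mul_inv] at h2 h4
      linear_combination (-(X *ᵥ v) x) * h2 - (X *ᵥ v) y * h4)
    (fun u₁ u₂ => by
      have hJ' := hJ (v + Pi.single x u₁ + Pi.single y u₂)
      have hsum : ∑ z, (v + Pi.single x u₁ + Pi.single y u₂ : α → ℝ) z = u₁ + u₂ := by
        simp [Finset.sum_add_distrib, hv0]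
      have c1 : cov univ (v + Pi.single x u₁ + Pi.single y u₂) g
          = v ⬝ᵥ g + u₁ * (g x - S / kk α) + u₂ * (g y - S / kk α) := by
        rw [cov, hsum, hcard, ← hS]
        change (v + Pi.single x u₁ + Pi.single y u₂) ⬝ᵥ g - _ = _
        rw [add_dotProduct, add_dotProduct, single_dotProduct, single_dotProduct]
        ring
      have c2 : cov univ (v + Pi.single x u₁ + Pi.single y u₂) (v + Pi.single x u₁ + Pi.single y u₂)
          = v ⬝ᵥ v + u₁ ^ 2 + u₂ ^ 2 - (u₁ + u₂) ^ 2 * (kk α)⁻¹ := by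
        rw [cov, hsum, hcard]
        change (v + Pi.single x u₁ + Pi.single y u₂) ⬝ᵥ (v + Pi.single x u₁ + Pi.single y u₂) - _ = _
        simp only [add_dotProduct, dotProduct_add, single_dotProduct, dotProduct_single, hvx, hvy,
          Pi.add_apply, Pi.single_eq_same, Pi.single_eq_of_ne hp.ne, Pi.single_eq_of_ne hp.ne.symm]
        ring
      have c3 : (v + Pi.single x u₁ + Pi.single y u₂) ⬝ᵥ (X *ᵥ (v + Pi.single x u₁ + Pi.single y u₂))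
          = v ⬝ᵥ (X *ᵥ v) + 2 * (u₁ * (X *ᵥ v) x + u₂ * (X *ᵥ v) y)
            + (X x x * u₁ ^ 2 + 2 * X x y * u₁ * u₂ + X y y * u₂ ^ 2) := by
        have d : ∀ (z : α) (u : ℝ), v ⬝ᵥ (X *ᵥ Pi.single z u) = u * (X *ᵥ v) z := by
          intro z u
          rw [dotProduct_mulVec, dotProduct_single, ← mulVec_transpose, hp.symm.eq, mul_comm]
        have d' : ∀ (z t : α) (u : ℝ), (X *ᵥ Pi.single z u) t = X t z * u := by
          intro z t u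
          simp [mulVec]
        simp only [add_dotProduct, mulVec_add, dotProduct_add, single_dotProduct, d, d',
          hp.symm.apply x y]
        ring
      rw [c1, c2, c3, hcard, ← hS] at hJ'
      exact hJ')
  rw [cov_rest hp.ne h g, cov_rest hp.ne h h, ← hv, hvv, hupd, Xt_form hp.symm, card_rest hp.ne]
  convert key using 3
  simp only [cov, card_rest hp.ne, hcard, hS', hgg, ← hS]
  field_simp
  ring

/-- The case `g = 0` is positive semidefiniteness of `X + m`. -/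
theorem Jinv.psd (hm0 : 0 ≤ m) (hJ : Jinv T X s m 0 0) (h : α → ℝ) :
    0 ≤ h ⬝ᵥ (X *ᵥ h) + m * (h ⬝ᵥ h) := by
  have h1 := hJ h
  have h2 : cov T h h ≤ h ⬝ᵥ h := by
    have a1 : ∑ z ∈ T, h z * h z ≤ h ⬝ᵥ h :=
      Finset.sum_le_sum_of_subset_of_nonneg (Finset.subset_univ T) fun z _ _ => mul_self_nonneg _
    have a2 : 0 ≤ (∑ z ∈ T, h z) * (∑ z ∈ T, h z) / (T.card : ℝ) :=
      div_nonneg (mul_self_nonneg _) (Nat.cast_nonneg _)
    rw [cov]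
    linarith
  have h3 : cov T h 0 = 0 := by simp [cov]
  have h4 : cov T 0 0 = 0 := by simp [cov]
  rw [h3, h4] at h1
  simp only [Pi.zero_apply, Finset.sum_const_zero] at h1
  have h5 := mul_le_mul_of_nonneg_left h2 hm0
  have h6 : (1 - m ^ 2) * (0 - s * 0 ^ 2 / (T.card : ℝ) - m * 0) = 0 := by simp
  rw [h6] at h1
  linarith

/-- When `X ≤ 1` the budget covers every completion. -/
theorem Jinv.final (hm0 : 0 ≤ m) (hm1 : m < 1) (hJ : Jinv T X s m g Q)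
    (hX : ∀ h : α → ℝ, h ⬝ᵥ (X *ᵥ h) ≤ h ⬝ᵥ h) :
    cov T g g + s * (∑ z ∈ T, g z) ^ 2 / (T.card : ℝ) ≤ Q := by
  obtain ⟨μ, hμ⟩ : ∃ μ, μ = (∑ z ∈ T, g z) / (T.card : ℝ) := ⟨_, rfl⟩
  have hTμ : (T.card : ℝ) * μ = ∑ z ∈ T, g z := by
    rcases T.eq_empty_or_nonempty with rfl | hT
    · simp
    · have : (T.card : ℝ) ≠ 0 := by exact_mod_cast hT.card_pos.ne'
      rw [hμ]
      field_simp
  have hc : cov T g g = ∑ z ∈ T, g z * g z - μ * ∑ z ∈ T, g z := by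
    rw [cov, hμ]
    ring
  obtain ⟨h, hh⟩ : ∃ h : α → ℝ, h = fun z => if z ∈ T then (1 - m) * (g z - μ) else 0 := ⟨_, rfl⟩
  have hT : ∀ z ∈ T, h z = (1 - m) * (g z - μ) := fun z hz => by simp [hh, hz]
  have h0 : ∑ z ∈ T, h z = 0 := by
    rw [Finset.sum_congr rfl hT, ← Finset.mul_sum, Finset.sum_sub_distrib, Finset.sum_const,
      nsmul_eq_mul, hTμ, sub_self, mul_zero]
  have h1 : cov T h g = (1 - m) * cov T g g := by
    rw [hc, cov, h0, Finset.sum_congr rfl (g := fun z => (1 - m) * (g z * g z - μ * g z))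
      (fun z hz => by rw [hT z hz]; ring), ← Finset.mul_sum, Finset.sum_sub_distrib,
      ← Finset.mul_sum]
    ring
  have h2 : ∑ z ∈ T, h z * h z = (1 - m) ^ 2 * cov T g g := by
    rw [hc, Finset.sum_congr rfl
      (g := fun z => (1 - m) ^ 2 * (g z * g z - 2 * μ * g z + μ * μ))
      (fun z hz => by rw [hT z hz]; ring), ← Finset.mul_sum, Finset.sum_add_distrib,
      Finset.sum_sub_distrib, ← Finset.mul_sum, Finset.sum_const, nsmul_eq_mul, ← mul_assoc, hTμ]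
    ring
  have h3 : cov T h h = (1 - m) ^ 2 * cov T g g := by
    rw [cov, h0, h2]
    ring
  have h4 : h ⬝ᵥ h = (1 - m) ^ 2 * cov T g g := by
    rw [← h2]
    exact (Finset.sum_subset (Finset.subset_univ T) fun z _ hz => by simp [hh, hz]).symm
  have h5 := hJ h
  have h6 := hX h
  rw [h1, h3] at h5
  rw [h4] at h6
  have hm : 0 < 1 - m ^ 2 := by nlinarith
  have h7 : 0 ≤ (1 - m ^ 2) * (Q - (cov T g g + s * (∑ z ∈ T, g z) ^ 2 / (T.card : ℝ))) := by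
    nlinarith
  exact sub_nonneg.1 ((mul_nonneg_iff_of_pos_left hm).1 h7)

end Crest.Agent.R062
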