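import Crest.Agent.R062.Defs

/-! Elementary inequalities for a real symmetric matrix `X` with `tr X⁴ ≤ Ω⁴`. -/

open Matrix Finset

namespace Crest.Agent.R062
variable {α : Type} [Fintype α] [DecidableEq α] {X Y : Matrix α α ℝ} {Ω m : ℝ}

theorem pw_one (x y : α) : pw X 1 x y = X x y := by simp [pw]
theorem pw_two_self (x : α) : pw X 2 x x = rho X x := rfl
theorem tr_eq_sum (j : ℕ) : tr X j = ∑ x, pw X j x x := rfl
theorem pw_symm (hX : X.IsSymm) (j : ℕ) (x y : α) : pw X j x y = pw X j y x := by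
  exact ((hX.pow j).apply x y).symm
theorem pw_add (i j : ℕ) (x y : α) : pw X (i + j) x y = ∑ z, pw X i x z * pw X j z y := by
  simp only [pw, pow_add, Matrix.mul_apply]
theorem rho_eq (hX : X.IsSymm) (x : α) : rho X x = ∑ y, X x y ^ 2 := by
  simp only [rho, sq, Matrix.mul_apply]
  exact Finset.sum_congr rfl fun y _ => by rw [hX.apply x y]
theorem rho_nonneg (hX : X.IsSymm) (x : α) : 0 ≤ rho X x := by
  rw [rho_eq hX]; positivity
theorem sq_le_rho (hX : X.IsSymm) (x y : α) : X x y ^ 2 ≤ rho X x := by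
  rw [rho_eq hX]
  exact Finset.single_le_sum (f := fun y => X x y ^ 2) (fun _ _ => sq_nonneg _) (mem_univ y)
theorem sum_rho : ∑ x, rho X x = tr X 2 := rfl
theorem sum_pw_sq (hX : X.IsSymm) (j : ℕ) (x : α) : ∑ y, pw X j x y ^ 2 = pw X (2 * j) x x := by
  rw [two_mul, pw_add]
  exact Finset.sum_congr rfl fun y _ => by rw [sq, pw_symm hX j y x]
theorem sum_sum_pw_sq (hX : X.IsSymm) (j : ℕ) : ∑ x, ∑ y, pw X j x y ^ 2 = tr X (2 * j) := by
  rw [tr_eq_sum]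
  exact Finset.sum_congr rfl fun x _ => sum_pw_sq hX j x
theorem tr_even_nonneg (hX : X.IsSymm) (j : ℕ) : 0 ≤ tr X (2 * j) := by
  rw [← sum_sum_pw_sq hX]; positivity
theorem pw_rowsum (hX : X.IsSymm) (h0 : ∀ x, ∑ y, X x y = 0) (j : ℕ) (hj : 1 ≤ j) (x : α) :
    ∑ y, pw X j x y = 0 := by
  have _ := hX
  obtain ⟨i, rfl⟩ : ∃ i, j = i + 1 := ⟨j - 1, by omega⟩
  simp only [pw_add, pw_one]
  rw [Finset.sum_comm]
  simp only [← Finset.mul_sum, h0, mul_zero, Finset.sum_const_zero]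

omit [DecidableEq α] in
theorem mat_mulVec_frob (B : Matrix α α ℝ) (v : α → ℝ) :
    ∑ z, (B *ᵥ v) z ^ 2 ≤ (∑ x, ∑ y, B x y ^ 2) * ∑ z, v z ^ 2 := by
  rw [Finset.sum_mul]
  exact Finset.sum_le_sum fun z _ => Finset.sum_mul_sq_le_sq_mul_sq _ _ _

/-- Operator norm bound. -/
theorem mulVec_sq_le (hX : X.IsSymm) (hΩ : 0 ≤ Ω) (h4 : tr X 4 ≤ Ω ^ 4) (v : α → ℝ) :
    ∑ z, (X *ᵥ v) z ^ 2 ≤ Ω ^ 2 * ∑ z, v z ^ 2 := by
  have _ := hΩ
  have e1 : ∑ z, (X *ᵥ v) z ^ 2 = ∑ z, v z * ((X ^ 2) *ᵥ v) z := by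
    have : (X *ᵥ v) ⬝ᵥ (X *ᵥ v) = v ⬝ᵥ ((X ^ 2) *ᵥ v) := by
      rw [sq, ← Matrix.mulVec_mulVec, Matrix.dotProduct_mulVec v X, ← Matrix.mulVec_transpose,
        hX.eq]
    simpa only [dotProduct, sq] using this
  have e2 := Finset.sum_mul_sq_le_sq_mul_sq univ v ((X ^ 2) *ᵥ v)
  have e3 := mat_mulVec_frob (X ^ 2) v
  have e4 : ∑ x, ∑ y, (X ^ 2) x y ^ 2 = tr X 4 := sum_sum_pw_sq hX 2
  have hv : 0 ≤ ∑ z, v z ^ 2 := by positivity
  rw [e4] at e3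
  rw [← e1] at e2
  refine abs_le_of_sq_le_sq' ?_ (by positivity) |>.2
  calc _ ≤ _ := e2
    _ ≤ (∑ z, v z ^ 2) * (Ω ^ 4 * ∑ z, v z ^ 2) :=
      mul_le_mul_of_nonneg_left (e3.trans (mul_le_mul_of_nonneg_right h4 hv)) hv
    _ = _ := by ring
/-- Frobenius norm of a product. -/
theorem frob_mul_le (hX : X.IsSymm) (hΩ : 0 ≤ Ω) (h4 : tr X 4 ≤ Ω ^ 4) (B : Matrix α α ℝ) :
    ∑ x, ∑ y, (X * B) x y ^ 2 ≤ Ω ^ 2 * ∑ x, ∑ y, B x y ^ 2 := by
  rw [Finset.sum_comm, Finset.sum_comm (f := fun x y => B x y ^ 2), Finset.mul_sum]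
  exact Finset.sum_le_sum fun y _ => mulVec_sq_le hX hΩ h4 fun z => B z y
theorem frob_mul_le' (hX : X.IsSymm) (hΩ : 0 ≤ Ω) (h4 : tr X 4 ≤ Ω ^ 4) (B : Matrix α α ℝ) :
    ∑ x, ∑ y, (B * X) x y ^ 2 ≤ Ω ^ 2 * ∑ x, ∑ y, B x y ^ 2 := by
  have := frob_mul_le hX hΩ h4 Bᵀ
  rw [Finset.sum_comm, Finset.sum_comm (f := fun x y => Bᵀ x y ^ 2)] at this
  have e : X * Bᵀ = (B * X)ᵀ := by rw [Matrix.transpose_mul, hX.eq]
  simpa only [e, Matrix.transpose_apply] using this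

theorem mat_pow_mulVec_sq_le (hX : X.IsSymm) (hΩ : 0 ≤ Ω) (h4 : tr X 4 ≤ Ω ^ 4) (j : ℕ)
    (v : α → ℝ) : ∑ z, ((X ^ j) *ᵥ v) z ^ 2 ≤ Ω ^ (2 * j) * ∑ z, v z ^ 2 := by
  induction j with
  | zero => simp
  | succ j ih =>
    rw [pow_succ', ← Matrix.mulVec_mulVec]
    calc _ ≤ _ := mulVec_sq_le hX hΩ h4 _
      _ ≤ Ω ^ 2 * (Ω ^ (2 * j) * ∑ z, v z ^ 2) := mul_le_mul_of_nonneg_left ih (sq_nonneg _)
      _ = _ := by ring

theorem mat_col_le (hX : X.IsSymm) (hΩ : 0 ≤ Ω) (h4 : tr X 4 ≤ Ω ^ 4) (j : ℕ) (y : α) :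
    ∑ z, pw X (j + 1) z y ^ 2 ≤ Ω ^ (2 * j) * rho X y := by
  have := mat_pow_mulVec_sq_le hX hΩ h4 j fun z => X z y
  rw [rho_eq hX]
  simp only [fun z => hX.apply z y] at this ⊢
  convert this using 3 with z
  rw [pw_add]
  simp only [Matrix.mulVec, dotProduct, pw, pow_one]

theorem pw_even_diag_le (hX : X.IsSymm) (hΩ : 0 ≤ Ω) (h4 : tr X 4 ≤ Ω ^ 4) (j : ℕ) (x : α) :
    pw X (2 * (j + 1)) x x ≤ Ω ^ (2 * j) * rho X x := by
  rw [← sum_pw_sq hX]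
  simp only [pw_symm hX (j + 1) x]
  exact mat_col_le hX hΩ h4 j x
theorem abs_pw_le (hX : X.IsSymm) (hΩ : 0 ≤ Ω) (h4 : tr X 4 ≤ Ω ^ 4) (j : ℕ) (x y : α) :
    |pw X (j + 2) x y| ≤ Ω ^ j * (Real.sqrt (rho X x) * Real.sqrt (rho X y)) := by
  have hx := rho_nonneg hX x
  have hy := rho_nonneg hX y
  refine abs_le_of_sq_le_sq ?_ (by positivity)
  rw [show j + 2 = 1 + (j + 1) by ring, pw_add, mul_pow, mul_pow, Real.sq_sqrt hx,
    Real.sq_sqrt hy]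
  refine (Finset.sum_mul_sq_le_sq_mul_sq _ _ _).trans ?_
  simp only [pw_one]
  rw [← rho_eq hX]
  calc _ ≤ rho X x * (Ω ^ (2 * j) * rho X y) :=
        mul_le_mul_of_nonneg_left (mat_col_le hX hΩ h4 j y) hx
    _ = _ := by ring
theorem abs_pw_diag_le (hX : X.IsSymm) (hΩ : 0 ≤ Ω) (h4 : tr X 4 ≤ Ω ^ 4) (j : ℕ) (x : α) :
    |pw X (j + 2) x x| ≤ Ω ^ j * rho X x := by
  have := abs_pw_le hX hΩ h4 j x x
  rwa [Real.mul_self_sqrt (rho_nonneg hX x)] at this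
theorem sum_sum_pw_sq_le (hX : X.IsSymm) (hΩ : 0 ≤ Ω) (h4 : tr X 4 ≤ Ω ^ 4) (j : ℕ) :
    ∑ x, ∑ y, pw X (j + 2) x y ^ 2 ≤ Ω ^ (2 * (j + 2)) := by
  induction j with
  | zero => exact (sum_sum_pw_sq hX 2).trans_le h4
  | succ j ih =>
    have := frob_mul_le hX hΩ h4 (X ^ (j + 2))
    rw [← pow_succ'] at this
    calc _ ≤ _ := this
      _ ≤ Ω ^ 2 * Ω ^ (2 * (j + 2)) := mul_le_mul_of_nonneg_left ih (sq_nonneg _)
      _ = _ := by ring
theorem abs_tr_five_le (hX : X.IsSymm) (hΩ : 0 ≤ Ω) (h4 : tr X 4 ≤ Ω ^ 4) :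
    |tr X 5| ≤ Ω ^ 5 := by
  refine abs_le_of_sq_le_sq ?_ (by positivity)
  have e : tr X 5 = ∑ p : α × α, pw X 2 p.1 p.2 * pw X 3 p.1 p.2 := by
    rw [tr_eq_sum, Fintype.sum_prod_type]
    refine Finset.sum_congr rfl fun x _ => ?_
    rw [show 5 = 2 + 3 from rfl, pw_add]
    exact Finset.sum_congr rfl fun y _ => by rw [pw_symm hX 3 y x]
  rw [e]
  refine (Finset.sum_mul_sq_le_sq_mul_sq _ _ _).trans ?_
  rw [Fintype.sum_prod_type, Fintype.sum_prod_type]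
  have h2 := sum_sum_pw_sq_le hX hΩ h4 0
  have h3 := sum_sum_pw_sq_le hX hΩ h4 1
  calc _ ≤ Ω ^ (2 * (0 + 2)) * Ω ^ (2 * (1 + 2)) :=
        mul_le_mul h2 h3 (by positivity) (by positivity)
    _ = _ := by ring
theorem abs_entry_le (hX : X.IsSymm) (hΩ : 0 ≤ Ω) (h4 : tr X 4 ≤ Ω ^ 4) (x y : α) :
    |X x y| ≤ Ω := by
  refine abs_le_of_sq_le_sq ?_ hΩ
  have := mulVec_sq_le hX hΩ h4 (Pi.single y 1)
  have e : ∑ z, (Pi.single y (1 : ℝ) : α → ℝ) z ^ 2 = 1 := by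
    simp [Pi.single_apply]
  rw [e, mul_one] at this
  refine le_trans ?_ this
  have := Finset.single_le_sum (f := fun z => (X *ᵥ Pi.single y (1 : ℝ)) z ^ 2)
    (fun _ _ => sq_nonneg _) (mem_univ x)
  simpa using this
set_option linter.unusedSectionVars false in
/-- A single term is at most the square root of the sum of squares. -/
theorem abs_le_sqrt_sum_sq (u : α → ℝ) (x : α) : |u x| ≤ Real.sqrt (∑ z, u z ^ 2) := by
  exact Real.abs_le_sqrt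
    (Finset.single_le_sum (f := fun z => u z ^ 2) (fun _ _ => sq_nonneg _) (mem_univ x))
/-- `2 × 2` minors of the positive semidefinite matrix `X + m`. -/
theorem entry_sq_le (hX : X.IsSymm) (hm : 0 ≤ m)
    (hp : ∀ h : α → ℝ, 0 ≤ h ⬝ᵥ (X *ᵥ h) + m * (h ⬝ᵥ h)) (z t : α) :
    X z t ^ 2 ≤ (m + |X z z|) * (m + |X t t|) := by
  by_cases hzt : z = t
  · subst hzt
    rw [← sq_abs]
    nlinarith [abs_nonneg (X z z)]
  have key : ∀ u v : ℝ, 0 ≤ (m + X z z) * (u * u) + 2 * X z t * (u * v) + (m + X t t) * (v * v) := by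
    intro u v
    have := hp (Pi.single z u + Pi.single t v)
    simp only [Matrix.mulVec_add, add_dotProduct, dotProduct_add, single_dotProduct,
      Matrix.mulVec_single, Pi.single_apply, if_neg hzt, if_neg (Ne.symm hzt), if_true,
      Pi.smul_apply, Matrix.col_apply, MulOpposite.smul_eq_mul_unop, MulOpposite.unop_op] at this
    rw [hX.apply z t] at this
    linarith
  have h1 : discrim (m + X z z) (2 * X z t) (m + X t t) ≤ 0 :=
    discrim_le_zero fun u => by have := key u 1; linarith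
  have h2 : 0 ≤ m + X z z := by have := key 1 0; linarith
  have h3 : 0 ≤ m + X t t := by have := key 0 1; linarith
  rw [discrim] at h1
  calc X z t ^ 2 ≤ (m + X z z) * (m + X t t) := by linarith
    _ ≤ _ := mul_le_mul (by linarith [le_abs_self (X z z)]) (by linarith [le_abs_self (X t t)]) h3
      (by positivity)
/-- Entrywise fourth moment. -/
theorem sum_four_le (hX : X.IsSymm) (hm : 0 ≤ m)
    (hp : ∀ h : α → ℝ, 0 ≤ h ⬝ᵥ (X *ᵥ h) + m * (h ⬝ᵥ h)) :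
    ∑ z, ∑ t, X z t ^ 4 ≤ 21 / 20 * m ^ 2 * tr X 2
      + 21 * RR X * Real.sqrt (∑ z, rho X z ^ 2) := by
  set w : α → ℝ := fun z => (m + |X z z|) ^ 2 with hw
  have h1 : ∑ z, ∑ t, X z t ^ 4 ≤ ∑ z, ∑ t, (X z t ^ 2 * w z / 2 + X z t ^ 2 * w t / 2) := by
    refine Finset.sum_le_sum fun z _ => Finset.sum_le_sum fun t _ => ?_
    have a1 := entry_sq_le hX hm hp z t
    have a2 : (m + |X z z|) * (m + |X t t|) ≤ w z / 2 + w t / 2 := by
      simp only [hw]; nlinarith [sq_nonneg ((m + |X z z|) - (m + |X t t|))]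
    have := mul_le_mul_of_nonneg_left (a1.trans a2) (sq_nonneg (X z t))
    nlinarith
  have h2 : ∑ z, ∑ t, (X z t ^ 2 * w z / 2 + X z t ^ 2 * w t / 2) = ∑ z, rho X z * w z := by
    simp only [Finset.sum_add_distrib]
    rw [Finset.sum_comm (f := fun z t => X z t ^ 2 * w t / 2), ← Finset.sum_add_distrib]
    refine Finset.sum_congr rfl fun z _ => ?_
    rw [rho_eq hX, ← Finset.sum_add_distrib, Finset.sum_mul]
    refine Finset.sum_congr rfl fun t _ => ?_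
    rw [hX.apply z t]; ring
  rw [h2] at h1
  refine h1.trans ?_
  rw [← sum_rho, RR, Finset.mul_sum, Finset.mul_sum, Finset.sum_mul, ← Finset.sum_add_distrib]
  refine Finset.sum_le_sum fun z _ => ?_
  have b1 : w z ≤ 21 / 20 * m ^ 2 + 21 * X z z ^ 2 := by
    simp only [hw]
    rw [← sq_abs (X z z)]
    nlinarith [sq_nonneg (m - 20 * |X z z|)]
  have b2 : rho X z ≤ Real.sqrt (∑ z, rho X z ^ 2) :=
    (le_abs_self _).trans (abs_le_sqrt_sum_sq (rho X) z)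
  have b3 := rho_nonneg hX z
  have b4 := mul_le_mul_of_nonneg_left b1 b3
  have b5 := mul_le_mul_of_nonneg_left b2 (sq_nonneg (X z z))
  nlinarith
theorem DD_eq (hX : X.IsSymm) (hY : Y.IsSymm) : DD X Y = ∑ x, ∑ y, (X * Y) x y ^ 2 := by
  have e : DD X Y = trace ((X * Y) * (X * Y)ᵀ) := by
    rw [DD, Matrix.transpose_mul, hX.eq, hY.eq, sq, sq, ← Matrix.mul_assoc (X * Y),
      Matrix.trace_mul_comm (X * Y * Y) X]
    simp only [Matrix.mul_assoc]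
  rw [e]
  simp only [Matrix.trace, Matrix.diag_apply, Matrix.mul_apply (M := X * Y), Matrix.transpose_apply,
    sq]
theorem DD_comm : DD X Y = DD Y X := by
  exact Matrix.trace_mul_comm _ _

theorem mat_psd (hX : X.IsSymm) (hp : ∀ h : α → ℝ, 0 ≤ h ⬝ᵥ (X *ᵥ h) + m * (h ⬝ᵥ h)) :
    (X + m • (1 : Matrix α α ℝ)).PosSemidef := by
  refine .of_dotProduct_mulVec_nonneg ?_ fun h => ?_
  · rw [Matrix.IsHermitian, Matrix.conjTranspose_eq_transpose_of_trivial, Matrix.transpose_add,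
      hX.eq, Matrix.transpose_smul, Matrix.transpose_one]
  · simpa [Matrix.add_mulVec, Matrix.smul_mulVec] using hp h

open scoped MatrixOrder in
theorem mat_trace_mul_nonneg {A B : Matrix α α ℝ} (hA : A.PosSemidef) (hB : B.PosSemidef) :
    0 ≤ trace (A * B) := by
  obtain ⟨C, rfl⟩ := CStarAlgebra.nonneg_iff_eq_star_mul_self.mp hA.nonneg
  rw [Matrix.mul_assoc, Matrix.trace_mul_comm]
  exact (hB.mul_mul_conjTranspose_same C).trace_nonneg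

/-- `tr ((X + m)(Y + m)) ≥ 0`. -/
theorem trace_mul_ge (hX : X.IsSymm) (hY : Y.IsSymm)
    (hp : ∀ h : α → ℝ, 0 ≤ h ⬝ᵥ (X *ᵥ h) + m * (h ⬝ᵥ h))
    (hq : ∀ h : α → ℝ, 0 ≤ h ⬝ᵥ (Y *ᵥ h) + m * (h ⬝ᵥ h)) :
    -(m ^ 2 * kk α) - m * (tr X 1 + tr Y 1) ≤ trace (X * Y) := by
  have := mat_trace_mul_nonneg (mat_psd hX hp) (mat_psd hY hq)
  simp only [Matrix.add_mul, Matrix.mul_add, Matrix.smul_mul, Matrix.mul_smul, Matrix.one_mul,
    Matrix.mul_one, Matrix.trace_add, Matrix.trace_smul, Matrix.trace_one, smul_eq_mul] at this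
  simp only [tr, pow_one, kk]
  linarith
/-- `tr (X (Y + m) X) ≥ 0`. -/
theorem trace_sq_mul_ge (hX : X.IsSymm)
    (hq : ∀ h : α → ℝ, 0 ≤ h ⬝ᵥ (Y *ᵥ h) + m * (h ⬝ᵥ h)) :
    -(m * tr X 2) ≤ trace (X ^ 2 * Y) := by
  have h1 : 0 ≤ ∑ x, ((X x) ⬝ᵥ (Y *ᵥ X x) + m * (X x ⬝ᵥ X x)) :=
    Finset.sum_nonneg fun x _ => hq _
  have e1 : trace (X ^ 2 * Y) = ∑ x, (X x) ⬝ᵥ (Y *ᵥ X x) := by
    rw [sq, Matrix.mul_assoc, Matrix.trace_mul_comm, Matrix.mul_assoc]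
    simp only [Matrix.trace, Matrix.diag_apply, Matrix.mul_apply, dotProduct, Matrix.mulVec]
    exact Finset.sum_congr rfl fun x _ => Finset.sum_congr rfl fun y _ => by
      congr 1
      exact Finset.sum_congr rfl fun z _ => by rw [hX.apply x z]
  have e2 : tr X 2 = ∑ x, X x ⬝ᵥ X x := by
    rw [← sum_rho]
    exact Finset.sum_congr rfl fun x _ => by rw [rho_eq hX]; simp only [dotProduct, sq]
  rw [Finset.sum_add_distrib, ← Finset.mul_sum, ← e1, ← e2] at h1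
  linarith

end Crest.Agent.R062
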