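import Crest.Agent.R062.TiltC

/-! Construction of the density on admissible pairs. -/

open Matrix Finset

namespace Crest.Agent.R062
variable {α : Type} [Fintype α] [DecidableEq α] {p : Par ℝ} {X Y : Matrix α α ℝ}

omit [DecidableEq α] in
theorem measc_sum_const (c : ℝ) : ∑ _x : α, c = kk α * c := by simp [kk]

/-- The density is built from a symmetric penalty `b`; pairs with `b < 1` are allowed. -/
theorem measc_abstract (hn : Num p (kk α)) {h : α → α → ℝ} (hh : TiltSize h) {b sz : α → α → ℝ}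
    (b0 : ∀ x y, 0 ≤ b x y) (bs : ∀ x y, b x y = b y x) (bd : ∀ x, 1 ≤ b x x)
    (s0 : ∀ x y, 0 ≤ sz x y) (sb : ∀ x y, sz x y ^ 2 ≤ 4 / 10 ^ 8 * b x y)
    (btot : ∑ x, ∑ y, b x y ≤ 3 * p.N * kk α)
    (brow : ∀ x, ∑ y, b x y ≤ p.N ^ 3 * Real.sqrt (kk α)) :
    ∃ ϱ : α → α → ℝ, Meas p ϱ h sz ∧ ∀ x y, ϱ x y ≠ 0 → b x y < 1 := by
  have hk := hn.k_pos
  have hN := hn.N_pos
  have hN14 := hn.hN
  have hsk : 0 < Real.sqrt (kk α) := Real.sqrt_pos.2 hk
  have hsq : Real.sqrt (kk α) * Real.sqrt (kk α) = kk α := Real.mul_self_sqrt hk.le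
  have hh1 : ∀ x y, 99 / 100 ≤ 1 + h x y ∧ 1 + h x y ≤ 101 / 100 := fun x y => by
    have := abs_le.1 (hh.sup x y)
    constructor <;> linarith [this.1, this.2]
  set a : α → α → ℝ := fun x y => if b x y < 1 then 1 + h x y else 0 with ha
  set Z : ℝ := ∑ x, ∑ y, a x y with hZ
  have hsumh : |∑ x, ∑ y, h x y| ≤ kk α * Real.sqrt (kk α) := by
    have := hh.bil (fun _ => 1) (fun _ => 1)
    simp only [mul_one, one_pow, pair_sum_one] at this
    rw [hsq] at this
    exact this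
  have hZ1 : Z ≤ kk α ^ 2 + kk α * Real.sqrt (kk α) := by
    have : Z ≤ ∑ x, ∑ y, (1 + h x y) := by
      refine sum_le_sum fun x _ => sum_le_sum fun y _ => ?_
      simp only [ha]
      split_ifs
      · exact le_rfl
      · linarith [(hh1 x y).1]
    simp only [sum_add_distrib, measc_sum_const, mul_one] at this
    nlinarith [(abs_le.1 hsumh).2]
  have hZ2 : kk α ^ 2 - 2 * (kk α * Real.sqrt (kk α)) ≤ Z := by
    have : ∑ x, ∑ y, (1 + h x y - 2 * b x y) ≤ Z := by
      refine sum_le_sum fun x _ => sum_le_sum fun y _ => ?_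
      simp only [ha]
      split_ifs with hb
      · linarith [b0 x y]
      · linarith [(hh1 x y).2, not_lt.1 hb]
    simp only [sum_sub_distrib, sum_add_distrib, measc_sum_const, mul_one, ← mul_sum] at this
    have h3 : 6 * p.N * kk α ≤ kk α * Real.sqrt (kk α) := by lognum hn
    nlinarith [(abs_le.1 hsumh).1]
  have hsk1 : 10000 ≤ Real.sqrt (kk α) := by lognum hn
  have hZ3 : 2 / 3 * kk α ^ 2 ≤ Z := by
    have : 6 * (kk α * Real.sqrt (kk α)) ≤ kk α ^ 2 := by lognum hn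
    linarith
  have hZ0 : 0 < Z := lt_of_lt_of_le (by positivity) hZ3
  set κ : ℝ := kk α ^ 2 / Z with hκ
  have hκ0 : 0 < κ := by positivity
  set ε : ℝ := 3 / Real.sqrt (kk α) with hε
  have hε0 : 0 < ε := by positivity
  have hε1 : ε ≤ 1 / 1000 := by
    rw [hε, div_le_iff₀ hsk]; linarith
  have hε2 : ε ^ 2 = 9 / kk α := by
    rw [hε, div_pow, Real.sq_sqrt hk.le]; norm_num
  have hκ1 : |κ - 1| ≤ ε := by
    rw [hκ, div_sub_one hZ0.ne', abs_div, abs_of_pos hZ0, div_le_iff₀ hZ0]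
    have e : ε * (2 / 3 * kk α ^ 2) = 2 * (kk α * Real.sqrt (kk α)) := by
      rw [hε]; field_simp; nlinarith
    have := mul_le_mul_of_nonneg_left hZ3 hε0.le
    have h4 : 0 ≤ kk α * Real.sqrt (kk α) := by positivity
    rw [abs_le]; constructor <;> linarith
  have hne : ∀ x y, κ * a x y ≠ 0 → b x y < 1 := by
    intro x y h0
    by_contra hb
    simp only [ha, if_neg hb, mul_zero, ne_eq, not_true_eq_false] at h0
  have hsz : ∀ x y, b x y < 1 → sz x y ≤ 2 / 10 ^ 4 := by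
    intro x y hb
    refine abs_le_of_sq_le_sq' ?_ (by norm_num) |>.2
    have := sb x y
    nlinarith
  refine ⟨fun x y => κ * a x y, ⟨?_, ?_, ?_, ?_⟩, hne⟩
  · simp only [← mul_sum]
    rw [← hZ, hκ, div_mul_cancel₀ _ hZ0.ne']
  · intro x y
    simp only [ha, bs x y, hh.symm x y]
  · intro x y h0
    have hb := hne x y h0
    refine ⟨?_, s0 x y, by linarith [hsz x y hb]⟩
    rintro rfl
    linarith [bd x]
  · intro ω hω
    have key : ∀ x y, 0 ≤ κ * a x y * ω x y ∧ κ * a x y * ω x y ≤ 21 / 20 ∧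
        (κ * a x y * ω x y - 1 - h x y) ^ 2 ≤ 27 / kk α + 2 * b x y := by
      intro x y
      obtain ⟨g1, g2⟩ := hh1 x y
      have g0 : 0 < 27 / kk α := by positivity
      by_cases hb : b x y < 1
      · have ea : a x y = 1 + h x y := by simp only [ha, if_pos hb]
        have h0 : κ * a x y ≠ 0 := by rw [ea]; positivity
        have w1 := hω x y h0
        have w2 := hsz x y hb
        have w3 := s0 x y
        obtain ⟨w4, w5⟩ := abs_le.1 w1
        obtain ⟨k4, k5⟩ := abs_le.1 hκ1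
        have w6 : 0 ≤ ω x y := by linarith
        have w7 : ω x y ≤ 1006 / 1000 := by linarith
        rw [ea]
        refine ⟨by positivity, ?_, ?_⟩
        · have t1 : κ * (1 + h x y) ≤ 1001 / 1000 * (101 / 100) :=
            mul_le_mul (by linarith) g2 (by linarith) (by norm_num)
          have t2 := mul_le_mul t1 w7 w6 (by norm_num)
          linarith
        · have e : κ * (1 + h x y) * ω x y - 1 - h x y =
              (1 + h x y) * ((κ - 1) * ω x y + (ω x y - 1)) := by ring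
          have t1 : ((κ - 1) * ω x y) ^ 2 ≤ ε ^ 2 * (1006 / 1000) ^ 2 := by
            rw [mul_pow]
            exact mul_le_mul (sq_le_sq' k4 k5) (pow_le_pow_left₀ w6 w7 2) (by positivity)
              (by positivity)
          have t2 : (ω x y - 1) ^ 2 ≤ (30 * sz x y) ^ 2 := sq_le_sq' w4 w5
          have t3 : ((κ - 1) * ω x y + (ω x y - 1)) ^ 2 ≤
              2 * ((κ - 1) * ω x y) ^ 2 + 2 * (ω x y - 1) ^ 2 := by
            nlinarith [sq_nonneg ((κ - 1) * ω x y - (ω x y - 1))]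
          have t4 : (1 + h x y) ^ 2 ≤ (101 / 100) ^ 2 := pow_le_pow_left₀ (by linarith) g2 2
          have t5 := mul_le_mul t4 t3 (sq_nonneg _) (by norm_num)
          have t6 := sb x y
          have t7 := b0 x y
          have t8 : 27 / kk α = 3 * ε ^ 2 := by rw [hε2]; ring
          rw [e, mul_pow, t8]
          nlinarith [sq_nonneg ε]
      · have ea : a x y = 0 := by simp only [ha, if_neg hb]
        rw [ea, mul_zero, zero_mul]
        refine ⟨le_rfl, by norm_num, ?_⟩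
        have := not_lt.1 hb
        nlinarith
    have tot : ∑ x, ∑ y, (κ * a x y * ω x y - 1 - h x y) ^ 2 ≤ (p.Ups (kk α) / 2) ^ 2 := by
      refine (sum_le_sum fun x _ => sum_le_sum fun y _ => (key x y).2.2).trans ?_
      simp only [sum_add_distrib, measc_sum_const, ← mul_sum]
      have l27 := logc (c := 27) 5 (by norm_num) (by norm_num)
      have h3 : kk α * (kk α * (27 / kk α)) + 2 * (3 * p.N * kk α) ≤ (p.Ups (kk α) / 2) ^ 2 := by
        obtain ⟨_, _⟩ := l27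
        push_cast at *
        lognum hn
      linarith
    have hU := hn.Ups_pos
    have frob : ∀ Θ : α → α → ℝ, |∑ x, ∑ y, (κ * a x y * ω x y - 1 - h x y) * Θ x y|
        ≤ p.Ups (kk α) / 2 * Real.sqrt (∑ x, ∑ y, Θ x y ^ 2) := by
      intro Θ
      refine (pair_cs2 _ Θ).trans (mul_le_mul_of_nonneg_right ?_ (Real.sqrt_nonneg _))
      exact Real.sqrt_le_iff.2 ⟨by positivity, tot⟩
    have key2 : ∀ x y, (κ * a x y * ω x y - 1) ^ 2 ≤ 54 / kk α + 4 * b x y + 2 * h x y ^ 2 := by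
      intro x y
      have t1 := (key x y).2.2
      have t2 : 54 / kk α = 2 * (27 / kk α) := by ring
      nlinarith [sq_nonneg (κ * a x y * ω x y - 1 - h x y - h x y)]
    have hrow : kk α * (54 / kk α) + 4 * (p.N ^ 3 * Real.sqrt (kk α)) + 2 * Real.sqrt (kk α) ≤
        p.Row (kk α) := by
      obtain ⟨_, _⟩ := logc (c := 54) 6 (by norm_num) (by norm_num)
      push_cast at *
      lognum hn
    refine ⟨fun x y => (key x y).1, fun x y => (key x y).2.1, fun Θ => (frob Θ).trans ?_,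
      fun u v => ?_, fun x => ?_, fun y => ?_⟩
    · exact mul_le_mul_of_nonneg_right (by linarith) (Real.sqrt_nonneg _)
    · have e : ∑ x, ∑ y, (κ * a x y * ω x y - 1) * (u x * v y) =
          ∑ x, ∑ y, (κ * a x y * ω x y - 1 - h x y) * (u x * v y) +
            ∑ x, ∑ y, h x y * (u x * v y) := by
        simp only [← sum_add_distrib]
        refine sum_congr rfl fun x _ => sum_congr rfl fun y _ => by ring
      have f1 := frob fun x y => u x * v y
      have e2 : Real.sqrt (∑ x, ∑ y, (u x * v y) ^ 2) =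
          Real.sqrt (∑ x, u x ^ 2) * Real.sqrt (∑ y, v y ^ 2) := by
        rw [← Real.sqrt_mul (sum_nonneg fun _ _ => sq_nonneg _), sum_mul_sum]
        simp only [mul_pow]
      rw [e2] at f1
      have f2 := hh.bil u v
      have f3 : Real.sqrt (kk α) ≤ p.Ups (kk α) / 2 := by lognum hn
      have f4 : 0 ≤ Real.sqrt (∑ x, u x ^ 2) * Real.sqrt (∑ y, v y ^ 2) := by positivity
      have f5 := mul_le_mul_of_nonneg_right f3 f4
      rw [e]
      refine (abs_add_le _ _).trans ?_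
      rw [mul_assoc] at f2 ⊢
      linarith
    · refine (sum_le_sum fun y _ => key2 x y).trans ?_
      simp only [sum_add_distrib, measc_sum_const, ← mul_sum]
      linarith [brow x, hh.row x]
    · refine (sum_le_sum fun x _ => key2 x y).trans ?_
      simp only [sum_add_distrib, measc_sum_const, ← mul_sum, fun x => bs x y,
        fun x => hh.symm x y]
      linarith [brow y, hh.row y]

/-- The penalty of one matrix. -/
noncomputable def measc_g (p : Par ℝ) (X : Matrix α α ℝ) (s : ℝ) (x y : α) : ℝ :=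
  10 ^ 8 * (ch X s x y ^ 2 + (ah X s x * ah X s y) ^ 2) + J1 X s x y ^ 2 / p.L (kk α) ^ 2

theorem measc_g_nonneg (p : Par ℝ) (X : Matrix α α ℝ) (s : ℝ) (x y : α) :
    0 ≤ measc_g p X s x y := by unfold measc_g; positivity

theorem measc_g_symm (hX : X.IsSymm) (s : ℝ) (x y : α) :
    measc_g p X s x y = measc_g p X s y x := by
  unfold measc_g ch J1
  rw [hX.apply x y, pw_symm hX 2 x y, mul_comm (ah X s x) (ah X s y)]
  ring

theorem measc_J1_sq (X : Matrix α α ℝ) (s : ℝ) (x y : α) : J1 X s x y ^ 2 ≤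
    5 * (pw X 2 x y ^ 2 + X x x ^ 2 + X y y ^ 2 + rho X x ^ 2 * ah X s y ^ 2 +
      ah X s x ^ 2 * rho X y ^ 2) := by
  unfold J1
  rw [← sq_abs (pw X 2 x y), ← sq_abs (X x x), ← sq_abs (X y y), ← sq_abs (ah X s y),
    ← sq_abs (ah X s x), ← mul_pow, ← mul_pow, mul_comm |ah X s x|]
  generalize |pw X 2 x y| = a
  generalize |X x x| = b
  generalize |X y y| = c
  generalize rho X x * |ah X s y| = d
  generalize rho X y * |ah X s x| = e
  nlinarith [sq_nonneg (a - b), sq_nonneg (a - c), sq_nonneg (a - d), sq_nonneg (a - e),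
    sq_nonneg (b - c), sq_nonneg (b - d), sq_nonneg (b - e), sq_nonneg (c - d), sq_nonneg (c - e),
    sq_nonneg (d - e)]

theorem measc_g_row0 (hn : Num p (kk α)) (hX : Sys p X) (s : ℝ) (x : α) :
    ∑ y, measc_g p X s x y ≤
      10 ^ 8 * (∑ y, ch X s x y ^ 2 + ah X s x ^ 2 * ∑ y, ah X s y ^ 2) +
      5 * (pw X 4 x x + kk α * X x x ^ 2 + RR X + rho X x ^ 2 * ∑ y, ah X s y ^ 2 +
        ah X s x ^ 2 * ∑ y, rho X y ^ 2) / p.L (kk α) ^ 2 := by
  have hL := hn.L_pos
  unfold measc_g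
  rw [sum_add_distrib, ← sum_div]
  refine add_le_add (le_of_eq ?_) (div_le_div_of_nonneg_right ?_ (by positivity))
  · simp only [← mul_sum, sum_add_distrib, mul_pow]
  · refine (sum_le_sum fun y _ => measc_J1_sq X s x y).trans (le_of_eq ?_)
    simp only [← mul_sum, sum_add_distrib, measc_sum_const, sum_pw_sq hX.symm, RR]

theorem measc_g_row (hn : Num p (kk α)) (hX : Sys p X) {s : ℝ} (hs : s = 1 ∨ s = -1) (x : α) :
    ∑ y, measc_g p X s x y ≤ p.N ^ 3 * Real.sqrt (kk α) / 4 := by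
  obtain ⟨hN, -, -, hk, -, hF, -, hOm, -⟩ := hn.poss
  have hL := hn.L_pos
  have h1 := hX.ch_sq_row hn hs x
  have h2 := hX.rho_le hn x
  have h2' := rho_nonneg hX.symm x
  have h3 := hX.ah_sq_le hn hs x
  have h4 := hX.Rh_le hn hs
  have h5 := hX.Q_le hn
  have h6 := hX.R_le hn
  have h7 := hX.diag_sq_le hn x
  have h8 : pw X 4 x x ≤ p.Om (kk α) ^ 2 * rho X x :=
    pw_even_diag_le hX.symm hOm.le (hX.t4_le hn) 1 x
  have h9 : rho X x ^ 2 ≤ p.N ^ 4 * kk α * p.F (kk α) :=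
    (single_le_sum (f := fun z => rho X z ^ 2) (fun _ _ => sq_nonneg _) (mem_univ x)).trans h5
  have s1 : 0 ≤ ∑ y, ah X s y ^ 2 := sum_nonneg fun _ _ => sq_nonneg _
  have s2 : 0 ≤ ∑ y, rho X y ^ 2 := sum_nonneg fun _ _ => sq_nonneg _
  set S := Real.sqrt (p.N ^ 4 * kk α * p.F (kk α)) with hS
  have a1 : 10 ^ 8 * (∑ y, ch X s x y ^ 2 + ah X s x ^ 2 * ∑ y, ah X s y ^ 2) ≤
      10 ^ 8 * (2 * S + 2 / kk α + (p.N ^ 41 * p.F (kk α)) * (p.N ^ 41 * p.F (kk α))) := by
    have := mul_le_mul h3 h4 s1 (by positivity)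
    linarith
  have a2 : 5 * (pw X 4 x x + kk α * X x x ^ 2 + RR X + rho X x ^ 2 * ∑ y, ah X s y ^ 2 +
        ah X s x ^ 2 * ∑ y, rho X y ^ 2) / p.L (kk α) ^ 2 ≤
      5 * (p.Om (kk α) ^ 2 * S + kk α * (p.N ^ 40 * p.F (kk α)) + p.N ^ 40 * p.F (kk α) +
        (p.N ^ 4 * kk α * p.F (kk α)) * (p.N ^ 41 * p.F (kk α)) +
        (p.N ^ 41 * p.F (kk α)) * (p.N ^ 4 * kk α * p.F (kk α))) / p.L (kk α) ^ 2 := by
    refine div_le_div_of_nonneg_right ?_ (by positivity)
    have b1 := mul_le_mul h9 h4 s1 (by positivity)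
    have b2 := mul_le_mul h3 h5 s2 (by positivity)
    have b3 := mul_le_mul_of_nonneg_left h2 (sq_nonneg (p.Om (kk α)))
    have b4 := mul_le_mul_of_nonneg_left h7 hk.le
    linarith
  have a3 : 10 ^ 8 * (2 * S) + 10 ^ 8 * (2 / kk α) +
      10 ^ 8 * ((p.N ^ 41 * p.F (kk α)) * (p.N ^ 41 * p.F (kk α))) ≤
      p.N ^ 3 * Real.sqrt (kk α) / 8 := by
    rw [hS]; lognum hn
  have a4 : 5 * (p.Om (kk α) ^ 2 * S) / p.L (kk α) ^ 2 +
      5 * (kk α * (p.N ^ 40 * p.F (kk α))) / p.L (kk α) ^ 2 +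
      5 * (p.N ^ 40 * p.F (kk α)) / p.L (kk α) ^ 2 +
      5 * ((p.N ^ 4 * kk α * p.F (kk α)) * (p.N ^ 41 * p.F (kk α))) / p.L (kk α) ^ 2 +
      5 * ((p.N ^ 41 * p.F (kk α)) * (p.N ^ 4 * kk α * p.F (kk α))) / p.L (kk α) ^ 2 ≤
      p.N ^ 3 * Real.sqrt (kk α) / 8 := by
    rw [hS]; lognum hn
  refine (measc_g_row0 hn hX s x).trans ((add_le_add a1 a2).trans ?_)
  simp only [mul_add, add_div]
  linarith

theorem measc_g_tot (hn : Num p (kk α)) (hX : Sys p X) {s : ℝ} (hs : s = 1 ∨ s = -1) :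
    ∑ x, ∑ y, measc_g p X s x y ≤ p.N * kk α / 4 := by
  obtain ⟨hN, -, -, hk, -, hF, -, hOm, -⟩ := hn.poss
  have hL := hn.L_pos
  have h1 := hX.ch_sq_sum hn hs
  have h2 := hX.f_le_k hn
  have h4 := hX.Rh_le hn hs
  have h5 := hX.Q_le hn
  have h6 := hX.R_le hn
  have h8 := hX.t4_le hn
  have s1 : 0 ≤ ∑ y, ah X s y ^ 2 := sum_nonneg fun _ _ => sq_nonneg _
  have s2 : 0 ≤ ∑ y, rho X y ^ 2 := sum_nonneg fun _ _ => sq_nonneg _
  refine (sum_le_sum fun x _ => measc_g_row0 hn hX s x).trans ?_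
  rw [sum_add_distrib, ← sum_div]
  simp only [← mul_sum, sum_add_distrib, ← sum_mul, measc_sum_const, ← tr_eq_sum]
  have a1 : 10 ^ 8 * (∑ x, ∑ y, ch X s x y ^ 2 + (∑ y, ah X s y ^ 2) * ∑ y, ah X s y ^ 2) ≤
      10 ^ 8 * (2 * kk α + 2 + (p.N ^ 41 * p.F (kk α)) * (p.N ^ 41 * p.F (kk α))) := by
    have := mul_le_mul h4 h4 s1 (by positivity)
    linarith
  have a2 : 5 * (tr X 4 + kk α * ∑ x, X x x ^ 2 + kk α * RR X +
        (∑ x, rho X x ^ 2) * ∑ y, ah X s y ^ 2 +
        (∑ y, ah X s y ^ 2) * ∑ y, rho X y ^ 2) / p.L (kk α) ^ 2 ≤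
      5 * (p.Om (kk α) ^ 4 + kk α * (p.N ^ 40 * p.F (kk α)) + kk α * (p.N ^ 40 * p.F (kk α)) +
        (p.N ^ 4 * kk α * p.F (kk α)) * (p.N ^ 41 * p.F (kk α)) +
        (p.N ^ 41 * p.F (kk α)) * (p.N ^ 4 * kk α * p.F (kk α))) / p.L (kk α) ^ 2 := by
    refine div_le_div_of_nonneg_right ?_ (by positivity)
    have b1 := mul_le_mul h5 h4 s1 (by positivity)
    have b2 := mul_le_mul h4 h5 s2 (by positivity)
    have b4 := mul_le_mul_of_nonneg_left h6 hk.le
    have b5 : kk α * ∑ x, X x x ^ 2 = kk α * RR X := rfl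
    linarith
  have a3 : 10 ^ 8 * (2 * kk α) + 10 ^ 8 * 2 +
      10 ^ 8 * ((p.N ^ 41 * p.F (kk α)) * (p.N ^ 41 * p.F (kk α))) ≤ p.N * kk α / 8 := by
    lognum hn
  have a4 : 5 * (p.Om (kk α) ^ 4) / p.L (kk α) ^ 2 +
      5 * (kk α * (p.N ^ 40 * p.F (kk α))) / p.L (kk α) ^ 2 +
      5 * (kk α * (p.N ^ 40 * p.F (kk α))) / p.L (kk α) ^ 2 +
      5 * ((p.N ^ 4 * kk α * p.F (kk α)) * (p.N ^ 41 * p.F (kk α))) / p.L (kk α) ^ 2 +
      5 * ((p.N ^ 41 * p.F (kk α)) * (p.N ^ 4 * kk α * p.F (kk α))) / p.L (kk α) ^ 2 ≤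
      p.N * kk α / 8 := by
    lognum hn
  refine (add_le_add a1 a2).trans ?_
  simp only [mul_add, add_div]
  linarith

theorem measc_J1_le (hn : Num p (kk α)) (X : Matrix α α ℝ) (s : ℝ) (x y : α)
    (h : measc_g p X s x y ≤ 1) : J1 X s x y ≤ p.L (kk α) := by
  have hL := hn.L_pos
  have h1 : J1 X s x y ^ 2 / p.L (kk α) ^ 2 ≤ 1 := by
    unfold measc_g at h
    have : 0 ≤ 10 ^ 8 * (ch X s x y ^ 2 + (ah X s x * ah X s y) ^ 2) := by positivity
    linarith
  rw [div_le_one (by positivity)] at h1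
  exact (abs_le_of_sq_le_sq' h1 hL.le).2

theorem exists_meas (hn : Num p (kk α)) (hX : Sys p X) (hY : Sys p Y) {h : α → α → ℝ}
    (hh : TiltSize h) (forb : α → α → Prop) [DecidableRel forb]
    (hsymm : ∀ x y, forb x y → forb y x)
    (hcount : ∀ x, ((univ.filter (forb x)).card : ℝ) ≤ p.N) :
    ∃ ϱ sz : α → α → ℝ, Meas p ϱ h sz ∧ Adm p ϱ sz X 1 ∧ Adm p ϱ sz Y (-1) ∧
      ∀ x y, ϱ x y ≠ 0 → ¬ forb x y := by
  set b : α → α → ℝ := fun x y => (if x = y then 1 else 0) + (if forb x y then 1 else 0) +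
    measc_g p X 1 x y + measc_g p Y (-1) x y with hb
  set sz : α → α → ℝ := fun x y => |ch X 1 x y| + |ah X 1 x * ah X 1 y| +
    (|ch Y (-1) x y| + |ah Y (-1) x * ah Y (-1) y|) with hsz
  have i1 : ∀ x y : α, (0 : ℝ) ≤ if x = y then 1 else 0 := fun x y => by positivity
  have i2 : ∀ x y : α, (0 : ℝ) ≤ if forb x y then 1 else 0 := fun x y => by positivity
  have g1 := measc_g_nonneg p X 1
  have g2 := measc_g_nonneg p Y (-1)
  have hrow : ∀ x, ∑ y, b x y ≤
      1 + p.N + ∑ y, measc_g p X 1 x y + ∑ y, measc_g p Y (-1) x y := by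
    intro x
    simp only [hb, sum_add_distrib, sum_ite_eq, mem_univ, if_true, sum_boole]
    linarith [hcount x]
  obtain ⟨ϱ, hm, hϱ⟩ := measc_abstract hn hh (b := b) (sz := sz)
    (fun x y => by simp only [hb]; linarith [i1 x y, i2 x y, g1 x y, g2 x y])
    (fun x y => by
      simp only [hb, measc_g_symm hX.symm 1 x y, measc_g_symm hY.symm (-1) x y, eq_comm (a := x),
        show forb x y ↔ forb y x from ⟨hsymm x y, hsymm y x⟩])
    (fun x => by simp only [hb, if_true]; linarith [i2 x x, g1 x x, g2 x x])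
    (fun x y => by simp only [hsz]; positivity)
    (fun x y => by
      have t1 : 0 ≤ J1 X 1 x y ^ 2 / p.L (kk α) ^ 2 := by positivity
      have t2 : 0 ≤ J1 Y (-1) x y ^ 2 / p.L (kk α) ^ 2 := by positivity
      have t3 := i1 x y
      have t4 := i2 x y
      simp only [hsz, hb, measc_g]
      rw [← sq_abs (ch X 1 x y), ← sq_abs (ah X 1 x * ah X 1 y), ← sq_abs (ch Y (-1) x y),
        ← sq_abs (ah Y (-1) x * ah Y (-1) y)]
      generalize |ch X 1 x y| = a
      generalize |ah X 1 x * ah X 1 y| = c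
      generalize |ch Y (-1) x y| = d
      generalize |ah Y (-1) x * ah Y (-1) y| = e
      nlinarith [sq_nonneg (a - c), sq_nonneg (a - d), sq_nonneg (a - e), sq_nonneg (c - d),
        sq_nonneg (c - e), sq_nonneg (d - e)])
    (by
      refine (sum_le_sum fun x _ => hrow x).trans ?_
      simp only [sum_add_distrib, measc_sum_const]
      have t1 := measc_g_tot hn hX (Or.inl rfl)
      have t2 := measc_g_tot hn hY (Or.inr rfl)
      have t3 := mul_le_mul_of_nonneg_left hn.one_le_N hn.k_pos.le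
      have t4 := mul_pos hn.k_pos hn.N_pos
      nlinarith)
    (fun x => by
      have t1 := measc_g_row hn hX (Or.inl rfl) x
      have t2 := measc_g_row hn hY (Or.inr rfl) x
      have t3 : 1 + p.N ≤ p.N ^ 3 * Real.sqrt (kk α) / 2 := by lognum hn
      linarith [hrow x])
  refine ⟨ϱ, sz, hm, fun x y h0 => ⟨?_, measc_J1_le hn X 1 x y ?_⟩,
    fun x y h0 => ⟨?_, measc_J1_le hn Y (-1) x y ?_⟩, fun x y h0 hf => ?_⟩
  · simp only [hsz]
    linarith [abs_nonneg (ch Y (-1) x y), abs_nonneg (ah Y (-1) x * ah Y (-1) y)]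
  · have := hϱ x y h0
    simp only [hb] at this
    linarith [i1 x y, i2 x y, g2 x y]
  · simp only [hsz]
    linarith [abs_nonneg (ch X 1 x y), abs_nonneg (ah X 1 x * ah X 1 y)]
  · have := hϱ x y h0
    simp only [hb] at this
    linarith [i1 x y, i2 x y, g1 x y]
  · have := hϱ x y h0
    simp only [hb, if_pos hf] at this
    linarith [i1 x y, g1 x y, g2 x y]

end Crest.Agent.R062
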