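import Crest.Agent.R062.Bounds
import Crest.Agent.R062.Ident

/-! Second and fourth moments of the increments `el1, el2, el3`. -/

open Matrix Finset

namespace Crest.Agent.R062
variable {α : Type} [Fintype α] [DecidableEq α] {p : Par ℝ} {ϱ h sz : α → α → ℝ}
  {X : Matrix α α ℝ} {s : ℝ}

theorem mom_sq_add {u v A B : ℝ} (hu : u ^ 2 ≤ A) (hv : v ^ 2 ≤ B) : (u + v) ^ 2 ≤ 2 * (A + B) := by
  nlinarith [sq_nonneg (u - v)]

theorem mom_sq_sub {u v A B : ℝ} (hu : u ^ 2 ≤ A) (hv : v ^ 2 ≤ B) : (u - v) ^ 2 ≤ 2 * (A + B) := by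
  nlinarith [sq_nonneg (u + v)]

theorem mom_sq_mul {u v A B : ℝ} (hu : u ^ 2 ≤ A) (hv : v ^ 2 ≤ B) : (u * v) ^ 2 ≤ A * B := by
  rw [mul_pow]
  exact mul_le_mul hu hv (sq_nonneg _) ((sq_nonneg _).trans hu)

theorem mom_sq_s {s : ℝ} (hs : s ^ 2 = 1) (u v : ℝ) : (u - s * v) ^ 2 ≤ 2 * (u ^ 2 + v ^ 2) :=
  mom_sq_sub le_rfl (by rw [mul_pow, hs, one_mul])

theorem mom_sq_seven {a b c d e f g : ℝ} :
    (a + b + c + d + e + f + g) ^ 2 ≤
      64 * (a ^ 2 + b ^ 2 + c ^ 2 + d ^ 2 + e ^ 2 + f ^ 2 + g ^ 2) := by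
  have h := mom_sq_add (mom_sq_add (mom_sq_add (mom_sq_add (mom_sq_add (mom_sq_add
    (le_refl (a ^ 2)) (le_refl (b ^ 2))) (le_refl (c ^ 2))) (le_refl (d ^ 2))) (le_refl (e ^ 2)))
    (le_refl (f ^ 2))) (le_refl (g ^ 2))
  linarith [sq_nonneg a, sq_nonneg b, sq_nonneg c, sq_nonneg d, sq_nonneg e, sq_nonneg f,
    sq_nonneg g]

theorem mom_dN {s : ℝ} (hs : s ^ 2 = 1) (i j : ℕ) (x y : α) :
    dN X s i j x y ^ 2 ≤ 8 * ((pw X (i + 2) x x ^ 2 + pw X (i + 1) x y ^ 2) *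
        (pw X (j + 2) y y ^ 2 + pw X (j + 1) x y ^ 2) +
      (pw X (i + 2) x y ^ 2 + pw X (i + 1) x x ^ 2) *
        (pw X (j + 2) x y ^ 2 + pw X (j + 1) y y ^ 2)) :=
  (mom_sq_sub (mom_sq_mul (mom_sq_s hs _ _) (mom_sq_s hs _ _))
    (mom_sq_mul (mom_sq_s hs _ _) (mom_sq_s hs _ _))).trans_eq (by ring)

namespace Ctx
variable (c : Ctx p ϱ h sz X s)
include c

theorem piv {x y : α} (hxy : ϱ x y ≠ 0) : Piv X s x y :=
  ⟨c.sys.symm, c.sys.rowsum, c.sgn, c.ne hxy, (c.Del_pos hxy).ne',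
    lt_of_lt_of_le (by norm_num) c.num.k_big⟩

theorem mom_trC (i : ℕ) {x y : α} (hxy : ϱ x y ≠ 0) :
    trC X s i x y ^ 2 ≤ 64 * (pw X (i + 2) x y ^ 2 + pw X (i + 1) x x ^ 2 + pw X (i + 1) y y ^ 2 +
      (pw X (i + 2) x x ^ 2 + pw X (i + 1) x y ^ 2) * ah X s y ^ 2 +
      (pw X (i + 2) y y ^ 2 + pw X (i + 1) x y ^ 2) * ah X s x ^ 2) := by
  have h1 : eta X s x y ^ 2 ≤ 2 := by
    have := c.abs_eta_le hxy
    rw [← sq_abs]
    nlinarith [abs_nonneg (eta X s x y)]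
  have h2 : e11 X s x y ^ 2 ≤ 2 * ah X s y ^ 2 := by
    have := c.abs_e11_le hxy
    rw [← sq_abs, ← sq_abs (ah X s y)]
    nlinarith [abs_nonneg (e11 X s x y), abs_nonneg (ah X s y)]
  have h3 : e22 X s x y ^ 2 ≤ 2 * ah X s x ^ 2 := by
    have := c.abs_e22_le hxy
    rw [← sq_abs, ← sq_abs (ah X s x)]
    nlinarith [abs_nonneg (e22 X s x y), abs_nonneg (ah X s x)]
  have h4 := mom_sq_add (le_refl (pw X (i + 1) x x ^ 2)) (le_refl (pw X (i + 1) y y ^ 2))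
  have h5 := mom_sq_s c.s_sq (2 * pw X (i + 2) x y) (pw X (i + 1) x x + pw X (i + 1) y y)
  have h6 : (2 * pw X (i + 2) x y - s * (pw X (i + 1) x x + pw X (i + 1) y y)) ^ 2 ≤
      8 * (pw X (i + 2) x y ^ 2 + pw X (i + 1) x x ^ 2 + pw X (i + 1) y y ^ 2) := by
    linarith [sq_nonneg (pw X (i + 1) x x), sq_nonneg (pw X (i + 1) y y)]
  have h7 := mom_sq_add (mom_sq_add (mom_sq_mul h1 h6)
    (mom_sq_mul (mom_sq_s c.s_sq (pw X (i + 2) x x) (pw X (i + 1) x y)) h2))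
    (mom_sq_mul (mom_sq_s c.s_sq (pw X (i + 2) y y) (pw X (i + 1) x y)) h3)
  refine h7.trans ?_
  have h8 : 0 ≤ (pw X (i + 2) x x ^ 2 + pw X (i + 1) x y ^ 2) * ah X s y ^ 2 := by positivity
  have h9 : 0 ≤ (pw X (i + 2) y y ^ 2 + pw X (i + 1) x y ^ 2) * ah X s x ^ 2 := by positivity
  linarith

theorem mom_div {x y : α} (hxy : ϱ x y ≠ 0) (u : ℝ) : (u / Del X s x y) ^ 2 ≤ 2 * u ^ 2 := by
  have h := c.Del_ge hxy
  have h1 : 1 ≤ 2 * Del X s x y ^ 2 := by nlinarith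
  rw [div_pow, div_le_iff₀ (by positivity)]
  nlinarith [sq_nonneg u]

theorem mom_c_sq {x y : α} (hxy : ϱ x y ≠ 0) : X x y ^ 2 ≤ 1 := by
  have := c.abs_c_le hxy
  rw [← sq_abs]
  nlinarith [abs_nonneg (X x y)]

theorem mom_diag (j : ℕ) (x : α) :
    pw X (j + 2) x x ^ 2 ≤ p.Om (kk α) ^ (2 * j) * rho X x ^ 2 := by
  have h := abs_pw_diag_le c.sys.symm c.num.Om_pos.le (c.sys.t4_le c.num) j x
  rw [← sq_abs]
  exact (pow_le_pow_left₀ (abs_nonneg _) h 2).trans_eq (by ring)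

theorem mom_c2_four (x y : α) : (pw X 2 x y ^ 2) ^ 2 ≤ rho X x ^ 2 * rho X y ^ 2 := by
  have h := abs_pw_le c.sys.symm c.num.Om_pos.le (c.sys.t4_le c.num) 0 x y
  have h1 := pow_le_pow_left₀ (abs_nonneg _) h 2
  rw [sq_abs, pow_zero, one_mul, mul_pow, Real.sq_sqrt (rho_nonneg c.sys.symm x),
    Real.sq_sqrt (rho_nonneg c.sys.symm y)] at h1
  rw [← mul_pow]
  exact pow_le_pow_left₀ (sq_nonneg _) h1 2

theorem mom_cap {x y : α} (hxy : ϱ x y ≠ 0) : pw X 2 x y ^ 2 ≤ p.L (kk α) ^ 2 ∧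
    rho X x ^ 2 * ah X s y ^ 2 ≤ p.L (kk α) ^ 2 ∧ ah X s x ^ 2 * rho X y ^ 2 ≤ p.L (kk α) ^ 2 := by
  have h := c.J1_le hxy
  have h1 := mul_nonneg (rho_nonneg c.sys.symm x) (abs_nonneg (ah X s y))
  have h2 := mul_nonneg (rho_nonneg c.sys.symm y) (abs_nonneg (ah X s x))
  have h3 := abs_nonneg (pw X 2 x y)
  have h4 := abs_nonneg (X x x)
  have h5 := abs_nonneg (X y y)
  unfold J1 at h
  refine ⟨?_, ?_, ?_⟩
  · rw [← sq_abs]
    exact pow_le_pow_left₀ h3 (by linarith) 2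
  · rw [← sq_abs (ah X s y), ← mul_pow]
    exact pow_le_pow_left₀ h1 (by linarith) 2
  · rw [← sq_abs (ah X s x), mul_comm, ← mul_pow]
    exact pow_le_pow_left₀ h2 (by linarith) 2

theorem mom_diag_K (x : α) : X x x ^ 2 ≤ p.N ^ 41 * p.F (kk α) :=
  (c.sys.diag_sq_le c.num x).trans (mul_le_mul_of_nonneg_right
    (pow_le_pow_right₀ c.num.one_le_N (by norm_num)) c.num.F_pos.le)

theorem mom_Ec (j : ℕ) : Ex ϱ (fun x y => pw X (j + 2) x y ^ 2) ≤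
    21 / 20 * p.Om (kk α) ^ (2 * (j + 2)) / kk α ^ 2 := by
  refine (c.nu.Ex_le_unif fun _ _ => sq_nonneg _).trans ?_
  have := sum_sum_pw_sq_le c.sys.symm c.num.Om_pos.le (c.sys.t4_le c.num) j
  gcongr

theorem mom_Ec1 : Ex ϱ (fun x y => X x y ^ 2) ≤
    21 / 20 * (p.N * kk α * p.F (kk α)) / kk α ^ 2 := by
  refine (c.nu.Ex_le_unif fun _ _ => sq_nonneg _).trans ?_
  have h : ∑ x, ∑ y, X x y ^ 2 ≤ p.N * kk α * p.F (kk α) := by
    have := sum_sum_pw_sq c.sys.symm 1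
    simp only [pw_one] at this
    rw [this]
    exact c.sys.f_le c.num
  gcongr

theorem mom_El {φ : α → ℝ} {A : ℝ} (hA : ∑ x, φ x ^ 2 ≤ A) :
    Ex ϱ (fun x _ => φ x ^ 2) ≤ 21 / 20 * A / kk α := by
  refine (c.nu.Ex_left_le fun _ => sq_nonneg _).trans ?_
  have := c.num.k_pos
  gcongr

theorem mom_Er {φ : α → ℝ} {A : ℝ} (hA : ∑ x, φ x ^ 2 ≤ A) :
    Ex ϱ (fun _ y => φ y ^ 2) ≤ 21 / 20 * A / kk α := by
  refine (c.nu.Ex_right_le fun _ => sq_nonneg _).trans ?_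
  have := c.num.k_pos
  gcongr

theorem mom_Ep {φ ψ : α → ℝ} {A B : ℝ} (hA : ∑ x, φ x ^ 2 ≤ A) (hB : ∑ x, ψ x ^ 2 ≤ B) :
    Ex ϱ (fun x y => φ x ^ 2 * ψ y ^ 2) ≤ 21 / 20 * A * B / kk α ^ 2 := by
  refine (c.nu.Ex_prod_le (fun _ => sq_nonneg _) fun _ => sq_nonneg _).trans ?_
  have h0 : 0 ≤ ∑ x, φ x ^ 2 := by positivity
  have h1 : 0 ≤ A := h0.trans hA
  gcongr

theorem mom_pt1 {x y : α} (hxy : ϱ x y ≠ 0) :
    el1 X s x y ^ 2 ≤ 64 * (pw X 2 x y ^ 2 + X x x ^ 2 + X y y ^ 2 + rho X x ^ 2 * ah X s y ^ 2 +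
      ah X s y ^ 2 + ah X s x ^ 2 * rho X y ^ 2 + ah X s x ^ 2) := by
  have h := c.mom_trC 0 hxy
  simp only [zero_add, pw_one, pw_two_self] at h
  have h1 := mul_le_mul_of_nonneg_right (c.mom_c_sq hxy) (sq_nonneg (ah X s y))
  have h2 := mul_le_mul_of_nonneg_right (c.mom_c_sq hxy) (sq_nonneg (ah X s x))
  unfold el1
  linarith

theorem mom_pt4 {x y : α} (hxy : ϱ x y ≠ 0) :
    el1 X s x y ^ 4 ≤ 1000 * (1000 * (rho X x ^ 2 * rho X y ^ 2 + rho X x ^ 2 + rho X y ^ 2 +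
      p.L (kk α) ^ 2 * (rho X x ^ 2 * ah X s y ^ 2) + p.N ^ 41 * p.F (kk α) * ah X s y ^ 2 +
      p.L (kk α) ^ 2 * (ah X s x ^ 2 * rho X y ^ 2) + p.N ^ 41 * p.F (kk α) * ah X s x ^ 2)) := by
  have h := pow_le_pow_left₀ (sq_nonneg _) (c.mom_pt1 hxy) 2
  rw [mul_pow, ← pow_mul] at h
  have h0 := mom_sq_seven (a := pw X 2 x y ^ 2) (b := X x x ^ 2) (c := X y y ^ 2)
    (d := rho X x ^ 2 * ah X s y ^ 2) (e := ah X s y ^ 2) (f := ah X s x ^ 2 * rho X y ^ 2)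
    (g := ah X s x ^ 2)
  have h1 := c.mom_c2_four x y
  have h2 := pow_le_pow_left₀ (sq_nonneg _) (sq_le_rho c.sys.symm x x) 2
  have h3 := pow_le_pow_left₀ (sq_nonneg _) (sq_le_rho c.sys.symm y y) 2
  obtain ⟨-, h4, h5⟩ := c.mom_cap hxy
  have h6 : (rho X x ^ 2 * ah X s y ^ 2) ^ 2 ≤ p.L (kk α) ^ 2 * (rho X x ^ 2 * ah X s y ^ 2) := by
    rw [sq]; exact mul_le_mul_of_nonneg_right h4 (by positivity)
  have h7 : (ah X s x ^ 2 * rho X y ^ 2) ^ 2 ≤ p.L (kk α) ^ 2 * (ah X s x ^ 2 * rho X y ^ 2) := by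
    rw [sq]; exact mul_le_mul_of_nonneg_right h5 (by positivity)
  have h8 : ∀ z, (ah X s z ^ 2) ^ 2 ≤ p.N ^ 41 * p.F (kk α) * ah X s z ^ 2 := fun z => by
    rw [sq]; exact mul_le_mul_of_nonneg_right (c.sys.ah_sq_le c.num c.sgn z) (by positivity)
  have h9 := h0.trans (mul_le_mul_of_nonneg_left (add_le_add (add_le_add (add_le_add (add_le_add
    (add_le_add (add_le_add h1 h2) h3) h6) (h8 y)) h7) (h8 x)) (by norm_num))
  have hN := c.num.N_pos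
  have hF := c.num.F_pos
  refine (h.trans (mul_le_mul_of_nonneg_left h9 (by norm_num))).trans ?_
  rw [← mul_assoc, ← mul_assoc (1000 : ℝ)]
  refine mul_le_mul_of_nonneg_right ?_ ?_
  · norm_num
  · positivity

theorem mom_pt2 {x y : α} (hxy : ϱ x y ≠ 0) :
    el2 X s x y ^ 2 ≤ 1000 * (pw X 3 x y ^ 2 + p.N ^ 41 * p.F (kk α) * pw X 2 x y ^ 2 +
      (rho X x ^ 2 + rho X y ^ 2 + p.Om (kk α) ^ 2 * (rho X x ^ 2 * ah X s y ^ 2) +
        p.Om (kk α) ^ 2 * (ah X s x ^ 2 * rho X y ^ 2) + rho X x ^ 2 * rho X y ^ 2 + X x y ^ 2 +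
        X x x ^ 2 * X y y ^ 2)) := by
  have h := mom_sq_add (c.mom_trC 1 hxy) ((c.mom_div hxy _).trans
    (mul_le_mul_of_nonneg_left (mom_dN (X := X) c.s_sq 0 0 x y) zero_le_two))
  simp only [zero_add, Nat.reduceAdd, pw_one, pw_two_self] at h
  have hN := c.num.N_pos
  have hF := c.num.F_pos
  have a1 := mul_le_mul_of_nonneg_right (c.mom_diag 1 x) (sq_nonneg (ah X s y))
  have a2 := mul_le_mul_of_nonneg_right (c.mom_diag 1 y) (sq_nonneg (ah X s x))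
  simp only [Nat.reduceAdd, mul_one] at a1 a2
  have a3 := mul_le_mul_of_nonneg_right (c.sys.ah_sq_le c.num c.sgn y) (sq_nonneg (pw X 2 x y))
  have a4 := mul_le_mul_of_nonneg_right (c.sys.ah_sq_le c.num c.sgn x) (sq_nonneg (pw X 2 x y))
  have a5 := mul_le_mul_of_nonneg_right (c.mom_c_sq hxy) (sq_nonneg (rho X x))
  have a6 := mul_le_mul_of_nonneg_right (c.mom_c_sq hxy) (sq_nonneg (rho X y))
  have a7 := mul_le_mul_of_nonneg_right (c.mom_c_sq hxy) (sq_nonneg (X x y))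
  have a8 := c.mom_c2_four x y
  have a9 := mul_le_mul_of_nonneg_right (c.mom_diag_K x) (sq_nonneg (pw X 2 x y))
  have a10 := mul_le_mul_of_nonneg_right (c.mom_diag_K y) (sq_nonneg (pw X 2 x y))
  have b1 : 0 ≤ p.N ^ 41 * p.F (kk α) * pw X 2 x y ^ 2 := by positivity
  have b2 : 0 ≤ p.Om (kk α) ^ 2 * (rho X x ^ 2 * ah X s y ^ 2) := by positivity
  have b3 : 0 ≤ p.Om (kk α) ^ 2 * (ah X s x ^ 2 * rho X y ^ 2) := by positivity
  have b4 : 0 ≤ rho X x ^ 2 * rho X y ^ 2 := by positivity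
  have b5 : 0 ≤ X x x ^ 2 * X y y ^ 2 := by positivity
  unfold el2
  linarith [sq_nonneg (pw X 3 x y), sq_nonneg (rho X x), sq_nonneg (rho X y), sq_nonneg (X x y)]

theorem mom_pt3 {x y : α} (hxy : ϱ x y ≠ 0) :
    el3 X s x y ^ 2 ≤ 1000 * (pw X 4 x y ^ 2 + p.N ^ 41 * p.F (kk α) * pw X 3 x y ^ 2 +
      (p.Om (kk α) ^ 2 * rho X x ^ 2 + p.Om (kk α) ^ 2 * rho X y ^ 2 +
        p.Om (kk α) ^ 4 * (rho X x ^ 2 * ah X s y ^ 2) +
        p.Om (kk α) ^ 4 * (ah X s x ^ 2 * rho X y ^ 2) +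
        p.Om (kk α) ^ 2 * (rho X x ^ 2 * rho X y ^ 2) + pw X 2 x y ^ 2 +
        X x x ^ 2 * rho X y ^ 2 + rho X x ^ 2 * X y y ^ 2) +
      (p.L (kk α) ^ 2 * rho X x ^ 2 + p.L (kk α) ^ 2 * rho X y ^ 2) +
      p.L (kk α) ^ 2 * pw X 3 x y ^ 2) := by
  have h := mom_sq_add (c.mom_trC 2 hxy) ((c.mom_div hxy _).trans
    (mul_le_mul_of_nonneg_left
      (mom_sq_add (mom_dN (X := X) c.s_sq 0 1 x y) (mom_dN (X := X) c.s_sq 1 0 x y)) zero_le_two))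
  simp only [zero_add, Nat.reduceAdd, pw_one, pw_two_self] at h
  have hN := c.num.N_pos
  have hF := c.num.F_pos
  have d1 := c.mom_diag 1 x
  have d2 := c.mom_diag 1 y
  have d3 := c.mom_diag 2 x
  have d4 := c.mom_diag 2 y
  simp only [Nat.reduceAdd, Nat.reduceMul] at d1 d2 d3 d4
  have hL := (c.mom_cap hxy).1
  have hc := c.mom_c_sq hxy
  have a1 := mul_le_mul_of_nonneg_right d3 (sq_nonneg (ah X s y))
  have a2 := mul_le_mul_of_nonneg_right d4 (sq_nonneg (ah X s x))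
  have a3 := mul_le_mul_of_nonneg_right (c.sys.ah_sq_le c.num c.sgn y) (sq_nonneg (pw X 3 x y))
  have a4 := mul_le_mul_of_nonneg_right (c.sys.ah_sq_le c.num c.sgn x) (sq_nonneg (pw X 3 x y))
  have a5 := mul_le_mul_of_nonneg_right d2 (sq_nonneg (rho X x))
  have a6 := mul_le_mul_of_nonneg_right d1 (sq_nonneg (rho X y))
  have a7 := mul_le_mul_of_nonneg_right hL (sq_nonneg (rho X x))
  have a8 := mul_le_mul_of_nonneg_right hL (sq_nonneg (rho X y))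
  have a9 := mul_le_mul_of_nonneg_right hL (sq_nonneg (pw X 3 x y))
  have a10 := mul_le_mul_of_nonneg_right hc (sq_nonneg (pw X 3 x x))
  have a11 := mul_le_mul_of_nonneg_right hc (sq_nonneg (pw X 3 y y))
  have a12 := mul_le_mul_of_nonneg_right hc (sq_nonneg (pw X 2 x y))
  have a13 := mul_le_mul_of_nonneg_right (c.mom_diag_K x) (sq_nonneg (pw X 3 x y))
  have a14 := mul_le_mul_of_nonneg_right (c.mom_diag_K y) (sq_nonneg (pw X 3 x y))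
  have b1 : 0 ≤ p.N ^ 41 * p.F (kk α) * pw X 3 x y ^ 2 := by positivity
  have b2 : 0 ≤ p.Om (kk α) ^ 4 * (rho X x ^ 2 * ah X s y ^ 2) := by positivity
  have b3 : 0 ≤ p.Om (kk α) ^ 4 * (ah X s x ^ 2 * rho X y ^ 2) := by positivity
  have b4 : 0 ≤ p.Om (kk α) ^ 2 * (rho X x ^ 2 * rho X y ^ 2) := by positivity
  have b5 : 0 ≤ X x x ^ 2 * rho X y ^ 2 := by positivity
  have b6 : 0 ≤ rho X x ^ 2 * X y y ^ 2 := by positivity
  have b7 : 0 ≤ p.Om (kk α) ^ 2 * rho X x ^ 2 := by positivity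
  have b8 : 0 ≤ p.Om (kk α) ^ 2 * rho X y ^ 2 := by positivity
  have b9 : 0 ≤ p.L (kk α) ^ 2 * rho X x ^ 2 := by positivity
  have b10 : 0 ≤ p.L (kk α) ^ 2 * rho X y ^ 2 := by positivity
  have b11 : 0 ≤ p.L (kk α) ^ 2 * pw X 3 x y ^ 2 := by positivity
  unfold el3
  linarith [sq_nonneg (pw X 4 x y), sq_nonneg (pw X 2 x y)]

theorem abs_el1_le {x y : α} (hxy : ϱ x y ≠ 0) :
    |el1 X s x y| ≤ 4 * J1 X s x y + 3 * |X x y| / kk α := by
  have hk := c.num.k_pos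
  have hx := rho_nonneg c.sys.symm x
  have hy := rho_nonneg c.sys.symm y
  have hs : ∀ u v : ℝ, |u - s * v| ≤ |u| + |v| := fun u v =>
    (abs_sub _ _).trans_eq (by rw [abs_mul, c.abs_s, one_mul])
  have hah : ∀ z, |ah X s z| ≤ |X z z| + 1 / kk α := fun z =>
    (abs_add_le _ _).trans_eq (by rw [abs_div, c.abs_s, abs_of_pos hk])
  have h1 : |2 * pw X 2 x y - s * (X x x + X y y)| ≤ 2 * |pw X 2 x y| + (|X x x| + |X y y|) := by
    refine (hs _ _).trans (add_le_add (le_of_eq ?_) (abs_add_le _ _))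
    rw [abs_mul, abs_two]
  have h2 := hs (rho X x) (X x y)
  have h3 := hs (rho X y) (X x y)
  rw [abs_of_nonneg hx] at h2
  rw [abs_of_nonneg hy] at h3
  have h4 := mul_le_mul (c.abs_eta_le hxy) h1 (abs_nonneg _) (by norm_num)
  have h5 := mul_le_mul h2 (c.abs_e11_le hxy) (abs_nonneg _) (by positivity)
  have h6 := mul_le_mul h3 (c.abs_e22_le hxy) (abs_nonneg _) (by positivity)
  have h7 : ∀ z, |X x y| * |ah X s z| ≤ 1 / 1000 * |X z z| + |X x y| / kk α := fun z => by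
    have a1 := mul_le_mul_of_nonneg_left (hah z) (abs_nonneg (X x y))
    have a2 := mul_le_mul_of_nonneg_right (c.abs_c_le hxy) (abs_nonneg (X z z))
    rw [mul_add, mul_one_div] at a1
    linarith
  have e : el1 X s x y = eta X s x y * (2 * pw X 2 x y - s * (X x x + X y y)) +
      (rho X x - s * X x y) * e11 X s x y + (rho X y - s * X x y) * e22 X s x y := by
    simp only [el1, trC, zero_add, pw_one, pw_two_self]
  rw [← abs_mul] at h4 h5 h6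
  have h8 := abs_add_three (eta X s x y * (2 * pw X 2 x y - s * (X x x + X y y)))
    ((rho X x - s * X x y) * e11 X s x y) ((rho X y - s * X x y) * e22 X s x y)
  have h9 : 0 ≤ |X x y| / kk α := by positivity
  rw [e, mul_div_assoc]
  unfold J1
  linarith [h7 x, h7 y, abs_nonneg (pw X 2 x y), abs_nonneg (X x x), abs_nonneg (X y y),
    mul_nonneg hx (abs_nonneg (ah X s y)), mul_nonneg hy (abs_nonneg (ah X s x))]
theorem sup_el1 {x y : α} (hxy : ϱ x y ≠ 0) : |el1 X s x y| ≤ 5 * p.L (kk α) := by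
  have hn := c.num
  have h1 := c.abs_el1_le hxy
  have h2 := c.J1_le hxy
  have h3 : 3 * |X x y| / kk α ≤ 3 / kk α :=
    div_le_div_of_nonneg_right (by linarith [c.abs_c_le hxy]) hn.k_pos.le
  have h4 : 3 / kk α ≤ p.L (kk α) := by lognum hn
  linarith
theorem mom_el1 : Ex ϱ (fun x y => el1 X s x y ^ 2)
    ≤ p.N * p.G4 (kk α) / kk α ^ 2 + p.N ^ 47 * p.F (kk α) / kk α := by
  have hn := c.num
  have hN := hn.N_pos
  have hF := hn.F_pos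
  have hQ := c.sys.Q_le hn
  have hR : ∑ z, X z z ^ 2 ≤ p.N ^ 40 * p.F (kk α) := c.sys.R_le hn
  have hH := c.sys.Rh_le hn c.sgn
  have h := Ex_mono c.nu.nonneg fun x y hxy => c.mom_pt1 hxy
  simp only [Ex_add, Ex_const_mul] at h
  have e1 : Ex ϱ (fun x y => pw X 2 x y ^ 2) ≤ 21 / 20 * p.Om (kk α) ^ 4 / kk α ^ 2 := c.mom_Ec 0
  have e2 := c.mom_El hR
  have e3 := c.mom_Er hR
  have e4 := c.mom_Ep hQ hH
  have e5 := c.mom_Er hH
  have e6 := c.mom_Ep hH hQ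
  have e7 := c.mom_El hH
  have n1 : 100 * (21 / 20 * p.Om (kk α) ^ 4 / kk α ^ 2) ≤ p.N * p.G4 (kk α) / kk α ^ 2 := by
    lognum hn
  have n2 : 1000 * (21 / 20 * (p.N ^ 40 * p.F (kk α)) / kk α) +
      1000 * (21 / 20 * (p.N ^ 41 * p.F (kk α)) / kk α) +
      1000 * (21 / 20 * (p.N ^ 4 * kk α * p.F (kk α)) * (p.N ^ 41 * p.F (kk α)) / kk α ^ 2) ≤
      p.N ^ 47 * p.F (kk α) / kk α := by lognum hn
  have hk := hn.k_pos
  have hO := hn.Om_pos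
  have p1 : 0 ≤ 21 / 20 * p.Om (kk α) ^ 4 / kk α ^ 2 := by positivity
  have p2 : 0 ≤ 21 / 20 * (p.N ^ 40 * p.F (kk α)) / kk α := by positivity
  have p3 : 0 ≤ 21 / 20 * (p.N ^ 41 * p.F (kk α)) / kk α := by positivity
  have p4 : 0 ≤ 21 / 20 * (p.N ^ 4 * kk α * p.F (kk α)) * (p.N ^ 41 * p.F (kk α)) / kk α ^ 2 := by
    positivity
  rw [mul_right_comm] at e6
  linarith
theorem mom4_el1 : Ex ϱ (fun x y => el1 X s x y ^ 4) ≤ p.N ^ 10 * p.F (kk α) := by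
  have hn := c.num
  have hN := hn.N_pos
  have hF := hn.F_pos
  have hQ := c.sys.Q_le hn
  have hR : ∑ z, X z z ^ 2 ≤ p.N ^ 40 * p.F (kk α) := c.sys.R_le hn
  have hH := c.sys.Rh_le hn c.sgn
  have h := Ex_mono c.nu.nonneg fun x y hxy => c.mom_pt4 hxy
  simp only [Ex_add, Ex_const_mul] at h
  have e1 := c.mom_Ep hQ hQ
  have e2 := c.mom_El hQ
  have e3 := c.mom_Er hQ
  have e4 := mul_le_mul_of_nonneg_left (c.mom_Ep hQ hH) (sq_nonneg (p.L (kk α)))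
  have e5 := mul_le_mul_of_nonneg_left (c.mom_Er hH) (mul_pos (pow_pos hN 41) hF).le
  have e6 := mul_le_mul_of_nonneg_left (c.mom_Ep hH hQ) (sq_nonneg (p.L (kk α)))
  have e7 := mul_le_mul_of_nonneg_left (c.mom_El hH) (mul_pos (pow_pos hN 41) hF).le
  refine h.trans (le_trans (mul_le_mul_of_nonneg_left (mul_le_mul_of_nonneg_left
    (add_le_add (add_le_add (add_le_add (add_le_add (add_le_add (add_le_add e1 e2) e3) e4) e5) e6)
      e7) (by norm_num)) (by norm_num)) ?_)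
  simp only [mul_add]
  lognum hn
theorem mom_el2 : Ex ϱ (fun x y => el2 X s x y ^ 2)
    ≤ p.N * p.Om (kk α) ^ 6 / kk α ^ 2 + p.N ^ 10 * p.F (kk α) := by
  have hn := c.num
  have hN := hn.N_pos
  have hF := hn.F_pos
  have hQ := c.sys.Q_le hn
  have hR : ∑ z, X z z ^ 2 ≤ p.N ^ 40 * p.F (kk α) := c.sys.R_le hn
  have hH := c.sys.Rh_le hn c.sgn
  have h := Ex_mono c.nu.nonneg fun x y hxy => c.mom_pt2 hxy
  simp only [Ex_add, Ex_const_mul] at h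
  have e1 : Ex ϱ (fun x y => pw X 3 x y ^ 2) ≤ 21 / 20 * p.Om (kk α) ^ 6 / kk α ^ 2 := c.mom_Ec 1
  have e0 : Ex ϱ (fun x y => pw X 2 x y ^ 2) ≤ 21 / 20 * p.Om (kk α) ^ 4 / kk α ^ 2 := c.mom_Ec 0
  have e2 := mul_le_mul_of_nonneg_left e0 (mul_pos (pow_pos hN 41) hF).le
  have e3 := c.mom_El hQ
  have e4 := c.mom_Er hQ
  have e5 := mul_le_mul_of_nonneg_left (c.mom_Ep hQ hH) (sq_nonneg (p.Om (kk α)))
  have e6 := mul_le_mul_of_nonneg_left (c.mom_Ep hH hQ) (sq_nonneg (p.Om (kk α)))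
  have e7 := c.mom_Ep hQ hQ
  have e8 := c.mom_Ec1
  have e9 := c.mom_Ep hR hR
  refine h.trans (le_trans (mul_le_mul_of_nonneg_left (add_le_add (add_le_add e1 e2)
    (add_le_add (add_le_add (add_le_add (add_le_add (add_le_add (add_le_add e3 e4) e5) e6) e7) e8)
      e9)) (by norm_num)) ?_)
  simp only [mul_add]
  refine add_le_add ?_ ?_
  · lognum hn
  · lognum hn
theorem mom_el3 : Ex ϱ (fun x y => el3 X s x y ^ 2)
    ≤ p.N * p.Om (kk α) ^ 8 / kk α ^ 2 + p.N ^ 10 * p.Om (kk α) ^ 2 * p.F (kk α)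
      + kk α * p.F (kk α) ^ 2 / p.N ^ 50
      + p.F (kk α) * p.Om (kk α) ^ 6 / (p.N ^ 50 * kk α) := by
  have hn := c.num
  have hN := hn.N_pos
  have hF := hn.F_pos
  have hQ := c.sys.Q_le hn
  have hR : ∑ z, X z z ^ 2 ≤ p.N ^ 40 * p.F (kk α) := c.sys.R_le hn
  have hH := c.sys.Rh_le hn c.sgn
  have h := Ex_mono c.nu.nonneg fun x y hxy => c.mom_pt3 hxy
  simp only [Ex_add, Ex_const_mul] at h
  have e0 : Ex ϱ (fun x y => pw X 3 x y ^ 2) ≤ 21 / 20 * p.Om (kk α) ^ 6 / kk α ^ 2 := c.mom_Ec 1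
  have e1 : Ex ϱ (fun x y => pw X 4 x y ^ 2) ≤ 21 / 20 * p.Om (kk α) ^ 8 / kk α ^ 2 := c.mom_Ec 2
  have e2 := mul_le_mul_of_nonneg_left e0 (mul_pos (pow_pos hN 41) hF).le
  have e3 := mul_le_mul_of_nonneg_left (c.mom_El hQ) (sq_nonneg (p.Om (kk α)))
  have e4 := mul_le_mul_of_nonneg_left (c.mom_Er hQ) (sq_nonneg (p.Om (kk α)))
  have e5 := mul_le_mul_of_nonneg_left (c.mom_Ep hQ hH) (pow_pos hn.Om_pos 4).le
  have e6 := mul_le_mul_of_nonneg_left (c.mom_Ep hH hQ) (pow_pos hn.Om_pos 4).le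
  have e7 := mul_le_mul_of_nonneg_left (c.mom_Ep hQ hQ) (sq_nonneg (p.Om (kk α)))
  have e8 : Ex ϱ (fun x y => pw X 2 x y ^ 2) ≤ 21 / 20 * p.Om (kk α) ^ 4 / kk α ^ 2 := c.mom_Ec 0
  have e9 := c.mom_Ep hR hQ
  have e10 := c.mom_Ep hQ hR
  have e11 := mul_le_mul_of_nonneg_left (c.mom_El hQ) (sq_nonneg (p.L (kk α)))
  have e12 := mul_le_mul_of_nonneg_left (c.mom_Er hQ) (sq_nonneg (p.L (kk α)))
  have e13 := mul_le_mul_of_nonneg_left e0 (sq_nonneg (p.L (kk α)))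
  refine h.trans (le_trans (mul_le_mul_of_nonneg_left (add_le_add (add_le_add (add_le_add
    (add_le_add e1 e2) (add_le_add (add_le_add (add_le_add (add_le_add (add_le_add (add_le_add
      (add_le_add e3 e4) e5) e6) e7) e8) e9) e10)) (add_le_add e11 e12)) e13) (by norm_num)) ?_)
  simp only [mul_add]
  refine add_le_add (add_le_add (add_le_add ?_ ?_) ?_) ?_
  · lognum hn
  · lognum hn
  · lognum hn
  · lognum hn

end Ctx

end Crest.Agent.R062
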