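import Crest.Agent.R062.Defs

/-!
Numerics for row 62: every scale is a power of `N` with an exponent in an explicit range, so an
inequality between positive monomials is linear after taking logarithms.  The tactic `lognum h`
(with `h : Num p k`) proves `A₁ + ⋯ + A_r ≤ B` for positive monomials `A_i`, `B` built from
`p.N, p.n, p.M, k, p.kb k, p.F k, p.G4 k, p.Om k, p.G3sq k, p.G3 k, p.stau2 k, p.stau k, p.tauB k,
p.L k, p.Ups k, p.Row k, p.sT k, p.Gf k, p.GV k, p.GR k, p.s3, p.GD, p.k1`, small numerals,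
`* / ^ ⁻¹` and `Real.sqrt`.
-/

open Real

namespace Crest.Agent.R062

theorem le_of_log_le' {a b : ℝ} (ha : 0 < a) (hb : 0 < b) (h : log a ≤ log b) : a ≤ b :=
  (log_le_log_iff ha hb).1 h

theorem add_le_of_halves {a b c : ℝ} (h1 : a ≤ c / 2) (h2 : b ≤ c / 2) : a + b ≤ c := by linarith

theorem log_add_le_cases {a b : ℝ} (ha : 0 < a) (hb : 0 < b) :
    log (a + b) ≤ log a + log 2 ∨ log (a + b) ≤ log b + log 2 := by
  rcases le_total a b with h | h
  · right
    rw [← log_mul hb.ne' two_ne_zero]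
    exact log_le_log (by positivity) (by linarith)
  · left
    rw [← log_mul ha.ne' two_ne_zero]
    exact log_le_log (by positivity) (by linarith)

theorem logc {c : ℝ} (j : ℕ) (h1 : 1 ≤ c) (h2 : c ≤ 2 ^ j) : 0 ≤ log c ∧ log c ≤ j * log 2 := by
  refine ⟨log_nonneg h1, ?_⟩
  rw [← log_pow]
  exact log_le_log (by linarith) h2

namespace Num
variable {p : Par ℝ} {k : ℝ} (h : Num p k)
include h

theorem N_pos : 0 < p.N := lt_of_lt_of_le (by norm_num) h.hN
theorem one_le_N : 1 ≤ p.N := le_trans (by norm_num) h.hN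
theorem n_pos : 0 < p.n := lt_of_lt_of_le (pow_pos h.N_pos _) h.n_lo
theorem M_pos : 0 < p.M := lt_of_lt_of_le (pow_pos h.N_pos _) h.M_lo
theorem k_pos : 0 < k := lt_of_lt_of_le (pow_pos h.N_pos _) h.k_lo
theorem m_pos : 0 < p.m := lt_of_lt_of_le (one_div_pos.2 h.N_pos) h.m_lo
theorem m_le_one : p.m ≤ 1 := by nlinarith [h.m_hi, h.m_pos]
theorem N_le_k : p.N ≤ k := by
  calc p.N = p.N ^ 1 := (pow_one _).symm
    _ ≤ p.N ^ 3409 := pow_le_pow_right₀ h.one_le_N (by norm_num)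
    _ ≤ k := h.k_lo
theorem k_big : 10 ^ 14 ≤ k := h.hN.trans h.N_le_k
theorem kb_pos : 0 < p.kb k := add_pos h.k_pos h.M_pos
omit h in
theorem F_eq : p.F k = k / p.kb k := rfl
theorem F_pos : 0 < p.F k := div_pos h.k_pos h.kb_pos
theorem F_lt_one : p.F k < 1 := by
  rw [F_eq, div_lt_one h.kb_pos]; unfold Par.kb; linarith [h.M_pos]
theorem F_le_one : p.F k ≤ 1 := h.F_lt_one.le
theorem one_sub_F : 1 - p.F k = p.M / p.kb k := by
  have := h.kb_pos
  rw [F_eq]; field_simp; unfold Par.kb; ring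
theorem k1_pos : 0 < p.k1 := pow_pos h.N_pos _
theorem gtau_nonneg : 0 ≤ p.gtau k :=
  mul_nonneg (pow_pos h.N_pos _).le (le_min zero_le_one (le_max_left _ _))
theorem gtau_le : p.gtau k ≤ p.N ^ 3710 :=
  mul_le_of_le_one_right (pow_pos h.N_pos _).le (min_le_left _ _)
theorem gtau_eq_zero (hk : k ≤ p.k1) : p.gtau k = 0 := by
  have : (k - p.k1) / p.k1 ≤ 0 := div_nonpos_of_nonpos_of_nonneg (by linarith) h.k1_pos.le
  unfold Par.gtau; rw [max_eq_left this, min_eq_right zero_le_one, mul_zero]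
theorem stau2_pos : 0 < p.stau2 k := mul_pos (pow_pos h.N_pos _) h.F_pos
theorem stau_pos : 0 < p.stau k := sqrt_pos.2 h.stau2_pos
theorem stau_sq : p.stau k ^ 2 = p.stau2 k := sq_sqrt h.stau2_pos.le
theorem sT_pos : 0 < p.sT k := mul_pos (pow_pos h.N_pos _) h.F_pos
theorem Gf_pos : 0 < p.Gf k := mul_pos (mul_pos h.N_pos h.k_pos) h.F_pos
theorem G3sq_pos : 0 < p.G3sq k := by
  have := h.N_pos; have := h.n_pos; have := h.M_pos; have := h.F_pos
  unfold Par.G3sq; positivity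
theorem G3_pos : 0 < p.G3 k := sqrt_pos.2 h.G3sq_pos
theorem G3_sq : p.G3 k ^ 2 = p.G3sq k := sq_sqrt h.G3sq_pos.le
theorem G4_pos : 0 < p.G4 k := by
  have := h.N_pos; have := h.n_pos; have := h.M_pos; have := h.F_pos; have := h.kb_pos
  unfold Par.G4; positivity
theorem Om_pos : 0 < p.Om k := sqrt_pos.2 (sqrt_pos.2 h.G4_pos)
theorem Om_pow : p.Om k ^ 4 = p.G4 k := by
  have : p.Om k ^ 2 = √(p.G4 k) := sq_sqrt (sqrt_nonneg _)
  rw [show p.Om k ^ 4 = (p.Om k ^ 2) ^ 2 by ring, this, sq_sqrt h.G4_pos.le]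
theorem GV_pos : 0 < p.GV k := by
  have := h.N_pos; have := h.M_pos; have := h.F_pos
  unfold Par.GV; positivity
theorem GR_pos : 0 < p.GR k := mul_pos (pow_pos h.N_pos _) h.F_pos
theorem s3_pos : 0 < p.s3 := div_pos h.n_pos (pow_pos h.N_pos _)
theorem GD_pos : 0 < p.GD := mul_pos (pow_pos h.N_pos _) h.n_pos
theorem tauB_pos : 0 < p.tauB k := by
  have := h.gtau_nonneg; have := h.stau_pos
  unfold Par.tauB; linarith
theorem L_pos : 0 < p.L k := by
  have := h.N_pos; have := h.k_pos; have := h.F_pos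
  unfold Par.L; positivity
theorem L_sq : p.L k ^ 2 = k * p.F k / p.N ^ 60 := by
  have := h.N_pos; have := h.k_pos; have := h.F_pos
  exact sq_sqrt (by positivity)
theorem Ups_pos : 0 < p.Ups k := mul_pos h.N_pos (sqrt_pos.2 h.k_pos)
theorem Row_pos : 0 < p.Row k := mul_pos (pow_pos h.N_pos _) (sqrt_pos.2 h.k_pos)

theorem poss : 0 < p.N ∧ 0 < p.n ∧ 0 < p.M ∧ 0 < k ∧ 0 < p.kb k ∧ 0 < p.F k ∧ 0 < p.G4 k ∧
    0 < p.Om k ∧ 0 < p.G3sq k ∧ 0 < p.G3 k ∧ 0 < p.stau2 k ∧ 0 < p.stau k ∧ 0 < p.tauB k ∧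
    0 < p.L k ∧ 0 < p.Ups k ∧ 0 < p.Row k ∧ 0 < p.sT k ∧ 0 < p.Gf k ∧ 0 < p.GV k ∧ 0 < p.GR k ∧
    0 < p.s3 ∧ 0 < p.GD ∧ 0 < p.k1 :=
  ⟨h.N_pos, h.n_pos, h.M_pos, h.k_pos, h.kb_pos, h.F_pos, h.G4_pos, h.Om_pos, h.G3sq_pos,
    h.G3_pos, h.stau2_pos, h.stau_pos, h.tauB_pos, h.L_pos, h.Ups_pos, h.Row_pos, h.sT_pos,
    h.Gf_pos, h.GV_pos, h.GR_pos, h.s3_pos, h.GD_pos, h.k1_pos⟩

theorem log_two_le : 46 * log 2 ≤ log p.N := by
  have : (46 : ℝ) * log 2 = log (2 ^ 46) := by rw [log_pow]; norm_num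
  rw [this]
  exact log_le_log (by positivity) (le_trans (by norm_num) h.hN)

/-- Linear facts about the logarithms of the basic scales. -/
theorem logs₁ :
    46 * log 2 ≤ log p.N ∧ 0 ≤ log 2 ∧
    10000 * log p.N ≤ log p.n ∧ log p.n ≤ 10001 * log p.N ∧
    6849 * log p.N ≤ log p.M ∧ log p.M ≤ 6851 * log p.N ∧
    3409 * log p.N ≤ log k ∧ log k ≤ log p.N + log p.n ∧
    log k ≤ log (p.kb k) ∧ log p.M ≤ log (p.kb k) ∧
    log (p.F k) = log k - log (p.kb k) ∧
    log p.k1 = 8000 * log p.N ∧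
    log (p.stau2 k) = 6580 * log p.N + log (p.F k) ∧ 2 * log (p.stau k) = log (p.stau2 k) ∧
    log (p.sT k) = 6720 * log p.N + log (p.F k) ∧
    log (p.Gf k) = log p.N + log k + log (p.F k) ∧
    log (p.GV k) = 3 * log p.N + log p.M + 2 * log (p.F k) ∧
    log (p.GR k) = 40 * log p.N + log (p.F k) ∧
    log p.s3 = log p.n - 2 * log p.N ∧ log p.GD = 500 * log p.N + log p.n ∧
    2 * log (p.L k) = log k + log (p.F k) - 60 * log p.N ∧
    2 * log (p.Ups k) = 2 * log p.N + log k ∧ 2 * log (p.Row k) = 8 * log p.N + log k ∧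
    4 * log (p.Om k) = log (p.G4 k) ∧ 2 * log (p.G3 k) = log (p.G3sq k) := by
  obtain ⟨hN, hn, hM, hk, hkb, hF, hG4, hOm, hG3s, hG3, hs2, hs, -⟩ := h.poss
  have pw : ∀ (j : ℕ) {a : ℝ}, p.N ^ j ≤ a → (j : ℝ) * log p.N ≤ log a := fun j a ha => by
    rw [← log_pow]; exact log_le_log (by positivity) ha
  have pw' : ∀ (j : ℕ) {a : ℝ}, 0 < a → a ≤ p.N ^ j → log a ≤ (j : ℝ) * log p.N :=
    fun j a ha0 ha => by rw [← log_pow]; exact log_le_log ha0 ha
  refine ⟨h.log_two_le, log_nonneg (by norm_num), by exact_mod_cast pw _ h.n_lo,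
    by exact_mod_cast pw' _ hn h.n_hi, by exact_mod_cast pw _ h.M_lo,
    by exact_mod_cast pw' _ hM h.M_hi, by exact_mod_cast pw _ h.k_lo, ?_, ?_, ?_, ?_, ?_, ?_, ?_,
    ?_, ?_, ?_, ?_, ?_, ?_, ?_, ?_, ?_, ?_, ?_⟩
  · rw [← log_mul hN.ne' hn.ne']; exact log_le_log hk h.k_hi
  · exact log_le_log hk (by unfold Par.kb; linarith)
  · exact log_le_log hM (by unfold Par.kb; linarith)
  · rw [F_eq, log_div hk.ne' hkb.ne']
  · unfold Par.k1; rw [log_pow]; norm_num
  · unfold Par.stau2; rw [log_mul (by positivity) hF.ne', log_pow]; norm_num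
  · rw [← h.stau_sq, log_pow]; norm_num
  · unfold Par.sT; rw [log_mul (by positivity) hF.ne', log_pow]; norm_num
  · unfold Par.Gf; rw [log_mul (by positivity) hF.ne', log_mul hN.ne' hk.ne']
  · unfold Par.GV
    rw [log_mul (by positivity) (by positivity), log_mul (by positivity) hM.ne', log_pow, log_pow]
    norm_num
  · unfold Par.GR; rw [log_mul (by positivity) hF.ne', log_pow]; norm_num
  · unfold Par.s3; rw [log_div hn.ne' (by positivity), log_pow]; norm_num
  · unfold Par.GD; rw [log_mul (by positivity) hn.ne', log_pow]; norm_num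
  · have : 2 * log (p.L k) = log (p.L k ^ 2) := by rw [log_pow]; norm_num
    rw [this, h.L_sq, log_div (by positivity) (by positivity), log_mul hk.ne' hF.ne', log_pow]
    norm_num
  · unfold Par.Ups; rw [log_mul hN.ne' (by positivity), log_sqrt hk.le]; ring
  · unfold Par.Row; rw [log_mul (by positivity) (by positivity), log_sqrt hk.le, log_pow]
    push_cast; ring
  · rw [← h.Om_pow, log_pow]; norm_num
  · rw [← h.G3_sq, log_pow]; norm_num

theorem logs_kb : log (p.kb k) ≤ log k + log 2 ∨ log (p.kb k) ≤ log p.M + log 2 :=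
  log_add_le_cases h.k_pos h.M_pos

theorem logs_G4 :
    20 * log p.N + 2 * log p.n + 4 * log (p.F k) - log (p.kb k) ≤ log (p.G4 k) ∧
    20 * log p.N + log p.M + 2 * log (p.F k) ≤ log (p.G4 k) ∧
    (log (p.G4 k) ≤ 20 * log p.N + 2 * log p.n + 4 * log (p.F k) - log (p.kb k) + log 2 ∨
      log (p.G4 k) ≤ 20 * log p.N + log p.M + 2 * log (p.F k) + log 2) := by
  obtain ⟨hN, hn, hM, hk, hkb, hF, -⟩ := h.poss
  have e : log (p.G4 k) = 20 * log p.N + log (p.n ^ 2 * p.F k ^ 4 / p.kb k + p.M * p.F k ^ 2) := by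
    unfold Par.G4; rw [log_mul (by positivity) (by positivity), log_pow]; norm_num
  have a : log (p.n ^ 2 * p.F k ^ 4 / p.kb k) = 2 * log p.n + 4 * log (p.F k) - log (p.kb k) := by
    rw [log_div (by positivity) hkb.ne', log_mul (by positivity) (by positivity), log_pow, log_pow]
    norm_num
  have b : log (p.M * p.F k ^ 2) = log p.M + 2 * log (p.F k) := by
    rw [log_mul hM.ne' (by positivity), log_pow]; norm_num
  have ha : 0 < p.n ^ 2 * p.F k ^ 4 / p.kb k := by positivity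
  have hb : 0 < p.M * p.F k ^ 2 := by positivity
  have l1 := log_le_log ha (le_add_of_nonneg_right hb.le)
  have l2 := log_le_log hb (le_add_of_nonneg_left ha.le)
  refine ⟨by linarith, by linarith, ?_⟩
  rcases log_add_le_cases ha hb with c | c
  · left; linarith
  · right; linarith

theorem logs_G3 :
    2 * log p.N + 2 * log p.n + 6 * log (p.F k) ≤ log (p.G3sq k) ∧
    2 * log p.M + 3 * log (p.F k) ≤ log (p.G3sq k) ∧
    (log (p.G3sq k) ≤ 2 * log p.N + 2 * log p.n + 6 * log (p.F k) + log 2 ∨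
      log (p.G3sq k) ≤ 2 * log p.M + 3 * log (p.F k) + log 2) := by
  obtain ⟨hN, hn, hM, hk, hkb, hF, -⟩ := h.poss
  have a : log (p.N ^ 2 * p.n ^ 2 * p.F k ^ 6) = 2 * log p.N + 2 * log p.n + 6 * log (p.F k) := by
    rw [log_mul (by positivity) (by positivity), log_mul (by positivity) (by positivity), log_pow,
      log_pow, log_pow]
    norm_num
  have b : log (p.M ^ 2 * p.F k ^ 3) = 2 * log p.M + 3 * log (p.F k) := by
    rw [log_mul (by positivity) (by positivity), log_pow, log_pow]; norm_num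
  have ha : 0 < p.N ^ 2 * p.n ^ 2 * p.F k ^ 6 := by positivity
  have hb : 0 < p.M ^ 2 * p.F k ^ 3 := by positivity
  have l1 := log_le_log ha (le_add_of_nonneg_right hb.le)
  have l2 := log_le_log hb (le_add_of_nonneg_left ha.le)
  unfold Par.G3sq
  refine ⟨by linarith, by linarith, ?_⟩
  rcases log_add_le_cases ha hb with c | c
  · left; linarith
  · right; linarith

theorem one_le_stau : 1 ≤ p.stau k := by
  obtain ⟨f1, f2, f3, f4, f5, f6, f7, f8, f9, f10, f11, f12, f13, f14, -⟩ := h.logs₁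
  refine le_of_log_le' one_pos h.stau_pos ?_
  rw [log_one]
  rcases h.logs_kb with c | c <;> linarith

theorem stau_le : p.stau k ≤ p.N ^ 3290 := by
  obtain ⟨f1, f2, f3, f4, f5, f6, f7, f8, f9, f10, f11, f12, f13, f14, -⟩ := h.logs₁
  refine le_of_log_le' h.stau_pos (pow_pos h.N_pos _) ?_
  rw [log_pow]; push_cast
  linarith

theorem logs_tauB :
    log (p.stau k) ≤ log (p.tauB k) ∧ log (p.tauB k) ≤ 3710 * log p.N + 2 * log 2 ∧
    (8000 * log p.N ≤ log k ∨ log (p.tauB k) ≤ log (p.stau k) + log 2) := by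
  have g0 := h.gtau_nonneg
  have g1 := h.gtau_le
  have s0 := h.one_le_stau
  have s1 := h.stau_le
  have s2 : p.N ^ 3290 ≤ p.N ^ 3710 := pow_le_pow_right₀ h.one_le_N (by norm_num)
  refine ⟨log_le_log h.stau_pos (by unfold Par.tauB; linarith), ?_, ?_⟩
  · have : 3710 * log p.N + 2 * log 2 = log (p.N ^ 3710 * 2 ^ 2) := by
      rw [log_mul (pow_pos h.N_pos _).ne' (by norm_num), log_pow, log_pow]; norm_num
    rw [this]
    exact log_le_log h.tauB_pos (by unfold Par.tauB; linarith)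
  · rcases le_total k p.k1 with c | c
    · right
      rw [← log_mul h.stau_pos.ne' two_ne_zero]
      refine log_le_log h.tauB_pos ?_
      unfold Par.tauB; rw [h.gtau_eq_zero c]; linarith
    · left
      have := log_le_log h.k1_pos c
      unfold Par.k1 at this; rw [log_pow] at this; exact_mod_cast this

omit h in
theorem logs_c :
    (0 ≤ log 3 ∧ log 3 ≤ 2 * log 2) ∧ (0 ≤ log 4 ∧ log 4 ≤ 2 * log 2) ∧
    (0 ≤ log 5 ∧ log 5 ≤ 3 * log 2) ∧ (0 ≤ log 6 ∧ log 6 ≤ 3 * log 2) ∧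
    (0 ≤ log 8 ∧ log 8 ≤ 3 * log 2) ∧ (0 ≤ log 10 ∧ log 10 ≤ 4 * log 2) ∧
    (0 ≤ log 20 ∧ log 20 ≤ 5 * log 2) ∧ (0 ≤ log 21 ∧ log 21 ≤ 5 * log 2) ∧
    (0 ≤ log 50 ∧ log 50 ≤ 6 * log 2) ∧
    (0 ≤ log 100 ∧ log 100 ≤ 7 * log 2) ∧ (0 ≤ log 1000 ∧ log 1000 ≤ 10 * log 2) ∧
    (0 ≤ log 10000 ∧ log 10000 ≤ 14 * log 2) := by
  refine ⟨?_, ?_, ?_, ?_, ?_, ?_, ?_, ?_, ?_, ?_, ?_, ?_⟩
  · exact_mod_cast logc (c := 3) 2 (by norm_num) (by norm_num)
  · exact_mod_cast logc (c := 4) 2 (by norm_num) (by norm_num)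
  · exact_mod_cast logc (c := 5) 3 (by norm_num) (by norm_num)
  · exact_mod_cast logc (c := 6) 3 (by norm_num) (by norm_num)
  · exact_mod_cast logc (c := 8) 3 (by norm_num) (by norm_num)
  · exact_mod_cast logc (c := 10) 4 (by norm_num) (by norm_num)
  · exact_mod_cast logc (c := 20) 5 (by norm_num) (by norm_num)
  · exact_mod_cast logc (c := 21) 5 (by norm_num) (by norm_num)
  · exact_mod_cast logc (c := 50) 6 (by norm_num) (by norm_num)
  · exact_mod_cast logc (c := 100) 7 (by norm_num) (by norm_num)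
  · exact_mod_cast logc (c := 1000) 10 (by norm_num) (by norm_num)
  · exact_mod_cast logc (c := 10000) 14 (by norm_num) (by norm_num)

/-- Turn the hypothesis `k1 ≤ k` into a logarithmic fact. -/
theorem log_k1_le (hk : p.k1 ≤ k) : 8000 * log p.N ≤ log k := by
  have := log_le_log h.k1_pos hk
  unfold Par.k1 at this; rw [log_pow] at this; exact_mod_cast this

/-- Turn an upper bound `k ≤ 4 k1` into a logarithmic fact. -/
theorem log_le_k1 (hk : k ≤ 4 * p.k1) : log k ≤ 8000 * log p.N + 2 * log 2 := by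
  have := log_le_log h.k_pos hk
  unfold Par.k1 at this
  rw [log_mul (by norm_num) (pow_pos h.N_pos _).ne', log_pow] at this
  have := logs_c.2.1.2
  push_cast at *; linarith

end Num

/-- One monomial inequality.  Extra logarithmic facts (for example `h.log_k1_le hk`, or
`logc (c := 37) 6 (by norm_num) (by norm_num)` for a numeral that is not in `Num.logs_c`) are
taken from the context. -/
macro "lognum1 " h:term : tactic => `(tactic| (
  refine le_of_log_le' (by positivity) (by positivity) ?_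
  try simp (disch := positivity) only [Real.log_mul, Real.log_div, Real.log_pow, Real.log_sqrt,
    Real.log_inv, Real.log_one, Nat.cast_ofNat, Nat.cast_one]
  first
  | linarith
  | (rcases Num.logs_kb $h with c | c <;> linarith)
  | (rcases Num.logs_kb $h with c | c <;> rcases (Num.logs_G4 $h).2.2 with c' | c' <;> linarith)
  | (rcases Num.logs_kb $h with c | c <;> rcases (Num.logs_G4 $h).2.2 with c' | c' <;>
      rcases (Num.logs_tauB $h).2.2 with c'' | c'' <;>
      rcases (Num.logs_G3 $h).2.2 with c''' | c''' <;> linarith)))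

/-- A sum of positive monomials is at most a positive monomial. -/
macro "lognum " h:term : tactic => `(tactic| (
  obtain ⟨_, _, _, _, _, _, _, _, _, _, _, _, _, _, _, _, _, _, _, _, _, _, _⟩ := Num.poss $h
  obtain ⟨_, _, _, _, _, _, _, _, _, _, _, _, _, _, _, _, _, _, _, _, _, _, _, _, _⟩ :=
    Num.logs₁ $h
  obtain ⟨⟨_, _⟩, ⟨_, _⟩, ⟨_, _⟩, ⟨_, _⟩, ⟨_, _⟩, ⟨_, _⟩, ⟨_, _⟩, ⟨_, _⟩, ⟨_, _⟩, ⟨_, _⟩,
    ⟨_, _⟩, ⟨_, _⟩⟩ := Num.logs_c
  obtain ⟨_, _, -⟩ := Num.logs_G4 $h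
  obtain ⟨_, _, -⟩ := Num.logs_G3 $h
  obtain ⟨_, _, -⟩ := Num.logs_tauB $h
  repeat' (refine add_le_of_halves ?_ ?_)
  all_goals lognum1 $h))

section examples
variable {p : Par ℝ} {k : ℝ}

example (h : Num p k) : p.Ups k * p.Om k ^ 2 / k ^ 2 ≤ p.stau k / (p.N * k) := by lognum h

example (h : Num p k) :
    100 * p.G3 k * p.tauB k / k ^ 2 + p.Ups k * √(p.N * k * p.F k) * p.Om k ^ 2 / k ^ 2 + 3 / k ^ 2
      ≤ p.F k := by lognum h

example (h : Num p k) (hk : p.k1 ≤ k) : p.G4 k * p.tauB k / k ≤ p.n / p.N ^ 3 := by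
  have := h.log_k1_le hk
  lognum h

end examples

end Crest.Agent.R062
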