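import Crest.Agent.R062.State
import Crest.Agent.R062.Sub
import Crest.Agent.R062.Num

/-! Numerical facts about the parameters. -/

open Matrix Finset

namespace Crest.Agent.R062
variable {d n : ℕ}

theorem exists_big (hd : 3 ≤ d) : ∃ n₀ : ℕ, ∀ n, n₀ ≤ n → Big d n := by
  refine ⟨(10 ^ 14 * d ^ 10) ^ 10000, fun n hn => ⟨hd, ?_⟩⟩
  generalize 10 ^ 14 * d ^ 10 = A at hn ⊢
  exact Nat.le_findGreatest (le_trans (Nat.le_self_pow (by norm_num) A) hn) hn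

theorem le_of_sq_le_sq' {K : Type} [Field K] [LinearOrder K] [IsStrictOrderedRing K] {a b : K}
    (hb : 0 ≤ b) (h : a ^ 2 ≤ b ^ 2) : a ≤ b :=
  le_trans (le_abs_self a) (abs_le_of_sq_le_sq h hb)

theorem succ_pow_le_two_mul (N k : ℕ) (h : 2 * k ≤ N) : (N + 1) ^ k ≤ 2 * N ^ k := by
  have h1 : (0 : ℝ) < (N : ℝ) + 1 := by positivity
  have h2 := one_add_mul_le_pow (a := -(1 / ((N : ℝ) + 1)))
    (by have : 1 / ((N : ℝ) + 1) ≤ 1 := by rw [div_le_one h1]; linarith [Nat.cast_nonneg (α := ℝ) N]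
        linarith) k
  have h3 : (1 + -(1 / ((N : ℝ) + 1))) = (N : ℝ) / ((N : ℝ) + 1) := by field_simp; ring
  rw [h3, div_pow, le_div_iff₀ (by positivity)] at h2
  have h4 : (k : ℝ) * (1 / ((N : ℝ) + 1)) ≤ 1 / 2 := by
    rw [mul_one_div, div_le_div_iff₀ h1 (by norm_num)]
    have : (2 : ℝ) * k ≤ N := by exact_mod_cast h
    linarith
  have h5 : (0 : ℝ) ≤ ((N : ℝ) + 1) ^ k := by positivity
  have : (((N + 1) ^ k : ℕ) : ℝ) ≤ ((2 * N ^ k : ℕ) : ℝ) := by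
    push_cast; nlinarith
  exact_mod_cast this

namespace Big
variable (h : Big d n)
include h

omit h in
theorem n_lo' (n : ℕ) : NN n ^ 10000 ≤ n :=
  Nat.findGreatest_spec (P := fun N => N ^ 10000 ≤ n) (Nat.zero_le n) (by simp)
theorem n_lo : NN n ^ 10000 ≤ n := n_lo' n
theorem d_pow_le : d ^ 10 * 10 ^ 14 ≤ NN n := by have := h.hN; rwa [mul_comm] at this
theorem N_ge : 10 ^ 14 ≤ NN n :=
  le_trans (Nat.le_mul_of_pos_right _ (pow_pos (by have := h.hd; omega) _)) h.hN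
theorem N_pos : 0 < NN n := lt_of_lt_of_le (by norm_num) h.N_ge
theorem N_lt_pow {j : ℕ} (hj : 2 ≤ j) : NN n < NN n ^ j := by
  have h1 := h.N_ge
  calc NN n < NN n * NN n := by nlinarith
    _ = NN n ^ 2 := by ring
    _ ≤ NN n ^ j := Nat.pow_le_pow_right h.N_pos hj
theorem n_hi : n ≤ 2 * NN n ^ 10000 := by
  have h1 : NN n + 1 ≤ n := le_trans (h.N_lt_pow (by norm_num)) h.n_lo
  have h2 : ¬ (NN n + 1) ^ 10000 ≤ n :=
    Nat.findGreatest_is_greatest (P := fun N => N ^ 10000 ≤ n) (Nat.lt_succ_self _) h1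
  exact (not_le.1 h2).le.trans (succ_pow_le_two_mul _ _ (le_trans (by norm_num) h.N_ge))
theorem n_pos : 0 < n := lt_of_lt_of_le (pow_pos h.N_pos _) h.n_lo
theorem N_le_n : NN n ≤ n := (h.N_lt_pow (by norm_num)).le.trans h.n_lo
theorem N_le_L : NN n ≤ LL n := (h.N_lt_pow (by norm_num)).le
theorem d_pow_le' {j : ℕ} (hj : j ≤ 10) : 10 ^ 14 * d ^ j ≤ NN n :=
  le_trans (Nat.mul_le_mul_left _ (Nat.pow_le_pow_right (by have := h.hd; omega) hj)) h.hN

theorem jj_spec : (d - 1) * jj d n ^ 2 ≤ LL n ^ 2 ∧ LL n ^ 2 < (d - 1) * (jj d n + 1) ^ 2 ∧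
    jj d n ≤ LL n := by
  have h1 : (d - 1) * jj d n ^ 2 ≤ LL n ^ 2 :=
    Nat.findGreatest_spec (P := fun j => (d - 1) * j ^ 2 ≤ LL n ^ 2) (Nat.zero_le _) (by simp)
  have h3 : jj d n ≤ LL n := Nat.findGreatest_le _
  refine ⟨h1, ?_, h3⟩
  have hL : 0 < LL n := lt_of_lt_of_le h.N_pos h.N_le_L
  have hd : 2 ≤ d - 1 := by have := h.hd; omega
  rcases h3.lt_or_eq with h4 | h4
  · exact not_le.1 (Nat.findGreatest_is_greatest (P := fun j => (d - 1) * j ^ 2 ≤ LL n ^ 2)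
      (Nat.lt_succ_self _) h4)
  · rw [h4] at h1
    have : 0 < LL n ^ 2 := pow_pos hL 2
    nlinarith

/-- The basic facts in `ℚ`. -/
theorem basic : (3 : ℚ) ≤ d ∧ (10 : ℚ) ^ 14 * (d : ℚ) ^ 2 ≤ LL n ∧
    ((d : ℚ) - 1) * (jj d n : ℚ) ^ 2 ≤ (LL n : ℚ) ^ 2 ∧
    (LL n : ℚ) ^ 2 < ((d : ℚ) - 1) * ((jj d n : ℚ) + 1) ^ 2 ∧ (jj d n : ℚ) ≤ LL n ∧
    (2 : ℚ) ≤ jj d n := by
  obtain ⟨h1, h2, h3⟩ := h.jj_spec
  have hd := h.hd
  have e : ((d - 1 : ℕ) : ℚ) = (d : ℚ) - 1 := by rw [Nat.cast_sub (by omega)]; norm_num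
  have h4 := (h.d_pow_le' (j := 2) (by norm_num)).trans h.N_le_L
  refine ⟨by exact_mod_cast hd, by exact_mod_cast h4, by rw [← e]; exact_mod_cast h1,
    by rw [← e]; exact_mod_cast h2, by exact_mod_cast h3, ?_⟩
  by_contra hc
  have h5 : jj d n + 1 ≤ 2 := by
    have : jj d n < 2 := by exact_mod_cast not_le.1 hc
    omega
  have h6 : (d - 1) * (jj d n + 1) ^ 2 ≤ d * 2 ^ 2 :=
    Nat.mul_le_mul (by omega) (Nat.pow_le_pow_left h5 2)
  have h7 : LL n ≤ LL n ^ 2 := Nat.le_self_pow (by norm_num) _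
  nlinarith

theorem L_pos : (0 : ℚ) < LL n := by exact_mod_cast lt_of_lt_of_le h.N_pos h.N_le_L

/-- `1 - p` is of order `√(d - 1) / L`. -/
theorem pp_bounds : 1 / (LL n : ℚ) ≤ 1 - pp d n ∧ 1 - pp d n ≤ 4 * (d : ℚ) / (LL n : ℚ) := by
  obtain ⟨h1, h2, h3, h4, h5, h6⟩ := h.basic
  have hL := h.L_pos
  unfold pp mm
  generalize (LL n : ℚ) = L at *
  generalize (jj d n : ℚ) = j at *
  generalize (d : ℚ) = D at *
  have e : 1 - (D - 1) * ((j - 1) / L) ^ 2 = (L ^ 2 - (D - 1) * (j - 1) ^ 2) / L ^ 2 := by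
    field_simp
  have hLj : L ≤ (D - 1) * (j + 1) := by
    refine le_of_sq_le_sq' ?_ ?_
    · nlinarith
    · have : (D - 1) * (j + 1) ^ 2 ≤ (D - 1) * ((D - 1) * (j + 1) ^ 2) :=
        le_mul_of_one_le_left (mul_nonneg (by linarith) (sq_nonneg _)) (by linarith)
      nlinarith
  rw [e]
  constructor
  · rw [div_le_div_iff₀ hL (by positivity)]
    have : L ≤ L ^ 2 - (D - 1) * (j - 1) ^ 2 := by nlinarith
    nlinarith
  · rw [div_le_div_iff₀ (by positivity) hL]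
    have : L ^ 2 - (D - 1) * (j - 1) ^ 2 ≤ 4 * D * L := by nlinarith
    nlinarith

theorem mm_pos : 0 < mm d n := div_pos (by linarith [h.basic.2.2.2.2.2]) h.L_pos
theorem pp_lt_one : pp d n < 1 := by
  have := h.pp_bounds.1; have : 0 < 1 / (LL n : ℚ) := one_div_pos.2 h.L_pos; linarith
theorem d_div_L : (d : ℚ) ^ 2 / (LL n : ℚ) ≤ 1 / 10 ^ 14 := by
  rw [div_le_div_iff₀ h.L_pos (by norm_num)]; linarith [h.basic.2.1]
theorem half_le_pp : 1 / 2 ≤ pp d n := by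
  have h1 := h.pp_bounds.2
  have h2 := h.d_div_L
  have h3 := h.basic.1
  have h4 : 4 * (d : ℚ) / (LL n : ℚ) ≤ 4 * ((d : ℚ) ^ 2 / (LL n : ℚ)) := by
    rw [← mul_div_assoc]; exact div_le_div_of_nonneg_right (by nlinarith) h.L_pos.le
  linarith
theorem mm_sq_le : mm d n ^ 2 ≤ 1 / 2 := by
  have h1 := h.pp_lt_one
  have h3 := h.basic.1
  unfold pp at h1
  nlinarith [sq_nonneg (mm d n)]
theorem mm_sq_le_real : (mm d n : ℝ) ^ 2 ≤ 1 / 2 := by
  have : ((mm d n ^ 2 : ℚ) : ℝ) ≤ ((1 / 2 : ℚ) : ℝ) := Rat.cast_le.2 h.mm_sq_le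
  push_cast at this; exact this
theorem mm_le : mm d n ≤ 3 / 4 := by nlinarith [h.mm_sq_le, h.mm_pos]
theorem mm_lt_one : mm d n < 1 := by linarith [h.mm_le]
theorem delta_pos : 0 < 8 * (d : ℚ) / (LL n : ℚ) ^ 2 := by
  have := h.L_pos; have := h.basic.1; positivity
theorem delta_le : 8 * (d : ℚ) / (LL n : ℚ) ^ 2 * d ≤ 1 / 10 ^ 13 := by
  have h1 := h.d_div_L
  have hL := h.L_pos
  have h3 := h.basic.1
  have h2 : (1 : ℚ) ≤ LL n := by have := h.basic.2.1; nlinarith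
  have e : 8 * (d : ℚ) / (LL n : ℚ) ^ 2 * d = 8 * ((d : ℚ) ^ 2 / (LL n : ℚ)) / (LL n : ℚ) := by
    field_simp
  rw [e, div_le_iff₀ hL]
  nlinarith
theorem cc_pos : 0 < cc d n := add_pos h.mm_pos h.delta_pos
theorem cc_le_one : cc d n ≤ 1 := by
  have h1 := h.delta_le; have h2 := h.delta_pos; have h3 := h.basic.1; have h4 := h.mm_le
  unfold cc; nlinarith
theorem inv_N_le_mm : 1 / (NN n : ℚ) ≤ mm d n := by
  have h1 := h.half_le_pp
  have h2 := h.mm_pos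
  have h3 := h.basic.1
  have h4 : (10 : ℚ) ^ 14 * (d : ℚ) ^ 1 ≤ NN n := by exact_mod_cast h.d_pow_le' (j := 1) (by norm_num)
  have h5 := h.mm_le
  unfold pp at h1
  rw [div_le_iff₀ (by nlinarith)]
  nlinarith [mul_pos h2 h2]

theorem num {k : ℝ} (h1 : (NN n : ℝ) ^ 3409 ≤ k) (h2 : k ≤ (n : ℝ) * d) :
    Num (par d n).cast k := by
  have hN : (10 : ℚ) ^ 14 ≤ NN n := by exact_mod_cast h.N_ge
  have hN0 : (0 : ℚ) < NN n := lt_of_lt_of_le (by norm_num) hN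
  have hd := h.basic.1
  have hd2 : (10 : ℚ) ^ 14 * (d : ℚ) ^ 2 ≤ NN n := by
    exact_mod_cast h.d_pow_le' (j := 2) (by norm_num)
  have nlo : (NN n : ℚ) ^ 10000 ≤ n := by exact_mod_cast h.n_lo
  have nhi : (n : ℚ) ≤ 2 * (NN n : ℚ) ^ 10000 := by exact_mod_cast h.n_hi
  have n4 : (4 : ℚ) ≤ n := by
    have : (NN n : ℚ) ≤ n := by exact_mod_cast h.N_le_n
    linarith [show (4 : ℚ) ≤ 10 ^ 14 by norm_num]
  have hL : (LL n : ℚ) = (NN n : ℚ) ^ 3150 := by simp [LL]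
  obtain ⟨p1, p2⟩ := h.pp_bounds
  have p3 := h.half_le_pp
  have p4 := h.pp_lt_one
  have e1 : (NN n : ℚ) ^ 10000 = (NN n : ℚ) ^ 6850 * (NN n : ℚ) ^ 3150 := by rw [← pow_add]
  have e2 : (NN n : ℚ) ^ 10001 = (NN n : ℚ) ^ 10000 * NN n := by rw [← pow_succ]
  have e3 : (NN n : ℚ) ^ 6851 = (NN n : ℚ) ^ 6850 * NN n := by rw [← pow_succ]
  have e4 : (NN n : ℚ) ^ 6849 ≤ (NN n : ℚ) ^ 6850 :=
    pow_le_pow_right₀ (by linarith [show (1 : ℚ) ≤ 10 ^ 14 by norm_num]) (by norm_num)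
  have A0 : (0 : ℚ) < (NN n : ℚ) ^ 6850 := pow_pos hN0 _
  have A1 : (0 : ℚ) < (NN n : ℚ) ^ 10000 := pow_pos hN0 _
  have hL0 := h.L_pos
  rw [← hL] at e1
  have Mlo : (NN n : ℚ) ^ 6849 ≤ MM d n := by
    refine e4.trans ?_
    unfold MM
    rw [le_div_iff₀ (by linarith)]
    have q1 : (NN n : ℚ) ^ 6850 ≤ (n : ℚ) * (1 / (LL n : ℚ)) := by
      rw [mul_one_div, le_div_iff₀ hL0]; linarith
    have q2 : (n : ℚ) * (1 / (LL n : ℚ)) ≤ (n : ℚ) * (1 - pp d n) :=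
      mul_le_mul_of_nonneg_left p1 (by linarith)
    have q3 : (n : ℚ) * (1 - pp d n) ≤ (n : ℚ) * d * (1 - pp d n) := by
      have : 0 ≤ (n : ℚ) * (1 - pp d n) := mul_nonneg (by linarith) (by linarith)
      nlinarith
    generalize (NN n : ℚ) ^ 6850 = A at *
    nlinarith
  have Mhi : MM d n ≤ (NN n : ℚ) ^ 6851 := by
    unfold MM
    rw [div_le_iff₀ (by linarith), e3]
    have q1 : (n : ℚ) * d * (1 - pp d n) ≤ (n : ℚ) * d * (4 * (d : ℚ) / (LL n : ℚ)) :=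
      mul_le_mul_of_nonneg_left p2 (by positivity)
    have q2 : (n : ℚ) * d * (4 * (d : ℚ) / (LL n : ℚ)) ≤ 8 * (d : ℚ) ^ 2 * (NN n : ℚ) ^ 6850 := by
      rw [← mul_div_assoc, div_le_iff₀ hL0]
      rw [e1] at nhi
      generalize (NN n : ℚ) ^ 6850 = A at *
      have : 0 ≤ (d : ℚ) ^ 2 := by positivity
      nlinarith [mul_le_mul_of_nonneg_left nhi this]
    generalize (NN n : ℚ) ^ 6850 = A at *
    have q3 : 16 * (d : ℚ) ^ 2 ≤ NN n := by nlinarith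
    have q4 : A * (NN n : ℚ) * (1 / 2) ≤ A * (NN n : ℚ) * pp d n :=
      mul_le_mul_of_nonneg_left p3 (by positivity)
    nlinarith [mul_le_mul_of_nonneg_left q3 A0.le]
  have Tlo : (n : ℚ) / (NN n : ℚ) ≤ TT d n := by
    have m0 := h.mm_pos
    have m1 := h.inv_N_le_mm
    have d0 := h.delta_pos
    have c1 : ((d : ℚ) - 1) * mm d n ≤ cc d n * d - mm d n := by unfold cc; nlinarith
    have c2 : (((d : ℚ) - 1) * mm d n) ^ 3 ≤ (cc d n * d - mm d n) ^ 3 :=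
      pow_le_pow_left₀ (by nlinarith) c1 3
    have c3 : (((d : ℚ) - 1) * mm d n) ^ 3 = ((d : ℚ) - 1) ^ 2 * (pp d n * mm d n) := by
      unfold pp; ring
    have c4 : (n : ℚ) * ((d : ℚ) - 1) * mm d n ^ 3 = n * (pp d n * mm d n) := by unfold pp; ring
    have c5 : mm d n / 2 ≤ pp d n * mm d n := by nlinarith
    have c6 : (n : ℚ) / (NN n : ℚ) ≤ n * mm d n := by
      rw [div_eq_mul_one_div]; exact mul_le_mul_of_nonneg_left m1 (by linarith)
    unfold TT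
    rw [c4]
    rw [c3] at c2
    have c7 : 4 * (pp d n * mm d n) ≤ ((d : ℚ) - 1) ^ 2 * (pp d n * mm d n) :=
      mul_le_mul_of_nonneg_right (by nlinarith) (by linarith)
    have c8 := mul_le_mul_of_nonneg_left (c7.trans c2) (show (0 : ℚ) ≤ n - 1 by linarith)
    nlinarith
  have dN : (d : ℚ) ≤ NN n := by nlinarith
  have nhi' : (n : ℚ) ≤ (NN n : ℚ) ^ 10001 := by
    rw [e2]
    generalize (NN n : ℚ) ^ 10000 = A at *
    nlinarith
  refine ⟨?_, ?_, ?_, ?_, ?_, ?_, ?_, ?_, ?_, ?_⟩ <;> simp only [Par.cast, par]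
  · exact_mod_cast hN
  · exact_mod_cast nlo
  · exact_mod_cast nhi'
  · exact_mod_cast Mlo
  · exact_mod_cast Mhi
  · exact_mod_cast h1
  · have : (d : ℝ) ≤ NN n := by exact_mod_cast dN
    push_cast
    nlinarith [Nat.cast_nonneg (α := ℝ) n]
  · exact_mod_cast h.inv_N_le_mm
  · exact h.mm_sq_le_real
  · exact_mod_cast Tlo

theorem theta_lt : (theta d n : ℝ) < 2 * Real.sqrt ((d : ℝ) - 1) := by
  obtain ⟨h1, -, h3, h4, -, h6⟩ := h.basic
  have h1' : (3 : ℝ) ≤ d := by exact_mod_cast h1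
  have h3' : ((d : ℝ) - 1) * (jj d n : ℝ) ^ 2 ≤ (LL n : ℝ) ^ 2 := by exact_mod_cast h3
  have h4' : (LL n : ℝ) ^ 2 < ((d : ℝ) - 1) * ((jj d n : ℝ) + 1) ^ 2 := by exact_mod_cast h4
  have h6' : (2 : ℝ) ≤ jj d n := by exact_mod_cast h6
  have hL : (0 : ℝ) < LL n := by exact_mod_cast h.L_pos
  have m0 : (0 : ℝ) < mm d n := by exact_mod_cast h.mm_pos
  have m2 : (mm d n : ℝ) ^ 2 ≤ 1 / 2 := h.mm_sq_le_real
  have c0 : (0 : ℝ) < cc d n := by exact_mod_cast h.cc_pos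
  have c1 : (cc d n : ℝ) ≤ 1 := by exact_mod_cast h.cc_le_one
  have em : (mm d n : ℝ) * LL n = jj d n - 1 := by unfold mm; push_cast; field_simp
  have ec : (cc d n : ℝ) = mm d n + 8 * d / (LL n : ℝ) ^ 2 := by unfold cc; push_cast; ring
  have et : (theta d n : ℝ) = mm d n * d + (1 - (mm d n : ℝ) ^ 2) / cc d n := by
    unfold theta; push_cast; ring
  rw [et]
  have s0 : 0 < Real.sqrt ((d : ℝ) - 1) := Real.sqrt_pos.2 (by linarith)
  have s2 : Real.sqrt ((d : ℝ) - 1) ^ 2 = d - 1 := Real.sq_sqrt (by linarith)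
  generalize Real.sqrt ((d : ℝ) - 1) = σ at *
  generalize (mm d n : ℝ) = m at *
  generalize (cc d n : ℝ) = c at *
  generalize (LL n : ℝ) = L at *
  generalize (jj d n : ℝ) = j at *
  generalize (d : ℝ) = D at *
  have a1 : σ * j ≤ L := by
    refine le_of_sq_le_sq' hL.le ?_
    nlinarith
  have a2 : L ≤ σ * (j + 1) := by
    refine le_of_sq_le_sq' (by positivity) ?_
    nlinarith
  have a3 : ((1 - σ * m) * L) ^ 2 ≤ (2 * σ) ^ 2 := by
    have e : (1 - σ * m) * L = L - σ * (j - 1) := by rw [← em]; ring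
    rw [e]
    exact pow_le_pow_left₀ (by nlinarith) (by nlinarith) 2
  have a4 : (1 - σ * m) ^ 2 < 4 * D / L ^ 2 := by
    rw [lt_div_iff₀ (by positivity)]; nlinarith
  have a5 : 4 * D / L ^ 2 ≤ (1 - m ^ 2) * (c - m) / c := by
    rw [le_div_iff₀ c0]
    have e : c - m = 2 * (4 * D / L ^ 2) := by rw [ec]; ring
    have p : 0 < 4 * D / L ^ 2 := by positivity
    rw [e]; nlinarith
  have a6 : m * (2 * σ - (m * D + (1 - m ^ 2) / c))
      = (1 - m ^ 2) * (c - m) / c - (1 - σ * m) ^ 2 := by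
    have : D = σ ^ 2 + 1 := by linarith
    rw [this]; field_simp; ring
  have a7 : 0 < m * (2 * σ - (m * D + (1 - m ^ 2) / c)) := by linarith
  have := (mul_pos_iff_of_pos_left m0).1 a7
  linarith

theorem count_le : d + d ^ 2 ≤ NN n := by
  have := h.d_pow_le' (j := 2) (by norm_num)
  nlinarith
/-- The greedy phase stops with about `N ^ 3410` free stubs. -/
theorem steps_lo : 2 * steps d n + NN n ^ 3409 ≤ n * d := by
  have h1 : NN n ^ 3409 < NN n ^ 3410 :=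
    Nat.pow_lt_pow_right (lt_of_lt_of_le (by norm_num) h.N_ge) (by norm_num)
  have h2 : NN n ^ 3410 ≤ n * d :=
    ((Nat.pow_le_pow_right h.N_pos (by norm_num)).trans h.n_lo).trans
      (Nat.le_mul_of_pos_right _ (by have := h.hd; omega))
  unfold steps
  generalize NN n ^ 3409 = A at *
  generalize NN n ^ 3410 = B at *
  omega
theorem steps_hi : n * d ≤ 2 * steps d n + NN n ^ 3410 := by
  unfold steps
  generalize NN n ^ 3410 = B at *
  omega
/-- The total increase of the potential is small. -/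
theorem log_le {k : ℝ} (h1 : 1 ≤ k) :
    250 / (NN n : ℝ) * Real.log ((n : ℝ) * d / k) ≤ 3 / 4 := by
  have hN : (10 : ℝ) ^ 14 ≤ NN n := by exact_mod_cast h.N_ge
  have hN0 : (0 : ℝ) < NN n := lt_of_lt_of_le (by norm_num) hN
  have hnd : (0 : ℝ) < (n : ℝ) * d := by
    have := h.n_pos; have := h.hd; have : 0 < d := by omega
    positivity
  have h2 : n * d ≤ NN n ^ 10001 := by
    have a := h.n_hi
    have b := h.d_pow_le' (j := 1) (by norm_num)
    rw [pow_succ]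
    generalize NN n ^ 10000 = A at *
    nlinarith
  have h3 : (n : ℝ) * d / k ≤ (NN n : ℝ) ^ 10001 :=
    (div_le_self hnd.le h1).trans (by exact_mod_cast h2)
  have h4 := Real.log_le_log (by positivity) h3
  rw [Real.log_pow] at h4
  have s0 : 0 < Real.sqrt (NN n : ℝ) := Real.sqrt_pos.2 hN0
  have s2 : Real.sqrt (NN n : ℝ) ^ 2 = NN n := Real.sq_sqrt hN0.le
  have h5 : Real.log (NN n : ℝ) ≤ 2 * Real.sqrt (NN n : ℝ) := by
    have := Real.log_le_sub_one_of_pos s0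
    rw [Real.log_sqrt hN0.le] at this
    linarith
  have s3 : (10 : ℝ) ^ 7 ≤ Real.sqrt (NN n : ℝ) := Real.le_sqrt_of_sq_le (by linarith)
  rw [div_mul_eq_mul_div, div_le_iff₀ hN0]
  push_cast at h4
  nlinarith

end Big

/-- At the end of the greedy phase the matrices are tiny. -/
theorem Num.Om_small {p : Par ℝ} {k : ℝ} (h : Num p k) (hk : k ≤ p.N ^ 3410) :
    p.Om k ≤ 1 / p.N ^ 2 := by
  have : Real.log k ≤ 3410 * Real.log p.N := by
    have := Real.log_le_log h.k_pos hk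
    rw [Real.log_pow] at this; exact_mod_cast this
  lognum h

end Crest.Agent.R062
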