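import Crest.Agent.R062.T1Aux

/-! Drift and variance of `tr X ^ 2`. -/

open Matrix Finset

namespace Crest.Agent.R062
variable {α : Type} [Fintype α] [DecidableEq α] {p : Par ℝ} {ϱ h sz : α → α → ℝ}
  {X Y : Matrix α α ℝ} {s : ℝ}

/-- The sum of the error terms in the drift of `tr X ^ 2`. -/
noncomputable def t2Err (p : Par ℝ) (k : ℝ) : ℝ :=
  ((4 * (p.Ups k * Real.sqrt (p.N * k * p.F k) * p.Om k ^ 2 / k ^ 2)
    + 4 * (p.G3 k * p.tauB k / k ^ 2))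
    + (2 * (p.Ups k * (p.Om k * Real.sqrt (p.N ^ 4 * k * p.F k)) * Real.sqrt (p.N ^ 41 * p.F k) / k ^ 2)
    + 2 * (p.Ups k * Real.sqrt (p.N ^ 41 * p.F k) * (p.Om k * Real.sqrt (p.N ^ 4 * k * p.F k)) / k ^ 2)))
    + ((2 * (p.Ups k * Real.sqrt (p.N ^ 4 * k * p.F k) * Real.sqrt (p.N ^ 4 * k * p.F k) / k ^ 2)
    + 4 * (2 * Real.sqrt (p.N * k * p.F k) * Real.sqrt (k * (p.N ^ 4 * k * p.F k)) / k ^ 2))
    + (2 * (2 * (p.N * k * p.F k) / k ^ 2) + 2 * (2 * p.Om k ^ 4 / k ^ 2)))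
    + ((2 * (p.Ups k * Real.sqrt (p.N ^ 40 * p.F k) * Real.sqrt (p.N ^ 40 * p.F k) / k ^ 2)
    + 2 * (p.tauB k * p.tauB k / k ^ 2))
    + (4 * (2 * p.Om k ^ 2 * Real.sqrt (k * (1 / k)) / k ^ 2)
    + (p.N * p.G4 k / k ^ 2 + p.N ^ 47 * p.F k / k)))

theorem t2Err_le {k : ℝ} (hn : Num p k) : t2Err p k ≤ p.sT k / (p.N * k) / 2 := by
  unfold t2Err Par.sT
  lognum hn

theorem t2Err_le' {k : ℝ} (hn : Num p k) : t2Err p k ≤ p.F k := by
  unfold t2Err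
  lognum hn

theorem Ctx.t2_core (c : Ctx p ϱ h sz X s) :
    |Ex ϱ (fun x y => tr (upd X s x y) 2 - tr X 2) - (2 * (tr X 2 / kk α) ^ 2
      - 2 * Ex (fun x y => ϱ x y * (s * eta X s x y)) (fun x _ => rho X x)
      - 2 * Ex (fun x y => ϱ x y * (s * eta X s x y)) (fun _ y => rho X y))| ≤ t2Err p (kk α) := by
  have hn := c.num
  have hk := hn.k_pos
  have h1 := c.nu_eta
  have h2 := c.nu_invDel
  have e : Ex ϱ (fun x y => tr (upd X s x y) 2 - tr X 2) =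
      Ex ϱ (fun x y => 2 * ((s * eta X s x y) * (2 * s * pw X 3 x y - rho X x - rho X y)
        + (1 / Del X s x y) * (pw X 3 x x * ah X s y + ah X s x * pw X 3 y y + rho X x * rho X y
          - s * (X x y * rho X x) - s * (X x y * rho X y) + X x y ^ 2 - pw X 2 x y ^ 2
          - X x x * X y y - 2 * (pw X 2 x y * (1 / kk α)))) + el1 X s x y ^ 2) := by
    refine Ex_congr fun x y hxy => ?_
    rw [(c.piv hxy).tr_two]
    simp only [el2, trC, dN, e11, e22, ah, zero_add, Nat.reduceAdd, pw_one, pw_two_self]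
    linear_combination (-4 * eta X s x y * pw X 3 x y + 2 / Del X s x y *
      (X x y ^ 2 - X x x * X y y - 2 * pw X 2 x y / kk α)) * c.s_sq
  rw [e, Ex_add, Ex_const_mul, Ex_add, Ex_weight, Ex_weight, Ex_sub, Ex_sub, Ex_const_mul,
    Ex_sub, Ex_sub, Ex_sub, Ex_add, Ex_sub, Ex_sub, Ex_add, Ex_add, Ex_const_mul, Ex_const_mul,
    Ex_const_mul]
  have sR := Real.sqrt_le_sqrt (c.sys.R_le hn)
  have sRh := Real.sqrt_le_sqrt (c.sys.Rh_le hn c.sgn)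
  have sQ := Real.sqrt_le_sqrt (c.sys.Q_le hn)
  have sf := Real.sqrt_le_sqrt c.t12_f
  have e3 : ∀ x y, (Xᵀ * X ^ 2) x y = pw X 3 x y := fun x y => by
    rw [c.sys.symm.eq, ← pow_succ']; rfl
  have a1 : |Ex (fun x y => ϱ x y * (s * eta X s x y)) (fun x y => pw X 3 x y)|
      ≤ p.Ups (kk α) * Real.sqrt (p.N * kk α * p.F (kk α)) * p.Om (kk α) ^ 2 / kk α ^ 2 := by
    have := h1.Ex_noise_mul X (X ^ 2) (by simp only [e3]; exact c.t12_sum_pw 3 (by norm_num))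
    simp only [e3] at this
    refine this.trans ?_
    have := hn.Ups_pos
    have h3 : Real.sqrt (∑ x, ∑ y, (X ^ 2) x y ^ 2) ≤ p.Om (kk α) ^ 2 := c.t12_c2'
    gcongr
  have a2 := h2.t12_prod hk (fun x => pw X 3 x x) (ah X s) c.t12_a3 sRh
  have a3 := h2.t12_prod hk (ah X s) (fun x => pw X 3 x x) sRh c.t12_a3
  have a4 := h2.t12_prod hk (rho X) (rho X) sQ sQ
  have a5 := h2.t12_mul_left (fun x y => X x y) (rho X) sf (c.sys.Q_le hn)
  have a6 := h2.t12_mul_right (fun x y => X x y) (rho X) sf (c.sys.Q_le hn)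
  have a7 := h2.t12_sq (fun x y => X x y) c.t12_f
  have a8 := h2.t12_sq (fun x y => pw X 2 x y) c.t12_c2
  have a9 := h2.t12_prod hk (fun x => X x x) (fun x => X x x) sR sR
  have a10 := h2.t12_mul_left (fun x y => pw X 2 x y) (fun _ => 1 / kk α) (B := 1 / kk α) c.t12_c2'
    (by
      rw [sum_const, card_univ, nsmul_eq_mul]
      change kk α * _ ≤ _
      refine le_of_eq ?_
      field_simp)
  have a11 := c.mom_el1
  have a12 : 0 ≤ Ex ϱ (fun x y => el1 X s x y ^ 2) := Ex_nonneg c.nu.nonneg fun _ _ _ => sq_nonneg _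
  have a13 : |tr X 3 * (tr X 1 + s) / kk α ^ 2| ≤ p.G3 (kk α) * p.tauB (kk α) / kk α ^ 2 := by
    rw [abs_div, abs_mul, abs_of_nonneg (sq_nonneg (kk α))]
    have := c.sys.t3_le hn
    have := c.t12_tau_s
    have := hn.G3_pos
    gcongr
  have a14 : |tr X 1 * tr X 1 / kk α ^ 2| ≤ p.tauB (kk α) * p.tauB (kk α) / kk α ^ 2 := by
    rw [abs_div, abs_mul, abs_of_nonneg (sq_nonneg (kk α))]
    have h3 : |tr X 1| ≤ p.tauB (kk α) := by linarith [c.sys.abs_tau_le hn]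
    have := hn.tauB_pos
    gcongr
  rw [← tr_eq_sum, c.sys.sum_ah hn] at a2 a3
  rw [mul_comm (tr X 1 + s)] at a3
  rw [sum_rho] at a4
  rw [c.t12_tau] at a9
  have b1 := abs_le.1 (c.t12_abs_s_mul a1)
  have b2 := abs_le.1 a2
  have b3 := abs_le.1 a3
  have b4 := abs_le.1 a4
  have b5 := abs_le.1 (c.t12_abs_s_mul a5)
  have b6 := abs_le.1 (c.t12_abs_s_mul a6)
  have b7 := abs_le.1 a7
  have b8 := abs_le.1 a8
  have b9 := abs_le.1 a9
  have b10 := abs_le.1 a10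
  have b13 := abs_le.1 a13
  have b14 := abs_le.1 a14
  have m : (tr X 2 / kk α) ^ 2 = tr X 2 * tr X 2 / kk α ^ 2 := by ring
  unfold t2Err
  rw [m, abs_le]
  constructor <;>
    linarith [b1.1, b1.2, b2.1, b2.2, b3.1, b3.2, b4.1, b4.2, b5.1, b5.2, b6.1, b6.2, b7.1, b7.2,
      b8.1, b8.2, b9.1, b9.2, b10.1, b10.2, b13.1, b13.2, b14.1, b14.2]

theorem Ctx.drift_t2 (c : Ctx p ϱ h sz X s) :
    |Ex ϱ (fun x y => tr (upd X s x y) 2 - tr X 2)
      - 2 * ((tr X 2 / kk α) ^ 2 - 2 * (tr X 2 / kk α))| ≤ p.sT (kk α) / (p.N * kk α) := by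
  have hn := c.num
  have hk := hn.k_pos
  have sQ := Real.sqrt_le_sqrt (c.sys.Q_le hn)
  have a1 := abs_le.1 (c.t2_core.trans (t2Err_le hn))
  have a2 := c.nu_eta.t12_left hk (rho X) sQ
  have a3 := c.nu_eta.t12_right hk (rho X) sQ
  rw [sum_rho] at a2 a3
  have b2 := abs_le.1 a2
  have b3 := abs_le.1 a3
  have err : 4 * (p.Ups (kk α) * Real.sqrt (p.N ^ 4 * kk α * p.F (kk α)) * Real.sqrt (kk α)
      / kk α ^ 2) ≤ p.sT (kk α) / (p.N * kk α) / 2 := by unfold Par.sT; lognum hn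
  rw [abs_le]
  constructor <;> linarith [a1.1, a1.2, b2.1, b2.2, b3.1, b3.2]

theorem Ctx.var_t2 (c : Ctx p ϱ h sz X s) :
    Ex ϱ (fun x y => (tr (upd X s x y) 2 - tr X 2) ^ 2) ≤ p.sT (kk α) ^ 2 / (p.N * kk α) := by
  have hn := c.num
  have e : Ex ϱ (fun x y => (tr (upd X s x y) 2 - tr X 2) ^ 2) ≤
      Ex ϱ (fun x y => 8 * el2 X s x y ^ 2 + 2 * el1 X s x y ^ 4) := by
    refine Ex_mono c.nu.nonneg fun x y hxy => ?_
    rw [(c.piv hxy).tr_two, add_sub_cancel_left]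
    nlinarith [sq_nonneg (2 * el2 X s x y - el1 X s x y ^ 2)]
  rw [Ex_add, Ex_const_mul, Ex_const_mul] at e
  have a1 := c.mom_el2
  have a2 := c.mom4_el1
  have err : 8 * (p.N * p.Om (kk α) ^ 6 / kk α ^ 2) + 10 * (p.N ^ 10 * p.F (kk α))
      ≤ p.sT (kk α) ^ 2 / (p.N * kk α) := by unfold Par.sT; lognum hn
  linarith

theorem Ctx.drift_t2_lin (c : Ctx p ϱ h sz X s) :
    Ex ϱ (fun x y => tr (upd X s x y) 2 - tr X 2)
      ≤ (2 * (tr X 2 / kk α) - 4 + 1 / p.N) * (tr X 2 / kk α) + p.F (kk α) := by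
  have hn := c.num
  have hk := hn.k_pos
  have a1 := (abs_le.1 (c.t2_core.trans (t2Err_le' hn))).2
  have a2 := c.nu_eta.Ex_left (rho X)
  have a3 := c.nu_eta.Ex_right (rho X)
  have e : ∑ x, |rho X x| = tr X 2 := by
    rw [← sum_rho]
    exact sum_congr rfl fun x _ => abs_of_nonneg (rho_nonneg c.sys.symm x)
  rw [sum_rho, e, mul_div_assoc] at a2 a3
  have err : 4 * Real.sqrt (p.Row (kk α) / kk α) ≤ 1 / p.N := by lognum hn
  have h0 : 0 ≤ tr X 2 / kk α := div_nonneg (c.sys.f_nonneg hn) hk.le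
  have a4 := mul_le_mul_of_nonneg_right err h0
  linarith [(abs_le.1 a2).1, (abs_le.1 a3).1]

end Crest.Agent.R062
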