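import Crest.Agent.R062.Num

/-! Numerical bounds for the drift and the variance of `tr X ^ 3`. -/

namespace Crest.Agent.R062
variable {p : Par ℝ} {k : ℝ}

/-- Error terms of the average of `el3`. -/
noncomputable def t3ErrA (p : Par ℝ) (k : ℝ) : ℝ :=
  2 * (p.Ups k * p.Om k ^ 2 * p.Om k ^ 2 / k ^ 2)
    + 2 * (p.Ups k * (p.Om k ^ 1 * √(p.N ^ 4 * k * p.F k)) * √k / k ^ 2)
    + 2 * (p.Om k ^ 4 * p.tauB k / k ^ 2)
    + 2 * (p.Ups k * (p.Om k ^ 2 * √(p.N ^ 4 * k * p.F k)) * √(p.N ^ 41 * p.F k) / k ^ 2)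
    + 2 / k * (p.Ups k * √k * p.Om k ^ 2 / k ^ 2)
    + 2 * (p.Ups k * √(p.N ^ 4 * k * p.F k) * (p.Om k ^ 1 * √(p.N ^ 4 * k * p.F k)) / k ^ 2)
    + 2 * (21 / 20 * √k * (√k * (p.Om k ^ 1 * √(p.N ^ 4 * k * p.F k))) / k ^ 2)
    + 2 * (21 / 20 * √k * p.Om k ^ 2 / k ^ 2)
    + 2 * (21 / 20 * p.Om k ^ 2 * p.Om k ^ 3 / k ^ 2)
    + 2 * (p.tauB k * (p.N * k * p.F k) / k ^ 2)
    + 2 * (p.Ups k * √(p.N ^ 40 * p.F k) * √(p.N ^ 4 * k * p.F k) / k ^ 2)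

/-- Error terms of the average of `3 el1 el2 + el1 ^ 3`. -/
noncomputable def t3ErrB (p : Par ℝ) (k : ℝ) : ℝ :=
  3 * (√(p.N * p.G4 k / k ^ 2) * √(p.N * p.Om k ^ 6 / k ^ 2))
    + 3 * (√(p.N * p.G4 k / k ^ 2) * √(p.N ^ 10 * p.F k))
    + 3 * (√(p.N ^ 47 * p.F k / k) * √(p.N * p.Om k ^ 6 / k ^ 2))
    + 3 * (√(p.N ^ 47 * p.F k / k) * √(p.N ^ 10 * p.F k))
    + 5 * p.L k * (p.N * p.G4 k / k ^ 2)
    + 5 * p.L k * (p.N ^ 47 * p.F k / k)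

/-- Bound for the second moment of the increment. -/
noncomputable def t3Var (p : Par ℝ) (k : ℝ) : ℝ :=
  100 * (p.N * p.Om k ^ 8 / k ^ 2) + 100 * (p.N ^ 10 * p.Om k ^ 2 * p.F k)
    + 100 * (k * p.F k ^ 2 / p.N ^ 50) + 100 * (p.F k * p.Om k ^ 6 / (p.N ^ 50 * k))
    + 1000 * p.L k ^ 2 * (p.N * p.Om k ^ 6 / k ^ 2) + 1000 * p.L k ^ 2 * (p.N ^ 10 * p.F k)
    + 100 * p.L k ^ 2 * (p.N ^ 10 * p.F k)

section
attribute [local irreducible] Par.k1 Par.stau2 Par.sT Par.GR Par.GD Par.GV Par.G4 Par.G3sq Par.Gf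
  Par.s3

theorem t3ErrA_le (hn : Num p k) : t3ErrA p k ≤ p.G3 k / (6 * (p.N * k)) := by
  unfold t3ErrA
  lognum hn

theorem t3ErrA_le_early (hn : Num p k) (hk : p.k1 ≤ k) :
    t3ErrA p k ≤ p.s3 / (10 * (p.N * k)) := by
  have := hn.log_k1_le hk
  unfold t3ErrA
  lognum hn

theorem t3ErrB_le (hn : Num p k) : t3ErrB p k ≤ p.G3 k / (2 * (p.N * k)) := by
  unfold t3ErrB
  lognum hn

theorem t3ErrB_le_early (hn : Num p k) (hk : p.k1 ≤ k) :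
    t3ErrB p k ≤ p.s3 / (3 * (p.N * k)) := by
  have := hn.log_k1_le hk
  unfold t3ErrB
  lognum hn

theorem t3Var_le (hn : Num p k) : t3Var p k ≤ p.G3sq k / (p.N * k) := by
  unfold t3Var
  lognum hn

theorem t3Var_le_early (hn : Num p k) (hk : p.k1 ≤ k) : t3Var p k ≤ p.s3 ^ 2 / (p.N * k) := by
  have := hn.log_k1_le hk
  unfold t3Var
  lognum hn

theorem t3Main_le_early (hn : Num p k) (hk : p.k1 ≤ k) :
    6 * (p.M / p.kb k) * p.G3 k / k + 6 * (p.sT k / k) * p.G3 k / k ≤ p.s3 / (3 * (p.N * k)) := by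
  have := hn.log_k1_le hk
  lognum hn

end

end Crest.Agent.R062
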