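import Crest.Agent.R062.Mom
import Crest.Agent.R062.T3AuxNum

/-! Drift and variance of `tr X ^ 3`. -/

open Matrix Finset

namespace Crest.Agent.R062
variable {α : Type} [Fintype α] [DecidableEq α] {p : Par ℝ} {ϱ h sz : α → α → ℝ}
  {X Y : Matrix α α ℝ} {s : ℝ}

theorem t3_el3_eq (hs : s = 1 ∨ s = -1) (x y : α) : el3 X s x y =
    (s * eta X s x y) * (2 * s * pw X 4 x y - pw X 3 x x - pw X 3 y y)
      + (1 / Del X s x y) * (pw X 4 x x * ah X s y + ah X s x * pw X 4 y y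
        - 2 / kk α * pw X 3 x y + rho X x * pw X 3 y y + pw X 3 x x * rho X y
        - s * (X x y * pw X 3 x x) - s * (X x y * pw X 3 y y) + 2 * (X x y * pw X 2 x y)
        - 2 * (pw X 2 x y * pw X 3 x y) - X x x * rho X y - rho X x * X y y) := by
  simp only [el3, trC, dN, e11, e22, zero_add, Nat.reduceAdd, pw_one, pw_two_self]
  generalize eta X s x y = η
  generalize Del X s x y = D
  simp only [ah]
  rcases hs with rfl | rfl <;> ring

theorem t3_abs_le {A m e b : ℝ} (h1 : |A - m| ≤ e) (h2 : |m| ≤ b) : |A| ≤ b + e := by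
  have := abs_add_le m (A - m)
  rw [add_sub_cancel] at this
  linarith

section facts
variable (hn : Num p (kk α)) (hs : Sys p X)
include hn hs

theorem t3_diag (j : ℕ) : √(∑ x, pw X (j + 2) x x ^ 2)
    ≤ p.Om (kk α) ^ j * √(p.N ^ 4 * kk α * p.F (kk α)) := by
  have hΩ := hn.Om_pos
  have h1 : ∑ x, pw X (j + 2) x x ^ 2 ≤ (p.Om (kk α) ^ j) ^ 2 * ∑ x, rho X x ^ 2 := by
    rw [mul_sum]
    refine sum_le_sum fun x _ => ?_
    rw [← mul_pow, ← sq_abs]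
    exact pow_le_pow_left₀ (abs_nonneg _) (abs_pw_diag_le hs.symm hΩ.le (hs.t4_le hn) j x) 2
  refine (Real.sqrt_le_sqrt (h1.trans (mul_le_mul_of_nonneg_left (hs.Q_le hn) (sq_nonneg _)))).trans
    (le_of_eq ?_)
  rw [Real.sqrt_mul (sq_nonneg _), Real.sqrt_sq (by positivity)]

theorem t3_off (j : ℕ) : √(∑ x, ∑ y, pw X (j + 2) x y ^ 2) ≤ p.Om (kk α) ^ (j + 2) := by
  have hΩ := hn.Om_pos
  refine (Real.sqrt_le_sqrt (sum_sum_pw_sq_le hs.symm hΩ.le (hs.t4_le hn) j)).trans (le_of_eq ?_)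
  rw [mul_comm, pow_mul, Real.sqrt_sq (by positivity)]

theorem t3_off1 : √(∑ x, ∑ y, X x y ^ 2) ≤ √(kk α) := by
  refine Real.sqrt_le_sqrt ?_
  have := sum_sum_pw_sq hs.symm 1
  simp only [pw_one] at this
  rw [this]
  exact hs.f_le_k hn

theorem t3_rho : √(∑ x, rho X x ^ 2) ≤ √(p.N ^ 4 * kk α * p.F (kk α)) :=
  Real.sqrt_le_sqrt (hs.Q_le hn)

theorem t3_ah (hsg : s = 1 ∨ s = -1) : √(∑ x, ah X s x ^ 2) ≤ √(p.N ^ 41 * p.F (kk α)) :=
  Real.sqrt_le_sqrt (hs.Rh_le hn hsg)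

theorem t3_RR : √(∑ x, X x x ^ 2) ≤ √(p.N ^ 40 * p.F (kk α)) :=
  Real.sqrt_le_sqrt (hs.R_le hn)

variable {W : α → α → ℝ} (hW : NU p W h)
include hW

theorem t3_noise (i j : ℕ) (hj : 1 ≤ j) {A B : ℝ} (hA : √(∑ x, ∑ y, pw X i x y ^ 2) ≤ A)
    (hB : √(∑ x, ∑ y, pw X j x y ^ 2) ≤ B) :
    |Ex W (fun x y => pw X (i + j) x y)| ≤ p.Ups (kk α) * A * B / kk α ^ 2 := by
  have e : ∀ x y, ((X ^ i)ᵀ * X ^ j) x y = pw X (i + j) x y := fun x y => by
    rw [(hs.symm.pow i).eq, ← pow_add, pw]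
  have h1 := hW.Ex_noise_mul (X ^ i) (X ^ j) (by
    simp only [e, pw_rowsum hs.symm hs.rowsum (i + j) (by omega), sum_const_zero])
  simp only [e] at h1
  refine h1.trans ?_
  have hU := hn.Ups_pos
  have hA0 : 0 ≤ A := (Real.sqrt_nonneg _).trans hA
  refine div_le_div_of_nonneg_right ?_ (sq_nonneg _)
  exact mul_le_mul (mul_le_mul_of_nonneg_left hA hU.le) hB (Real.sqrt_nonneg _) (by positivity)

omit hs in
theorem t3_prod (φ ψ : α → ℝ) {A B : ℝ} (hA : √(∑ x, φ x ^ 2) ≤ A) (hB : √(∑ x, ψ x ^ 2) ≤ B) :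
    |Ex W (fun x y => φ x * ψ y) - (∑ x, φ x) * (∑ y, ψ y) / kk α ^ 2|
      ≤ p.Ups (kk α) * A * B / kk α ^ 2 := by
  refine (hW.Ex_prod φ ψ).trans ?_
  have hU := hn.Ups_pos
  have hA0 : 0 ≤ A := (Real.sqrt_nonneg _).trans hA
  refine div_le_div_of_nonneg_right ?_ (sq_nonneg _)
  exact mul_le_mul (mul_le_mul_of_nonneg_left hA hU.le) hB (Real.sqrt_nonneg _) (by positivity)

omit hn hs in
theorem t3_abs (Z Z' : α → α → ℝ) {A B : ℝ} (hA : √(∑ x, ∑ y, Z x y ^ 2) ≤ A)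
    (hB : √(∑ x, ∑ y, Z' x y ^ 2) ≤ B) :
    |Ex W (fun x y => Z x y * Z' x y)| ≤ 21 / 20 * A * B / kk α ^ 2 := by
  refine (abs_Ex_le hW.nonneg fun x y _ => (abs_mul _ _).le).trans (hW.Ex_abs_mul_le.trans ?_)
  have hA0 : 0 ≤ A := (Real.sqrt_nonneg _).trans hA
  refine div_le_div_of_nonneg_right ?_ (sq_nonneg _)
  exact mul_le_mul (mul_le_mul_of_nonneg_left hA (by norm_num)) hB (Real.sqrt_nonneg _)
    (by positivity)

end facts

omit [DecidableEq α] in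
theorem t3_sqrt_left (φ : α → ℝ) {A : ℝ} (hA : √(∑ x, φ x ^ 2) ≤ A) :
    √(∑ x, ∑ _y : α, φ x ^ 2) ≤ √(kk α) * A := by
  have e : ∑ x, ∑ _y : α, φ x ^ 2 = kk α * ∑ x, φ x ^ 2 := by
    simp only [sum_const, card_univ, nsmul_eq_mul, mul_sum, kk]
  rw [e, Real.sqrt_mul (pair_kk_nonneg α)]
  exact mul_le_mul_of_nonneg_left hA (Real.sqrt_nonneg _)

omit [DecidableEq α] in
theorem t3_sqrt_right (φ : α → ℝ) {A : ℝ} (hA : √(∑ x, φ x ^ 2) ≤ A) :
    √(∑ _x : α, ∑ y, φ y ^ 2) ≤ √(kk α) * A := by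
  rw [sum_comm]
  exact t3_sqrt_left φ hA

theorem Ctx.t3_el3 (c : Ctx p ϱ h sz X s) :
    |Ex ϱ (fun x y => el3 X s x y) - 2 * (tr X 2 / kk α - 1) * tr X 3 / kk α|
      ≤ t3ErrA p (kk α) := by
  have hn := c.num
  have hs := c.sys
  have hk := hn.k_pos
  have hU := hn.Ups_pos
  have hΩ := hn.Om_pos
  have h1 := c.nu_eta
  have h2 := c.nu_invDel
  simp only [t3_el3_eq c.sgn]
  rw [Ex_add, Ex_weight, Ex_weight]
  generalize (fun x y => ϱ x y * (s * eta X s x y)) = W1 at h1 ⊢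
  generalize (fun x y => ϱ x y * (1 / Del X s x y)) = W2 at h2 ⊢
  simp only [Ex_add, Ex_sub, Ex_const_mul]
  have d3 := t3_diag hn hs 1
  have d4 := t3_diag hn hs 2
  have o1 := t3_off1 hn hs
  have o2 := t3_off hn hs 0
  have o3 := t3_off hn hs 1
  have dr := t3_rho hn hs
  have da := t3_ah hn hs c.sgn
  have dR := t3_RR hn hs
  simp only [Nat.reduceAdd] at d3 d4 o2 o3
  have tau1 : |tr X 1 + s| ≤ p.tauB (kk α) := by
    refine (abs_add_le _ _).trans ?_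
    rw [c.abs_s]
    exact hs.abs_tau_le hn
  have tau0 : |tr X 1| ≤ p.tauB (kk α) := by linarith [hs.abs_tau_le hn]
  have t4 : |tr X 4| ≤ p.Om (kk α) ^ 4 := by
    rw [abs_of_nonneg (tr_even_nonneg hs.symm 2)]
    exact hs.t4_le hn
  have t2 : |tr X 2| ≤ p.N * kk α * p.F (kk α) := by
    rw [abs_of_nonneg (hs.f_nonneg hn)]
    exact hs.f_le hn
  have sX : ∑ x, X x x = tr X 1 := by simp only [tr_eq_sum, pw_one]
  -- the individual terms
  have hsm : ∀ {A B : ℝ}, |A| ≤ B → |s * A| ≤ B := fun h => by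
    rwa [abs_mul, c.abs_s, one_mul]
  have e1 : |s * Ex W1 (pw X 4)| ≤ _ := hsm (t3_noise hn hs h1 2 2 (by norm_num) o2 o2)
  have e2 : |Ex W1 (fun x _ => pw X 3 x x) - tr X 3 / kk α| ≤ p.Ups (kk α) *
      (p.Om (kk α) ^ 1 * √(p.N ^ 4 * kk α * p.F (kk α))) * √(kk α) / kk α ^ 2 := by
    refine (h1.Ex_left' _).trans ?_
    gcongr
  have e3 : |Ex W1 (fun _ y => pw X 3 y y) - tr X 3 / kk α| ≤ p.Ups (kk α) *
      (p.Om (kk α) ^ 1 * √(p.N ^ 4 * kk α * p.F (kk α))) * √(kk α) / kk α ^ 2 := by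
    refine (h1.Ex_right' _).trans ?_
    gcongr
  have e4 := t3_abs_le (t3_prod hn h2 (fun x => pw X 4 x x) (fun y => ah X s y) d4 da)
    (b := p.Om (kk α) ^ 4 * p.tauB (kk α) / kk α ^ 2) (by
      rw [hs.sum_ah hn, ← tr_eq_sum, abs_div, abs_mul, abs_of_nonneg (sq_nonneg (kk α))]
      gcongr)
  have e5 := t3_abs_le (t3_prod hn h2 (fun y => ah X s y) (fun x => pw X 4 x x) da d4)
    (b := p.Om (kk α) ^ 4 * p.tauB (kk α) / kk α ^ 2) (by
      rw [hs.sum_ah hn, ← tr_eq_sum, abs_div, abs_mul, abs_of_nonneg (sq_nonneg (kk α)), mul_comm]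
      gcongr)
  have e6 : |2 / kk α * Ex W2 (pw X 3)|
      ≤ 2 / kk α * (p.Ups (kk α) * √(kk α) * p.Om (kk α) ^ 2 / kk α ^ 2) := by
    rw [abs_mul, abs_of_pos (by positivity : 0 < 2 / kk α)]
    exact mul_le_mul_of_nonneg_left
      (t3_noise hn hs h2 1 2 (by norm_num) (by simpa only [pw_one] using o1) o2) (by positivity)
  have e7 := t3_prod hn h2 (fun x => rho X x) (fun y => pw X 3 y y) dr d3
  have e8 := t3_prod hn h2 (fun y => pw X 3 y y) (fun x => rho X x) d3 dr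
  rw [sum_rho, ← tr_eq_sum] at e7 e8
  have e9 := hsm (t3_abs h2 (fun x y => X x y) (fun x _ => pw X 3 x x) o1 (t3_sqrt_left _ d3))
  have e10 := hsm (t3_abs h2 (fun x y => X x y) (fun _ y => pw X 3 y y) o1 (t3_sqrt_right _ d3))
  have e11 := t3_abs h2 (fun x y => X x y) (fun x y => pw X 2 x y) o1 o2
  have e12 := t3_abs h2 (fun x y => pw X 2 x y) (fun x y => pw X 3 x y) o2 o3
  have hτ := hn.tauB_pos
  have e13 := t3_abs_le (t3_prod hn h2 (fun x => X x x) (fun y => rho X y) dR dr)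
    (b := p.tauB (kk α) * (p.N * kk α * p.F (kk α)) / kk α ^ 2) (by
      rw [sX, sum_rho, abs_div, abs_mul, abs_of_nonneg (sq_nonneg (kk α))]
      gcongr)
  have e14 := t3_abs_le (t3_prod hn h2 (fun y => rho X y) (fun x => X x x) dr dR)
    (b := p.tauB (kk α) * (p.N * kk α * p.F (kk α)) / kk α ^ 2) (by
      rw [sX, sum_rho, abs_div, abs_mul, abs_of_nonneg (sq_nonneg (kk α)), mul_comm]
      gcongr)
  have em : 2 * (tr X 2 / kk α - 1) * tr X 3 / kk α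
      = tr X 2 * tr X 3 / kk α ^ 2 + tr X 3 * tr X 2 / kk α ^ 2 - 2 * (tr X 3 / kk α) := by
    field_simp
    ring
  rw [em, mul_assoc 2 s]
  rw [mul_right_comm (p.Ups (kk α))] at e5 e8 e14
  rw [abs_le] at e1 e2 e3 e4 e5 e6 e7 e8 e9 e10 e11 e12 e13 e14 ⊢
  unfold t3ErrA
  constructor <;>
    linarith [e1.1, e1.2, e2.1, e2.2, e3.1, e3.2, e4.1, e4.2, e5.1, e5.2, e6.1, e6.2, e7.1, e7.2,
      e8.1, e8.2, e9.1, e9.2, e10.1, e10.2, e11.1, e11.2, e12.1, e12.2, e13.1, e13.2, e14.1, e14.2]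

theorem t3_sqrt_add_le (a b : ℝ) : √(a + b) ≤ √a + √b := by
  refine Real.sqrt_le_iff.2 ⟨by positivity, ?_⟩
  have h1 : a ≤ √a ^ 2 := by
    rcases le_total 0 a with h | h
    · rw [Real.sq_sqrt h]
    · exact h.trans (sq_nonneg _)
  have h2 : b ≤ √b ^ 2 := by
    rcases le_total 0 b with h | h
    · rw [Real.sq_sqrt h]
    · exact h.trans (sq_nonneg _)
  nlinarith [mul_nonneg (Real.sqrt_nonneg a) (Real.sqrt_nonneg b)]

theorem Ctx.t3_rest (c : Ctx p ϱ h sz X s) :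
    |Ex ϱ (fun x y => 3 * (el1 X s x y * el2 X s x y) + el1 X s x y ^ 3)| ≤ t3ErrB p (kk α) := by
  have hL := c.num.L_pos
  have e1 : |Ex ϱ (fun x y => el1 X s x y * el2 X s x y)| ≤ _ :=
    (abs_Ex_mul_le c.nu.nonneg).trans (mul_le_mul
      ((Real.sqrt_le_sqrt c.mom_el1).trans (t3_sqrt_add_le _ _))
      ((Real.sqrt_le_sqrt c.mom_el2).trans (t3_sqrt_add_le _ _)) (Real.sqrt_nonneg _)
      (by positivity))
  have e2 : |Ex ϱ (fun x y => el1 X s x y ^ 3)|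
      ≤ Ex ϱ (fun x y => 5 * p.L (kk α) * el1 X s x y ^ 2) :=
    abs_Ex_le c.nu.nonneg fun x y hxy => by
      rw [pow_succ', abs_mul, abs_of_nonneg (sq_nonneg (el1 X s x y))]
      exact mul_le_mul_of_nonneg_right (c.sup_el1 hxy) (sq_nonneg _)
  rw [Ex_const_mul] at e2
  have e3 := e2.trans (mul_le_mul_of_nonneg_left c.mom_el1 (by positivity))
  rw [Ex_add, Ex_const_mul]
  rw [abs_le] at e1 e3 ⊢
  unfold t3ErrB
  constructor <;> linarith [e1.1, e1.2, e3.1, e3.2]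

theorem Ctx.t3_drift (c : Ctx p ϱ h sz X s) :
    |Ex ϱ (fun x y => tr (upd X s x y) 3 - tr X 3) - 6 * (tr X 2 / kk α - 1) * tr X 3 / kk α|
      ≤ 3 * t3ErrA p (kk α) + t3ErrB p (kk α) := by
  have e : Ex ϱ (fun x y => tr (upd X s x y) 3 - tr X 3) = Ex ϱ (fun x y => 3 * el3 X s x y
      + (3 * (el1 X s x y * el2 X s x y) + el1 X s x y ^ 3)) :=
    Ex_congr fun x y hxy => by rw [(c.piv hxy).tr_three]; ring
  have h1 := c.t3_el3
  have h2 := c.t3_rest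
  rw [e, Ex_add, Ex_const_mul, show 6 * (tr X 2 / kk α - 1) * tr X 3 / kk α
    = 3 * (2 * (tr X 2 / kk α - 1) * tr X 3 / kk α) by ring]
  rw [abs_le] at h1 h2 ⊢
  constructor <;> linarith [h1.1, h1.2, h2.1, h2.2]

theorem Ctx.t3_var (c : Ctx p ϱ h sz X s) :
    Ex ϱ (fun x y => (tr (upd X s x y) 3 - tr X 3) ^ 2) ≤ t3Var p (kk α) := by
  have hL := c.num.L_pos
  have e : Ex ϱ (fun x y => (tr (upd X s x y) 3 - tr X 3) ^ 2) ≤ Ex ϱ (fun x y =>
      100 * el3 X s x y ^ 2 + 1000 * p.L (kk α) ^ 2 * el2 X s x y ^ 2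
        + 100 * p.L (kk α) ^ 2 * el1 X s x y ^ 4) :=
    Ex_mono c.nu.nonneg fun x y hxy => by
      rw [(c.piv hxy).tr_three, add_sub_cancel_left]
      have h1 : el1 X s x y ^ 2 ≤ 25 * p.L (kk α) ^ 2 := by
        have := pow_le_pow_left₀ (abs_nonneg _) (c.sup_el1 hxy) 2
        rw [sq_abs] at this
        linarith
      generalize el1 X s x y = a at *
      generalize el2 X s x y = b at *
      generalize el3 X s x y = d at *
      have h2 := mul_le_mul_of_nonneg_right h1 (sq_nonneg b)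
      have h3 := mul_le_mul_of_nonneg_right h1 (by positivity : 0 ≤ a ^ 4)
      have h4 : 0 ≤ p.L (kk α) ^ 2 * b ^ 2 := by positivity
      have h5 : 0 ≤ p.L (kk α) ^ 2 * a ^ 4 := by positivity
      nlinarith [sq_nonneg (3 * d - 3 * a * b), sq_nonneg (3 * d - a ^ 3),
        sq_nonneg (3 * a * b - a ^ 3), sq_nonneg d]
  rw [Ex_add, Ex_add, Ex_const_mul, Ex_const_mul, Ex_const_mul] at e
  have h1 := c.mom_el3
  have h2 := mul_le_mul_of_nonneg_left c.mom_el2 (by positivity : 0 ≤ 1000 * p.L (kk α) ^ 2)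
  have h3 := mul_le_mul_of_nonneg_left c.mom4_el1 (by positivity : 0 ≤ 100 * p.L (kk α) ^ 2)
  unfold t3Var
  linarith

theorem Ctx.drift_t3 (c : Ctx p ϱ h sz X s) :
    |Ex ϱ (fun x y => tr (upd X s x y) 3 - tr X 3) - 6 * (tr X 2 / kk α - 1) * tr X 3 / kk α|
      ≤ p.G3 (kk α) / (p.N * kk α) := by
  have h1 := t3ErrA_le c.num
  have h2 := t3ErrB_le c.num
  rw [mul_comm, ← div_div] at h1 h2
  linarith [c.t3_drift]

theorem Ctx.var_t3 (c : Ctx p ϱ h sz X s) :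
    Ex ϱ (fun x y => (tr (upd X s x y) 3 - tr X 3) ^ 2) ≤ p.G3sq (kk α) / (p.N * kk α) :=
  c.t3_var.trans (t3Var_le c.num)

theorem Ctx.drift_t3_early (c : Ctx p ϱ h sz X s) (hk : p.k1 ≤ kk α) :
    |Ex ϱ (fun x y => tr (upd X s x y) 3 - tr X 3)| ≤ p.s3 / (p.N * kk α) := by
  have hn := c.num
  have h1 := t3ErrA_le_early hn hk
  have h2 := t3ErrB_le_early hn hk
  have h3 := t3Main_le_early hn hk
  rw [mul_comm _ (p.N * kk α), ← div_div] at h1 h2 h3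
  have hk0 := hn.k_pos
  have h4 : |tr X 2 / kk α - 1| ≤ p.M / p.kb (kk α) + p.sT (kk α) / kk α := by
    have a1 : tr X 2 / kk α ≤ 1 := (div_le_one hk0).2 (c.sys.f_le_k hn)
    have a2 := (abs_le.1 (c.sys.f_dev hn)).1
    have a3 : p.F (kk α) - p.sT (kk α) / kk α ≤ tr X 2 / kk α := by
      rw [le_div_iff₀ hk0, sub_mul, div_mul_cancel₀ _ hk0.ne']
      linarith
    rw [abs_of_nonpos (by linarith), ← hn.one_sub_F]
    linarith
  have h5 : |6 * (tr X 2 / kk α - 1) * tr X 3 / kk α|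
      ≤ 6 * (p.M / p.kb (kk α) + p.sT (kk α) / kk α) * p.G3 (kk α) / kk α := by
    rw [abs_div, abs_mul, abs_mul, abs_of_pos hk0, abs_of_pos (by norm_num : (0 : ℝ) < 6)]
    have := c.sys.t3_le hn
    have := (abs_nonneg _).trans h4
    gcongr
  have h6 := t3_abs_le c.t3_drift h5
  have h7 : 0 ≤ p.s3 / (p.N * kk α) := by
    have := hn.s3_pos
    have := hn.N_pos
    positivity
  rw [mul_add, add_mul, add_div] at h6
  linarith

theorem Ctx.var_t3_early (c : Ctx p ϱ h sz X s) (hk : p.k1 ≤ kk α) :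
    Ex ϱ (fun x y => (tr (upd X s x y) 3 - tr X 3) ^ 2) ≤ p.s3 ^ 2 / (p.N * kk α) :=
  c.t3_var.trans (t3Var_le_early c.num hk)

end Crest.Agent.R062
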