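import Crest.Agent.R062.T1
import Crest.Agent.R062.T2
import Crest.Agent.R062.T3

/-! The quadratic parts of the potential are almost supermartingales. -/

open Matrix Finset

namespace Crest.Agent.R062
variable {α : Type} [Fintype α] [DecidableEq α] {p : Par ℝ} {ϱ h sz : α → α → ℝ}
  {X : Matrix α α ℝ} {s : ℝ}

theorem potA_Ex_div (W Z : α → α → ℝ) (c : ℝ) : Ex W (fun x y => Z x y / c) = Ex W Z / c := by
  simp only [div_eq_inv_mul]
  exact Ex_const_mul c⁻¹

theorem potA_Ex_poly (hm : Meas p ϱ h sz) (hk : 0 < kk α) (δ : α → α → ℝ) (A B C : ℝ) :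
    Ex ϱ (fun x y => A + B * δ x y + C * δ x y ^ 2) =
      A + B * Ex ϱ δ + C * Ex ϱ (fun x y => δ x y ^ 2) := by
  rw [Ex_add, Ex_add, Ex_const_mul, Ex_const_mul, hm.Ex_const hk]

/-- The change of the normalisation is compensated by the drift. -/
theorem potA_fin {E A S S' R b e η ε c : ℝ} (hS : 0 < S) (hS' : 0 < S') (hA0 : 0 ≤ A) (hA : A ≤ S)
    (hSR : S ≤ R * S') (hR : R ≤ 1 + b + e) (hb0 : 0 ≤ b) (hb : b ≤ 1 / 20) (he0 : 0 ≤ e)
    (he : e ≤ ε) (hη0 : 0 ≤ η) (hη : η ≤ ε) (hε : ε ≤ 1 / 20) (hc : 0 ≤ c)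
    (hE : E ≤ A * (1 - b + η) + c * S * ε) :
    E / S' ≤ A / S + (11 / 10 * c + 21 / 10) * ε := by
  have hε0 : 0 ≤ ε := he0.trans he
  have h1 : 0 ≤ A * (1 - b + η) := mul_nonneg hA0 (by linarith)
  have h2 : 0 ≤ c * S * ε := by positivity
  have hQ : 0 ≤ A * (1 - b + η) + c * S * ε := add_nonneg h1 h2
  have h3 : (1 - b + η) * (1 + b + e) ≤ 1 + 21 / 10 * ε := by nlinarith
  have h4 : (A * (1 - b + η) + c * S * ε) * R ≤ A + (11 / 10 * c + 21 / 10) * ε * S := by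
    have a1 : A * (1 - b + η) * R ≤ A * (1 - b + η) * (1 + b + e) :=
      mul_le_mul_of_nonneg_left hR h1
    have a2 : A * ((1 - b + η) * (1 + b + e)) ≤ A * (1 + 21 / 10 * ε) :=
      mul_le_mul_of_nonneg_left h3 hA0
    have a3 : c * S * ε * R ≤ c * S * ε * (11 / 10) :=
      mul_le_mul_of_nonneg_left (by linarith) h2
    have a4 : A * ε ≤ S * ε := mul_le_mul_of_nonneg_right hA hε0
    nlinarith
  rw [div_le_iff₀ hS']
  have h5 : A / S + (11 / 10 * c + 21 / 10) * ε = (A + (11 / 10 * c + 21 / 10) * ε * S) / S := by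
    field_simp
  rw [h5, div_mul_eq_mul_div, le_div_iff₀ hS]
  calc E * S ≤ (A * (1 - b + η) + c * S * ε) * (R * S') :=
        mul_le_mul hE hSR hS.le hQ
    _ = (A * (1 - b + η) + c * S * ε) * R * S' := by ring
    _ ≤ _ := mul_le_mul_of_nonneg_right h4 hS'.le

/-- The ratio `F(k) / F(k - 2)`. -/
theorem potA_ratio {k : ℝ} (hn : Num p k) : 0 < p.F (k - 2) ∧ ∃ a : ℝ, 0 ≤ a ∧ a ≤ 4 / k ∧
    a ≤ 2 * ((1 - p.F k) / k) + 8 / k ^ 2 ∧ p.F k = (1 + a) * p.F (k - 2) := by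
  have hk := hn.k_big
  have hM := hn.M_pos
  have hg := hn.one_sub_F
  have hF := hn.F_pos
  have hF1 := hn.F_lt_one
  have hk0 : 0 < k := by linarith
  have hk2 : 0 < k - 2 := by linarith
  refine ⟨div_pos hk2 (by linarith), 2 * (1 - p.F k) / (k - 2), by positivity, ?_, ?_, ?_⟩
  · rw [div_le_div_iff₀ hk2 hk0]
    nlinarith
  · have e : 2 * ((1 - p.F k) / k) + 8 / k ^ 2 = (2 * (1 - p.F k) * k + 8) / k ^ 2 := by
      field_simp
    rw [e, div_le_div_iff₀ hk2 (by positivity)]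
    nlinarith [mul_nonneg hk0.le hF.le]
  · have : k - 2 + p.M ≠ 0 := by linarith
    have : k + p.M ≠ 0 := by linarith
    rw [hg]
    unfold Par.F Par.kb
    field_simp
    ring

theorem potA_small {k : ℝ} (hn : Num p k) : 1000 / k ^ 2 ≤ 1 / (p.N * k) ∧
    1 / (p.N * k) ≤ 1 / 20 ∧ 0 ≤ (1 - p.F k) / k ∧ (1 - p.F k) / k ≤ 1 / 1000 ∧
    0 < 1 / k ^ 2 := by
  have hk := hn.k_big
  have hF := hn.F_pos
  have hF1 := hn.F_lt_one
  have hk0 := hn.k_pos
  refine ⟨by lognum hn, by lognum hn, div_nonneg (by linarith) hk0.le, ?_, by positivity⟩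
  rw [div_le_iff₀ hk0]
  linarith

theorem potA_max_sq (u d : ℝ) : max (u + d) 0 ^ 2 ≤ max u 0 ^ 2 + 2 * max u 0 * d + d ^ 2 := by
  rcases le_total u 0 with h | h
  · rw [max_eq_right h]
    rcases le_total (u + d) 0 with h' | h'
    · rw [max_eq_right h']
      nlinarith [sq_nonneg d]
    · rw [max_eq_left h']
      nlinarith
  · rw [max_eq_left h]
    rcases le_total (u + d) 0 with h' | h'
    · rw [max_eq_right h']
      nlinarith [sq_nonneg (u + d)]
    · rw [max_eq_left h']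
      nlinarith

theorem potA_clamp {a b : ℝ} (h : b ≤ a) :
    0 ≤ min 1 (max 0 a) - min 1 (max 0 b) ∧ min 1 (max 0 a) - min 1 (max 0 b) ≤ a - b := by
  constructor
  · exact sub_nonneg.2 (min_le_min_left _ (max_le_max_left _ h))
  · simp only [min_def, max_def]
    split_ifs <;> linarith

section
attribute [local irreducible] Par.k1 Par.stau2 Par.sT Par.GR Par.GD Par.GV Par.G4 Par.G3sq Par.Gf
  Par.s3
theorem potA_num {k : ℝ} (hn : Num p k) :
    (p.N ^ 3710 * (2 / p.k1)) ^ 2 ≤ p.stau2 k * (1 / (p.N * k)) := by lognum hn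
end

theorem potA_Dg {k : ℝ} (hn : Num p k) : 0 ≤ p.gtau k - p.gtau (k - 2) ∧
    (p.gtau k - p.gtau (k - 2)) ^ 2 ≤ p.stau2 k * (1 / (p.N * k)) := by
  have n1 := potA_num hn
  have hk1 := hn.k1_pos
  have hN := hn.N_pos
  obtain ⟨h1, h2⟩ := potA_clamp (a := (k - p.k1) / p.k1) (b := (k - 2 - p.k1) / p.k1)
    (div_le_div_of_nonneg_right (by linarith) hk1.le)
  have e : (k - p.k1) / p.k1 - (k - 2 - p.k1) / p.k1 = 2 / p.k1 := by ring
  rw [e] at h2
  have h3 : 0 ≤ p.gtau k - p.gtau (k - 2) := by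
    unfold Par.gtau
    rw [← mul_sub]
    exact mul_nonneg (pow_pos hN _).le h1
  have h4 : p.gtau k - p.gtau (k - 2) ≤ p.N ^ 3710 * (2 / p.k1) := by
    unfold Par.gtau
    rw [← mul_sub]
    exact mul_le_mul_of_nonneg_left h2 (pow_pos hN _).le
  exact ⟨h3, (pow_le_pow_left₀ h3 h4 2).trans n1⟩

theorem Ctx.step_P1 (c : Ctx p ϱ h sz X s) (ht : Tilt p h X s) :
    Ex ϱ (fun x y => P1 p (kk α - 2) (upd X s x y)) ≤ P1 p (kk α) X + 30 / (p.N * kk α) := by
  have hn := c.num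
  have hk := hn.k_pos
  obtain ⟨hF', a, ha0, ha1, ha2, hFa⟩ := potA_ratio hn
  obtain ⟨s1, s2, s3, s4, s5⟩ := potA_small hn
  obtain ⟨g0, g1⟩ := potA_Dg hn
  have d1 := abs_le.1 c.drift_t1
  have v1 := c.var_t1
  have hσ := hn.stau_pos
  have hσ2 := hn.stau_sq
  have hS := hn.stau2_pos
  have hN := hn.N_pos
  have hgap := c.sys.half_gap hn
  have hF1 := hn.F_lt_one
  have t1 := c.sys.tau_le hn
  have t2 := c.sys.le_tau hn
  have t3 := hn.gtau_nonneg
  have hP := (c.sys.P_le hn).1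
  have up := ht.up
  have down := ht.down
  have gain := ht.gain
  unfold P1 at hP ⊢
  rw [potA_Ex_div]
  rw [div_le_one hS] at hP
  set k := kk α with hkdef
  set τ := tr X 1 with hτ
  set φ := tr X 2 / k with hφ
  set ε := 1 / (p.N * k) with hε
  set Dg := p.gtau k - p.gtau (k - 2) with hDg
  set U := max (τ - p.gtau k) 0 with hU
  set V := max (-τ) 0 with hV
  set m1 := Ex ϱ (fun x y => tr (upd X s x y) 1 - τ) with hm1
  set m2 := Ex ϱ (fun x y => (tr (upd X s x y) 1 - τ) ^ 2) with hm2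
  set b := (1 - p.F k) / k with hb
  have hε0 : 0 < ε := by positivity
  have e1 : p.stau k / (p.N * k) = p.stau k * ε := by rw [hε]; ring
  have e2 : p.stau2 k / (p.N * k) = p.stau2 k * ε := by rw [hε]; ring
  have e3 : 2 * (p.stau k * k / p.N) / k ^ 2 = 2 * (p.stau k * ε) := by
    rw [hε]; field_simp
  rw [e1] at d1
  rw [e2] at v1
  have hU0 : 0 ≤ U := le_max_right _ _
  have hV0 : 0 ≤ V := le_max_right _ _
  have hUσ : U ≤ p.stau k := max_le (by linarith) hσ.le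
  have hVσ : V ≤ p.stau k := max_le (by linarith) hσ.le
  have hγ : 2 * (φ - 1) / k ≤ -b := by
    rw [hb, ← neg_div]
    exact div_le_div_of_nonneg_right (by linarith) hk.le
  have hE : Ex ϱ (fun x y => max (tr (upd X s x y) 1 - p.gtau (k - 2)) 0 ^ 2 +
      max (-tr (upd X s x y) 1) 0 ^ 2) ≤
      (U ^ 2 + V ^ 2 + 2 * U * Dg + 2 * Dg ^ 2) + (2 * U - 2 * V) * m1 + 3 * m2 := by
    rw [hm1, hm2, ← potA_Ex_poly c.meas hk]
    refine Ex_mono c.nu.nonneg fun x y _ => ?_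
    have a1 := potA_max_sq (τ - p.gtau k) (tr (upd X s x y) 1 - τ + Dg)
    have a2 := potA_max_sq (-τ) (-(tr (upd X s x y) 1 - τ))
    rw [show τ - p.gtau k + (tr (upd X s x y) 1 - τ + Dg) = tr (upd X s x y) 1 - p.gtau (k - 2) by
      rw [hDg]; ring] at a1
    rw [show -τ + -(tr (upd X s x y) 1 - τ) = -tr (upd X s x y) 1 by ring] at a2
    rw [← hU] at a1
    rw [← hV] at a2
    nlinarith [sq_nonneg (tr (upd X s x y) 1 - τ - Dg)]
  have hσε : 0 ≤ p.stau k * ε := by positivity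
  have hup : U * (m1 + Dg) ≤ -b * U ^ 2 + 3 * (p.stau2 k * ε) := by
    rcases le_or_gt (τ - p.gtau k) 0 with hu | hu
    · have : U = 0 := max_eq_right hu
      rw [this]
      have : 0 ≤ p.stau2 k * ε := by positivity
      linarith
    · have eU : U = τ - p.gtau k := max_eq_left hu.le
      have hτ0 : 0 < τ := by linarith
      have c1 : 2 * (s * cor h X) / k ^ 2 + Dg ≤ 2 * (p.stau k * ε) := by
        rcases g0.eq_or_lt with hD | hD
        · rw [← hD, add_zero, ← e3]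
          exact div_le_div_of_nonneg_right (by linarith) (by positivity)
        · have c2 := gain hτ0 (by linarith)
          have c3 : 2 * (s * cor h X) / k ^ 2 ≤ -(2 * Dg) := by
            rw [div_le_iff₀ (by positivity)]
            linarith
          linarith
      have c4 : 2 * (φ - 1) * τ / k ≤ -b * U := by
        have : 2 * (φ - 1) * τ / k = 2 * (φ - 1) / k * τ := by ring
        rw [this]
        nlinarith
      have c5 : m1 + Dg ≤ -b * U + 3 * (p.stau k * ε) := by linarith [d1.2]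
      have c6 := mul_le_mul_of_nonneg_left c5 hU0
      have c7 := mul_le_mul_of_nonneg_right hUσ hσε
      rw [← hσ2]
      nlinarith
  have hdown : V * (-m1) ≤ -b * V ^ 2 + 3 * (p.stau2 k * ε) := by
    rcases le_or_gt (-τ) 0 with hu | hu
    · have : V = 0 := max_eq_right hu
      rw [this]
      have : 0 ≤ p.stau2 k * ε := by positivity
      linarith
    · have eV : V = -τ := max_eq_left hu.le
      have c1 : -(2 * (s * cor h X) / k ^ 2) ≤ 2 * (p.stau k * ε) := by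
        rw [← e3, ← neg_div]
        exact div_le_div_of_nonneg_right (by linarith [down (by linarith)]) (by positivity)
      have c4 : -(2 * (φ - 1) * τ / k) ≤ -b * V := by
        have : -(2 * (φ - 1) * τ / k) = 2 * (φ - 1) / k * V := by rw [eV]; ring
        rw [this]
        exact mul_le_mul_of_nonneg_right hγ hV0
      have c5 : -m1 ≤ -b * V + 3 * (p.stau k * ε) := by linarith [d1.1]
      have c6 := mul_le_mul_of_nonneg_left c5 hV0
      have c7 := mul_le_mul_of_nonneg_right hVσ hσε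
      rw [← hσ2]
      nlinarith
  have hS' : 0 < p.stau2 (k - 2) := mul_pos (pow_pos hN _) hF'
  have hSR : p.stau2 k ≤ (1 + a) * p.stau2 (k - 2) := by
    unfold Par.stau2
    rw [hFa]
    exact le_of_eq (by ring)
  have e4 : 8 / k ^ 2 = 8 * (1 / k ^ 2) := by ring
  have e5 : 1000 / k ^ 2 = 1000 * (1 / k ^ 2) := by ring
  have := potA_fin (A := U ^ 2 + V ^ 2) (b := 2 * b) (e := 8 / k ^ 2) (η := 0) (ε := ε) (c := 17)
    hS hS' (by positivity) hP hSR (by linarith) (by linarith) (by linarith) (by linarith)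
    (by linarith) le_rfl hε0.le s2 (by norm_num) (hE.trans (by nlinarith))
  have e6 : 30 / (p.N * k) = 30 * ε := by rw [hε]; ring
  rw [e6]
  linarith

theorem Ctx.step_P2 (c : Ctx p ϱ h sz X s) :
    Ex ϱ (fun x y => P2 p (kk α - 2) (upd X s x y)) ≤ P2 p (kk α) X + 10 / (p.N * kk α) := by
  have hn := c.num
  have hk := hn.k_pos
  have hkbig := hn.k_big
  obtain ⟨hF', a, ha0, ha1, ha2, hFa⟩ := potA_ratio hn
  obtain ⟨s1, s2, s3, s4, s5⟩ := potA_small hn
  have d1 := abs_le.1 c.drift_t2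
  have v1 := c.var_t2
  have hσ := hn.sT_pos
  have hN := hn.N_pos
  have hM := hn.M_pos
  have hkb := hn.kb_pos
  have hF := hn.F_pos
  have hF1 := hn.F_lt_one
  have hg := hn.one_sub_F
  have t1 := c.sys.f_dev hn
  have t2 := c.sys.f_le_k hn
  have n1 : 8 / p.kb (kk α) ≤ p.sT (kk α) * (1 / (p.N * kk α)) := by lognum hn
  have n2 : 100 * p.F (kk α) ^ 2 ≤ p.sT (kk α) ^ 2 * (1 / (p.N * kk α)) := by lognum hn
  unfold P2
  rw [potA_Ex_div]
  set k := kk α with hkdef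
  set f := tr X 2 with hf
  set ε := 1 / (p.N * k) with hε
  set D := f - k * p.F k with hD
  set d := k * p.F k - (k - 2) * p.F (k - 2) with hd
  set m1 := Ex ϱ (fun x y => tr (upd X s x y) 2 - f) with hm1
  set m2 := Ex ϱ (fun x y => (tr (upd X s x y) 2 - f) ^ 2) with hm2
  set b := (1 - p.F k) / k with hb
  have hε0 : 0 < ε := by positivity
  have e1 : p.sT k / (p.N * k) = p.sT k * ε := by rw [hε]; ring
  have e2 : p.sT k ^ 2 / (p.N * k) = p.sT k ^ 2 * ε := by rw [hε]; ring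
  rw [e1] at d1
  rw [e2] at v1
  have hkb2 : 0 < p.kb k - 2 := by unfold Par.kb; linarith
  have ed : d = 2 * (2 * p.F k - p.F k ^ 2) - 4 * (1 - p.F k) ^ 2 / (p.kb k - 2) := by
    have h1 : k - 2 + p.M ≠ 0 := by linarith
    have h2 : k + p.M ≠ 0 := by linarith
    have h3 : k + p.M - 2 ≠ 0 := by linarith
    rw [hd]
    unfold Par.F Par.kb
    rw [show k - 2 + p.M = k + p.M - 2 by ring]
    field_simp
    ring
  have r0 : 0 ≤ 4 * (1 - p.F k) ^ 2 / (p.kb k - 2) := by positivity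
  have r1 : 4 * (1 - p.F k) ^ 2 / (p.kb k - 2) ≤ 8 / p.kb k := by
    rw [div_le_div_iff₀ hkb2 hkb]
    have h1 : (1 - p.F k) ^ 2 ≤ 1 := by nlinarith
    have h2 : 4 ≤ p.kb k := by unfold Par.kb; linarith
    nlinarith
  have d0 : 0 ≤ d := by
    rw [hd, hFa]
    nlinarith [mul_nonneg ha0 hF'.le, mul_nonneg hk.le (mul_nonneg ha0 hF'.le)]
  have d4 : d ≤ 4 * p.F k := by nlinarith [sq_nonneg (p.F k)]
  have hE : Ex ϱ (fun x y => (tr (upd X s x y) 2 - (k - 2) * p.F (k - 2)) ^ 2) ≤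
      (D ^ 2 + 2 * D * d + 2 * d ^ 2) + (2 * D) * m1 + 2 * m2 := by
    rw [hm1, hm2, ← potA_Ex_poly c.meas hk]
    refine Ex_mono c.nu.nonneg fun x y _ => ?_
    rw [show tr (upd X s x y) 2 - (k - 2) * p.F (k - 2) = D + (tr (upd X s x y) 2 - f) + d by
      rw [hD, hd]; ring]
    nlinarith [sq_nonneg (tr (upd X s x y) 2 - f - d)]
  have hφ : f / k ≤ 1 := (div_le_one hk).2 t2
  have eφ : f / k = p.F k + D / k := by rw [hD]; field_simp; ring
  set r := 4 * (1 - p.F k) ^ 2 / (p.kb k - 2) with hr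
  have hdr : |m1 + d + 2 * (D / k) * (2 - f / k - p.F k)| ≤ 2 * (p.sT k * ε) := by
    have : m1 + d + 2 * (D / k) * (2 - f / k - p.F k) =
        (m1 - 2 * ((f / k) ^ 2 - 2 * (f / k))) - r := by
      rw [ed, show D / k = f / k - p.F k by linarith]
      ring
    rw [this, abs_le]
    constructor <;> linarith [d1.1, d1.2]
  have c1 : D * (m1 + d + 2 * (D / k) * (2 - f / k - p.F k)) ≤ p.sT k * (2 * (p.sT k * ε)) := by
    refine (le_abs_self _).trans ?_
    rw [abs_mul]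
    exact mul_le_mul t1 hdr (abs_nonneg _) hσ.le
  have c2 : D ^ 2 * b ≤ D * (D / k) * (2 - f / k - p.F k) := by
    have : D * (D / k) * (2 - f / k - p.F k) = D ^ 2 * ((2 - f / k - p.F k) / k) := by ring
    rw [this]
    exact mul_le_mul_of_nonneg_left (div_le_div_of_nonneg_right (by linarith) hk.le) (sq_nonneg _)
  have c3 : d ^ 2 ≤ (4 * p.F k) ^ 2 := pow_le_pow_left₀ d0 d4 2
  have hS' : 0 < p.sT (k - 2) := mul_pos (pow_pos hN _) hF'
  have hSR : p.sT k ^ 2 ≤ (1 + a) ^ 2 * p.sT (k - 2) ^ 2 := by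
    unfold Par.sT
    rw [hFa]
    exact le_of_eq (by ring)
  have e4 : 8 / k ^ 2 = 8 * (1 / k ^ 2) := by ring
  have e5 : 1000 / k ^ 2 = 1000 * (1 / k ^ 2) := by ring
  have a2 : a ^ 2 ≤ 16 * (1 / k ^ 2) := (pow_le_pow_left₀ ha0 ha1 2).trans (le_of_eq (by ring))
  have hA : D ^ 2 ≤ p.sT k ^ 2 := sq_le_sq' (abs_le.1 t1).1 (abs_le.1 t1).2
  have := potA_fin (A := D ^ 2) (b := 4 * b) (e := 32 * (1 / k ^ 2)) (η := 0) (ε := ε) (c := 7)
    (pow_pos hσ 2) (pow_pos hS' 2) (sq_nonneg _) hA hSR (by nlinarith) (by linarith) (by linarith)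
    (by linarith) (by linarith) le_rfl hε0.le s2 (by norm_num) (hE.trans (by nlinarith))
  have e6 : 10 / (p.N * k) = 10 * ε := by rw [hε]; ring
  rw [e6]
  linarith

theorem Ctx.step_P3 (c : Ctx p ϱ h sz X s) :
    Ex ϱ (fun x y => P3 p (kk α - 2) (upd X s x y)) ≤ P3 p (kk α) X + 20 / (p.N * kk α) := by
  have hn := c.num
  have hk := hn.k_pos
  have hkbig := hn.k_big
  obtain ⟨hF', a, ha0, ha1, ha2, hFa⟩ := potA_ratio hn
  obtain ⟨s1, s2, s3, s4, s5⟩ := potA_small hn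
  have d1 := c.drift_t3
  have v1 := c.var_t3
  have hσ := hn.G3_pos
  have hσ2 := hn.G3_sq
  have hS := hn.G3sq_pos
  have hN := hn.N_pos
  have hM := hn.M_pos
  have hnn := hn.n_pos
  have t1 := c.sys.t3_le hn
  have t2 := c.sys.Fa_le hn
  have n1 : 20 * (1 / p.N ^ 100 / kk α) ≤ 1 / (p.N * kk α) := by lognum hn
  unfold P3
  rw [potA_Ex_div]
  set k := kk α with hkdef
  set t := tr X 3 with ht
  set φ := tr X 2 / k with hφ
  set ε := 1 / (p.N * k) with hε
  set m1 := Ex ϱ (fun x y => tr (upd X s x y) 3 - t) with hm1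
  set m2 := Ex ϱ (fun x y => (tr (upd X s x y) 3 - t) ^ 2) with hm2
  set b := (1 - p.F k) / k with hb
  set η := 1 / p.N ^ 100 / k with hη
  have hε0 : 0 < ε := by positivity
  have hη0 : 0 < η := by positivity
  have e1 : p.G3 k / (p.N * k) = p.G3 k * ε := by rw [hε]; ring
  have e2 : p.G3sq k / (p.N * k) = p.G3sq k * ε := by rw [hε]; ring
  rw [e1] at d1
  rw [e2] at v1
  have hE : Ex ϱ (fun x y => tr (upd X s x y) 3 ^ 2) ≤ t ^ 2 + (2 * t) * m1 + 1 * m2 := by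
    rw [hm1, hm2, ← potA_Ex_poly c.meas hk]
    exact Ex_mono c.nu.nonneg fun x y _ => le_of_eq (by ring)
  have c1 : t * (m1 - 6 * (φ - 1) * t / k) ≤ p.G3 k * (p.G3 k * ε) := by
    refine (le_abs_self _).trans ?_
    rw [abs_mul]
    exact mul_le_mul t1 d1 (abs_nonneg _) hσ.le
  have c2 : t * (6 * (φ - 1) * t / k) ≤ t ^ 2 * (6 * (η - b)) := by
    have : t * (6 * (φ - 1) * t / k) = t ^ 2 * (6 * ((φ - 1) / k)) := by ring
    rw [this]
    refine mul_le_mul_of_nonneg_left ?_ (sq_nonneg _)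
    rw [hη, hb, ← sub_div]
    exact mul_le_mul_of_nonneg_left (div_le_div_of_nonneg_right (by linarith) hk.le) (by norm_num)
  have hS' : 0 < p.G3sq (k - 2) := by
    unfold Par.G3sq
    positivity
  have hSR : p.G3sq k ≤ (1 + a) ^ 6 * p.G3sq (k - 2) := by
    unfold Par.G3sq
    rw [hFa]
    have h1 : (1 + a) ^ 3 ≤ (1 + a) ^ 6 := pow_le_pow_right₀ (by linarith) (by norm_num)
    have h2 := mul_le_mul_of_nonneg_right h1 (show 0 ≤ p.M ^ 2 * p.F (k - 2) ^ 3 by positivity)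
    calc _ = (1 + a) ^ 6 * (p.N ^ 2 * p.n ^ 2 * p.F (k - 2) ^ 6) +
          (1 + a) ^ 3 * (p.M ^ 2 * p.F (k - 2) ^ 3) := by ring
      _ ≤ _ := by rw [mul_add]; linarith
  have e4 : 8 / k ^ 2 = 8 * (1 / k ^ 2) := by ring
  have e5 : 1000 / k ^ 2 = 1000 * (1 / k ^ 2) := by ring
  have a1 : a ≤ 1 := ha1.trans (by rw [div_le_one hk]; linarith)
  have a2 : a ^ 2 ≤ 16 * (1 / k ^ 2) := (pow_le_pow_left₀ ha0 ha1 2).trans (le_of_eq (by ring))
  have a6 : (1 + a) ^ 6 ≤ 1 + 6 * a + 57 * a ^ 2 := by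
    have p3 : a ^ 3 ≤ a ^ 2 := pow_le_pow_of_le_one ha0 a1 (by norm_num)
    have p4 : a ^ 4 ≤ a ^ 2 := pow_le_pow_of_le_one ha0 a1 (by norm_num)
    have p5 : a ^ 5 ≤ a ^ 2 := pow_le_pow_of_le_one ha0 a1 (by norm_num)
    have p6 : a ^ 6 ≤ a ^ 2 := pow_le_pow_of_le_one ha0 a1 (by norm_num)
    have : (1 + a) ^ 6 = 1 + 6 * a + 15 * a ^ 2 + 20 * a ^ 3 + 15 * a ^ 4 + 6 * a ^ 5 + a ^ 6 := by
      ring
    linarith
  have hA : t ^ 2 ≤ p.G3sq k := by
    rw [← hσ2]
    exact sq_le_sq' (abs_le.1 t1).1 (abs_le.1 t1).2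
  have c3 : p.G3 k * (p.G3 k * ε) = p.G3sq k * ε := by rw [← hσ2]; ring
  have := potA_fin (A := t ^ 2) (b := 12 * b) (e := 1000 * (1 / k ^ 2)) (η := 12 * η) (ε := ε)
    (c := 3) hS hS' (sq_nonneg _) hA hSR (by linarith) (by linarith) (by linarith)
    (by linarith) (by linarith) (by linarith) (by linarith) s2 (by norm_num)
    (hE.trans (by nlinarith))
  have e6 : 20 / (p.N * k) = 20 * ε := by rw [hε]; ring
  rw [e6]
  linarith

theorem Ctx.step_P8 (c : Ctx p ϱ h sz X s) :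
    Ex ϱ (fun x y => P8 p (kk α - 2) (upd X s x y)) ≤ P8 p (kk α) X + 10 / (p.N * kk α) := by
  have hn := c.num
  have hk := hn.k_pos
  have hN := hn.N_pos
  by_cases hk1 : p.k1 ≤ kk α - 2
  · have hk1' : p.k1 ≤ kk α := by linarith
    have d1 := c.drift_t3_early hk1'
    have v1 := c.var_t3_early hk1'
    have t1 := c.sys.t3_dev hn hk1'
    have hσ := hn.s3_pos
    simp only [P8, if_pos hk1, if_pos hk1']
    rw [potA_Ex_div]
    set k := kk α with hkdef
    set t := tr X 3 with ht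
    set m1 := Ex ϱ (fun x y => tr (upd X s x y) 3 - t) with hm1
    set m2 := Ex ϱ (fun x y => (tr (upd X s x y) 3 - t) ^ 2) with hm2
    have hE : Ex ϱ (fun x y => (tr (upd X s x y) 3 - p.T3) ^ 2) ≤
        (t - p.T3) ^ 2 + (2 * (t - p.T3)) * m1 + 1 * m2 := by
      rw [hm1, hm2, ← potA_Ex_poly c.meas hk]
      exact Ex_mono c.nu.nonneg fun x y _ => le_of_eq (by ring)
    have c1 : (t - p.T3) * m1 ≤ p.s3 * (p.s3 / (p.N * k)) := by
      refine (le_abs_self _).trans ?_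
      rw [abs_mul]
      exact mul_le_mul t1 d1 (abs_nonneg _) hσ.le
    have e1 : p.s3 * (p.s3 / (p.N * k)) = p.s3 ^ 2 / (p.N * k) := by ring
    have e2 : (t - p.T3) ^ 2 / p.s3 ^ 2 + 10 / (p.N * k) =
        ((t - p.T3) ^ 2 + 10 * (p.s3 ^ 2 / (p.N * k))) / p.s3 ^ 2 := by field_simp
    have e3 : 0 ≤ p.s3 ^ 2 / (p.N * k) := by positivity
    rw [e2]
    exact div_le_div_of_nonneg_right (by linarith) (by positivity)
  · simp only [P8, if_neg hk1]
    rw [c.meas.Ex_const hk]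
    have := (P_nonneg hn c.sys.symm univ).2.2.2.2.2.2.2
    unfold P8 at this
    positivity

end Crest.Agent.R062
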