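import Crest.Agent.R062.Mom

/-! Drift of `tr X ^ 4`. -/

open Matrix Finset

namespace Crest.Agent.R062
variable {α : Type} [Fintype α] [DecidableEq α] {p : Par ℝ} {ϱ h sz : α → α → ℝ}
  {X Y : Matrix α α ℝ} {s : ℝ}

section aux
variable {W Z Z' : α → α → ℝ}

omit [DecidableEq α] in
theorem t4_prod (hn : Num p (kk α)) (hW : NU p W h) {φ ψ : α → ℝ} {A B a b : ℝ}
    (hA : |∑ x, φ x| ≤ A) (hB : |∑ x, ψ x| ≤ B) (ha : 0 ≤ a) (hb : 0 ≤ b)
    (h1 : ∑ x, φ x ^ 2 ≤ a ^ 2) (h2 : ∑ x, ψ x ^ 2 ≤ b ^ 2) :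
    |Ex W fun x y => φ x * ψ y| ≤ A * B / kk α ^ 2 + p.Ups (kk α) * a * b / kk α ^ 2 := by
  classical
  have hU := hn.Ups_pos
  have h3 : |(∑ x, φ x) * (∑ x, ψ x) / kk α ^ 2| ≤ A * B / kk α ^ 2 := by
    rw [abs_div, abs_mul, abs_of_nonneg (sq_nonneg (kk α))]
    have := (abs_nonneg _).trans hA
    gcongr
  have h4 : p.Ups (kk α) * √(∑ x, φ x ^ 2) * √(∑ x, ψ x ^ 2) / kk α ^ 2 ≤
      p.Ups (kk α) * a * b / kk α ^ 2 := by
    have := Real.sqrt_le_iff.2 ⟨ha, h1⟩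
    have := Real.sqrt_le_iff.2 ⟨hb, h2⟩
    gcongr
  have h5 := abs_le.1 ((hW.Ex_prod φ ψ).trans h4)
  have h6 := abs_le.1 h3
  rw [abs_le]
  constructor <;> linarith [h5.1, h5.2, h6.1, h6.2]

omit [DecidableEq α] in
theorem t4_abs (hW : NU p W h) {a b : ℝ} (ha : 0 ≤ a) (hb : 0 ≤ b)
    (h1 : ∑ x, ∑ y, Z x y ^ 2 ≤ a ^ 2) (h2 : ∑ x, ∑ y, Z' x y ^ 2 ≤ b ^ 2) :
    |Ex W fun x y => Z x y * Z' x y| ≤ 2 * a * b / kk α ^ 2 := by
  classical
  refine ((abs_Ex_le hW.nonneg fun x y _ => (abs_mul _ _).le).trans hW.Ex_abs_mul_le).trans ?_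
  have := Real.sqrt_le_iff.2 ⟨ha, h1⟩
  have := Real.sqrt_le_iff.2 ⟨hb, h2⟩
  gcongr
  norm_num

variable (hn : Num p (kk α)) (hs : Sys p X)
include hn hs

theorem t4_full (j : ℕ) : ∑ x, ∑ y, pw X (j + 2) x y ^ 2 ≤ (p.Om (kk α) ^ (j + 2)) ^ 2 := by
  rw [← pow_mul, mul_comm]
  exact sum_sum_pw_sq_le hs.symm hn.Om_pos.le (hs.t4_le hn) j

theorem t4_diag (j : ℕ) : ∑ x, pw X (j + 2) x x ^ 2 ≤
    (p.Om (kk α) ^ j * √(p.N ^ 4 * kk α * p.F (kk α))) ^ 2 := by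
  have := hn.k_pos
  have := hn.F_pos
  rw [mul_pow, Real.sq_sqrt (by positivity)]
  refine le_trans ?_ (mul_le_mul_of_nonneg_left (hs.Q_le hn) (sq_nonneg _))
  rw [mul_sum]
  refine sum_le_sum fun x _ => ?_
  rw [← mul_pow, ← sq_abs]
  exact pow_le_pow_left₀ (abs_nonneg _) (abs_pw_diag_le hs.symm hn.Om_pos.le (hs.t4_le hn) j x) 2

theorem t4_noise (hW : NU p W h) (i j : ℕ) : |Ex W (pw X (i + 2 + (j + 2)))| ≤
    p.Ups (kk α) * p.Om (kk α) ^ (i + 2) * p.Om (kk α) ^ (j + 2) / kk α ^ 2 := by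
  have e : ∀ x y, ((X ^ (i + 2))ᵀ * X ^ (j + 2)) x y = pw X (i + 2 + (j + 2)) x y := fun x y => by
    rw [(hs.symm.pow _).eq, ← pow_add]; rfl
  have h1 := hW.Ex_noise_mul (X ^ (i + 2)) (X ^ (j + 2)) (by
    simp only [e, pw_rowsum hs.symm hs.rowsum _ (show 1 ≤ i + 2 + (j + 2) by omega), sum_const_zero])
  simp only [e] at h1
  refine h1.trans ?_
  have hU := hn.Ups_pos
  have hO := hn.Om_pos
  have := Real.sqrt_le_iff.2 ⟨by positivity, t4_full hn hs i⟩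
  have := Real.sqrt_le_iff.2 ⟨by positivity, t4_full hn hs j⟩
  gcongr <;> assumption

theorem t4_nonneg (x : α) : 0 ≤ pw X 4 x x := by
  rw [← sum_pw_sq hs.symm 2 x]
  exact sum_nonneg fun _ _ => sq_nonneg _

/-- the part with the weight `s η` -/
theorem t4_W1 (hW : NU p W h) (hs1 : |s| = 1) :
    Ex W (fun x y => 2 * (s * pw X 5 x y) - pw X 4 x x - pw X 4 y y) ≤
      -2 * tr X 4 / kk α + 4 * (p.G4 (kk α) / (p.N ^ 2 * kk α)) := by
  have hk := hn.k_pos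
  have e1 : |s * Ex W (pw X 5)| ≤ p.G4 (kk α) / (p.N ^ 2 * kk α) := by
    rw [abs_mul, hs1, one_mul]
    exact (t4_noise hn hs hW 0 1).trans (by simp only [Nat.reduceAdd]; lognum hn)
  have e2 : √(p.Row (kk α) / kk α) * (∑ x, |pw X 4 x x|) / kk α ≤
      p.G4 (kk α) / (p.N ^ 2 * kk α) := by
    simp only [abs_of_nonneg (t4_nonneg hn hs _), ← tr_eq_sum]
    refine le_trans (b := √(p.Row (kk α) / kk α) * p.Om (kk α) ^ 4 / kk α) ?_ (by lognum hn)
    have := hs.t4_le hn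
    gcongr
  have e3 := (abs_le.1 ((hW.Ex_left fun x => pw X 4 x x).trans e2)).1
  have e4 := (abs_le.1 ((hW.Ex_right fun x => pw X 4 x x).trans e2)).1
  rw [← tr_eq_sum] at e3 e4
  rw [Ex_sub, Ex_sub, Ex_const_mul, Ex_const_mul, mul_div_assoc]
  linarith [(abs_le.1 e1).2]

/-- the part with the weight `1 / Δ` -/
theorem t4_W2 (hW : NU p W h) (hsg : s = 1 ∨ s = -1) :
    Ex W (fun x y => pw X 5 x x * ah X s y + ah X s x * pw X 5 y y - 2 / kk α * pw X 4 x y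
      + pw X 2 x x * pw X 4 y y + pw X 4 x x * pw X 2 y y - s * (X x y * pw X 4 x x)
      - s * (X x y * pw X 4 y y) + 2 * (X x y * pw X 3 x y) - 2 * (pw X 2 x y * pw X 4 x y)
      - X x x * pw X 3 y y - pw X 3 x x * X y y + pw X 3 x x * pw X 3 y y
      + pw X 2 x y * pw X 2 x y) ≤
      2 * (tr X 2 * tr X 4 / kk α ^ 2) + 15 * (p.G4 (kk α) / (p.N ^ 2 * kk α)) := by
  have hk := hn.k_pos
  have hF := hn.F_pos
  have hN := hn.N_pos
  have hO := hn.Om_pos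
  have hs1 : |s| = 1 := by rcases hsg with h | h <;> simp [h]
  have t4 := hs.t4_le hn
  have a1 : |∑ x, pw X 5 x x| ≤ p.Om (kk α) ^ 5 := abs_tr_five_le hs.symm hO.le t4
  have a2 : |∑ x, ah X s x| ≤ p.tauB (kk α) := by
    rw [hs.sum_ah hn]
    linarith [abs_add_le (tr X 1) s, hs.abs_tau_le hn]
  have a3 : |∑ x, X x x| ≤ p.tauB (kk α) := by
    have := hs.abs_tau_le hn
    simp only [tr_eq_sum, pw_one] at this
    linarith
  have a4 : |∑ x, pw X 3 x x| ≤ p.G3 (kk α) := hs.t3_le hn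
  have b1 : ∑ x, ah X s x ^ 2 ≤ √(p.N ^ 41 * p.F (kk α)) ^ 2 := by
    rw [Real.sq_sqrt (by positivity)]; exact hs.Rh_le hn hsg
  have b2 : ∑ x, X x x ^ 2 ≤ √(p.N ^ 40 * p.F (kk α)) ^ 2 := by
    rw [Real.sq_sqrt (by positivity)]; exact hs.R_le hn
  have b3 : ∑ x, ∑ y, X x y ^ 2 ≤ √(p.N * kk α * p.F (kk α)) ^ 2 := by
    rw [Real.sq_sqrt (by positivity)]
    simp only [← rho_eq hs.symm]
    exact hs.f_le hn
  have b4 : kk α * ∑ x, pw X 4 x x ^ 2 ≤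
      (√(kk α) * (p.Om (kk α) ^ 2 * √(p.N ^ 4 * kk α * p.F (kk α)))) ^ 2 := by
    rw [mul_pow, Real.sq_sqrt hk.le]
    exact mul_le_mul_of_nonneg_left (t4_diag hn hs 2) hk.le
  have b5 : ∑ x, ∑ _y : α, pw X 4 x x ^ 2 = kk α * ∑ x, pw X 4 x x ^ 2 := by
    simp only [sum_const, card_univ, nsmul_eq_mul, mul_sum]; rfl
  have b6 : ∑ _x : α, ∑ y, pw X 4 y y ^ 2 = kk α * ∑ x, pw X 4 x x ^ 2 := by
    simp only [sum_const, card_univ, nsmul_eq_mul]; rfl
  set E := p.G4 (kk α) / (p.N ^ 2 * kk α) with hE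
  have e1 : |Ex W fun x y => pw X 5 x x * ah X s y| ≤ E :=
    (t4_prod hn hW a1 a2 (by positivity) (by positivity) (t4_diag hn hs 3) b1).trans
      (by simp only [hE, Nat.reduceAdd]; lognum hn)
  have e2 : |Ex W fun x y => ah X s x * pw X 5 y y| ≤ E :=
    (t4_prod hn hW a2 a1 (by positivity) (by positivity) b1 (t4_diag hn hs 3)).trans
      (by simp only [hE, Nat.reduceAdd]; lognum hn)
  have e3 : |2 / kk α * Ex W (pw X 4)| ≤ E := by
    rw [abs_mul, abs_of_pos (by positivity)]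
    exact (mul_le_mul_of_nonneg_left (t4_noise hn hs hW 0 0) (by positivity)).trans
      (by simp only [hE, Nat.reduceAdd]; lognum hn)
  have c1 : √(∑ x, pw X 2 x x ^ 2) ≤ √(p.N ^ 4 * kk α * p.F (kk α)) :=
    Real.sqrt_le_sqrt (hs.Q_le hn)
  have c2 : ∑ x, |pw X 4 x x| ≤ p.Om (kk α) ^ 4 := by
    simp only [abs_of_nonneg (t4_nonneg hn hs _)]; exact t4
  have c3 : √(p.Row (kk α)) * √(p.N ^ 4 * kk α * p.F (kk α)) * p.Om (kk α) ^ 4 / kk α ^ 2 ≤ E := by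
    rw [hE]; lognum hn
  have e4 : |(Ex W fun x y => pw X 2 x x * pw X 4 y y) - tr X 2 * tr X 4 / kk α ^ 2| ≤ E :=
    (hW.Ex_prod_col _ _).trans (le_trans (by gcongr) c3)
  have e5 : |(Ex W fun x y => pw X 4 x x * pw X 2 y y) - tr X 2 * tr X 4 / kk α ^ 2| ≤ E := by
    rw [mul_comm (tr X 2)]
    rw [mul_right_comm] at c3
    exact (hW.Ex_prod_row _ _).trans (le_trans (by gcongr) c3)
  have e6 : |s * Ex W fun x y => X x y * pw X 4 x x| ≤ E := by
    rw [abs_mul, hs1, one_mul]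
    exact (t4_abs hW (by positivity) (by positivity) b3 (b5.trans_le b4)).trans
      (by simp only [hE, Nat.reduceAdd]; lognum hn)
  have e7 : |s * Ex W fun x y => X x y * pw X 4 y y| ≤ E := by
    rw [abs_mul, hs1, one_mul]
    exact (t4_abs hW (by positivity) (by positivity) b3 (b6.trans_le b4)).trans
      (by simp only [hE, Nat.reduceAdd]; lognum hn)
  have e8 : |Ex W fun x y => X x y * pw X 3 x y| ≤ E :=
    (t4_abs hW (by positivity) (by positivity) b3 (t4_full hn hs 1)).trans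
      (by simp only [hE, Nat.reduceAdd]; lognum hn)
  have e9 : |Ex W fun x y => pw X 2 x y * pw X 4 x y| ≤ E :=
    (t4_abs hW (by positivity) (by positivity) (t4_full hn hs 0) (t4_full hn hs 2)).trans
      (by simp only [hE, Nat.reduceAdd]; lognum hn)
  have e10 : |Ex W fun x y => X x x * pw X 3 y y| ≤ E :=
    (t4_prod hn hW a3 a4 (by positivity) (by positivity) b2 (t4_diag hn hs 1)).trans
      (by simp only [hE, Nat.reduceAdd]; lognum hn)
  have e11 : |Ex W fun x y => pw X 3 x x * X y y| ≤ E :=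
    (t4_prod hn hW a4 a3 (by positivity) (by positivity) (t4_diag hn hs 1) b2).trans
      (by simp only [hE, Nat.reduceAdd]; lognum hn)
  have e12 : |Ex W fun x y => pw X 3 x x * pw X 3 y y| ≤ E :=
    (t4_prod hn hW a4 a4 (by positivity) (by positivity) (t4_diag hn hs 1)
      (t4_diag hn hs 1)).trans (by simp only [hE, Nat.reduceAdd]; lognum hn)
  have e13 : |Ex W fun x y => pw X 2 x y * pw X 2 x y| ≤ E :=
    (t4_abs hW (by positivity) (by positivity) (t4_full hn hs 0) (t4_full hn hs 0)).trans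
      (by simp only [hE, Nat.reduceAdd]; lognum hn)
  simp only [Ex_add, Ex_sub, Ex_const_mul]
  linarith [(abs_le.1 e1).2, (abs_le.1 e2).2, (abs_le.1 e3).1, (abs_le.1 e4).2, (abs_le.1 e5).2,
    (abs_le.1 e6).1, (abs_le.1 e7).1, (abs_le.1 e8).2, (abs_le.1 e9).1, (abs_le.1 e10).1,
    (abs_le.1 e11).1, (abs_le.1 e12).2, (abs_le.1 e13).2]

end aux

theorem Ctx.t4_el4 (c : Ctx p ϱ h sz X s) : Ex ϱ (el4 X s) ≤
    2 * (tr X 2 / kk α - 1) * tr X 4 / kk α + 19 * (p.G4 (kk α) / (p.N ^ 2 * kk α)) := by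
  have hk := c.num.k_pos
  have h1 := t4_W1 c.num c.sys c.nu_eta c.abs_s
  have h2 := t4_W2 c.num c.sys c.nu_invDel c.sgn
  rw [← Ex_weight] at h1 h2
  have e : 2 * (tr X 2 / kk α - 1) * tr X 4 / kk α =
      -2 * tr X 4 / kk α + 2 * (tr X 2 * tr X 4 / kk α ^ 2) := by field_simp; ring
  refine le_trans ?_ ((add_le_add h1 h2).trans_eq (by rw [e]; ring))
  rw [← Ex_add]
  refine Ex_mono c.nu.nonneg fun x y hxy => ?_
  have hD := c.Del_pos hxy
  have h3 : 0 ≤ 1 / Del X s x y * (pw X 3 x y ^ 2 + pw X 2 x x * pw X 2 y y) :=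
    mul_nonneg (by positivity) (add_nonneg (sq_nonneg _)
      (mul_nonneg (rho_nonneg c.sys.symm x) (rho_nonneg c.sys.symm y)))
  refine le_trans (le_add_of_nonneg_right h3) (le_of_eq ?_)
  simp only [el4, trC, dN, e11, e22, ah, Nat.reduceAdd, pw_one, div_eq_mul_inv]
  rcases c.sgn with h | h <;> rw [h] <;> ring

theorem Ctx.drift_t4 (c : Ctx p ϱ h sz X s) :
    Ex ϱ (fun x y => tr (upd X s x y) 4 - tr X 4)
      ≤ 8 * (tr X 2 / kk α - 1) * tr X 4 / kk α + p.G4 (kk α) / (p.N * kk α) := by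
  have hn := c.num
  have h0 := c.nu.nonneg
  set E := p.G4 (kk α) / (p.N ^ 2 * kk α) with hE
  have e1 : Ex ϱ (fun x y => el1 X s x y * el3 X s x y) ≤ E := by
    refine (le_abs_self _).trans ((abs_Ex_mul_le h0).trans ?_)
    have m1 := Ex_nonneg (Z := fun x y => el1 X s x y ^ 2) h0 fun _ _ _ => sq_nonneg _
    have m3 := Ex_nonneg (Z := fun x y => el3 X s x y ^ 2) h0 fun _ _ _ => sq_nonneg _
    have := hn.G4_pos
    have := hn.N_pos
    have := hn.k_pos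
    rw [← Real.sqrt_mul m1, Real.sqrt_le_iff]
    refine ⟨by positivity, (mul_le_mul c.mom_el1 c.mom_el3 m3 (m1.trans c.mom_el1)).trans ?_⟩
    rw [hE]
    simp only [add_mul, mul_add]
    lognum hn
  have e2 : Ex ϱ (fun x y => el2 X s x y ^ 2) ≤ E := c.mom_el2.trans (by simp only [hE, Nat.reduceAdd]; lognum hn)
  have e3 : Ex ϱ (fun x y => el1 X s x y ^ 4) ≤ E := c.mom4_el1.trans (by simp only [hE, Nat.reduceAdd]; lognum hn)
  have e4 := c.t4_el4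
  have e5 : 100 * E ≤ p.G4 (kk α) / (p.N * kk α) := by simp only [hE, Nat.reduceAdd]; lognum hn
  have e6 : Ex ϱ (fun x y => tr (upd X s x y) 4 - tr X 4) ≤ Ex ϱ fun x y => 4 * el4 X s x y
      + 4 * (el1 X s x y * el3 X s x y) + 4 * el2 X s x y ^ 2 + 3 * el1 X s x y ^ 4 :=
    Ex_mono h0 fun x y hxy => by
      rw [(c.piv hxy).tr_four]
      nlinarith [sq_nonneg (el1 X s x y ^ 2 - el2 X s x y)]
  simp only [Ex_add, Ex_const_mul] at e6
  have e7 : 0 ≤ E := (Ex_nonneg h0 fun _ _ _ => sq_nonneg _).trans e2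
  have e : 8 * (tr X 2 / kk α - 1) * tr X 4 / kk α =
      4 * (2 * (tr X 2 / kk α - 1) * tr X 4 / kk α) := by ring
  rw [e]
  linarith

end Crest.Agent.R062
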