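import Crest.Agent.R062.T2
import Crest.Agent.R062.T4
import Crest.Agent.R062.DR
import Crest.Agent.R062.DV
import Crest.Agent.R062.DD

/-! The linear parts of the potential are almost supermartingales. -/

open Matrix Finset

namespace Crest.Agent.R062
variable {α : Type} [Fintype α] [DecidableEq α] {p : Par ℝ} {ϱ h sz : α → α → ℝ}
  {X Y : Matrix α α ℝ} {s : ℝ}

theorem potB_gen {S G G' E a b ε δ : ℝ} (hG : 0 < G) (hG' : 0 < G') (hS : 0 ≤ S / G)
    (hSG : S / G ≤ 1) (hE : E ≤ S * (1 + a) + G * ε) (hε : 0 ≤ ε) (hb : G ≤ Real.exp b * G')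
    (hab : a + b ≤ δ) (hδ : 0 ≤ δ) (hδ1 : δ ≤ 1) (hb1 : b ≤ 1 / 2) :
    E / G' ≤ S / G + 2 * δ + 2 * ε := by
  have ex : ∀ x : ℝ, 0 ≤ x → x ≤ 1 → Real.exp x ≤ 1 + 2 * x := fun x h0 h1 => by
    have := Real.abs_exp_sub_one_le (x := x) (by rwa [abs_of_nonneg h0])
    rw [abs_of_nonneg h0] at this
    linarith [le_abs_self (Real.exp x - 1)]
  have h1 : Real.exp b ≤ 2 := by
    have := ex (1 / 2) (by norm_num) (by norm_num)
    linarith [Real.exp_le_exp.2 hb1]
  have h2 : Real.exp a * Real.exp b ≤ 1 + 2 * δ := by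
    rw [← Real.exp_add]
    exact (Real.exp_le_exp.2 hab).trans (ex δ hδ hδ1)
  have h3 : 1 + a ≤ Real.exp a := by linarith [Real.add_one_le_exp a]
  set P := S / G with hP
  have hS' : S = P * G := by rw [hP]; field_simp
  rw [div_le_iff₀ hG']
  have h4 : S * (1 + a) ≤ (P + 2 * δ) * G' :=
    calc S * (1 + a) = P * G * (1 + a) := by rw [← hS']
      _ ≤ P * G * Real.exp a := by gcongr
      _ ≤ P * (Real.exp b * G') * Real.exp a := by gcongr
      _ = P * (Real.exp a * Real.exp b) * G' := by ring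
      _ ≤ P * (1 + 2 * δ) * G' := by gcongr
      _ ≤ (P + 2 * δ) * G' := by
        gcongr
        nlinarith
  have h5 : G * ε ≤ 2 * ε * G' :=
    calc G * ε ≤ Real.exp b * G' * ε := by gcongr
      _ ≤ 2 * G' * ε := by gcongr
      _ = _ := by ring
  linarith

section ratios
variable {k : ℝ} (hn : Num p k)
include hn

theorem potB_k2 : 0 < k - 2 := by linarith [hn.k_big]

theorem potB_kb2 : 0 < p.kb (k - 2) := add_pos (potB_k2 hn) hn.M_pos

theorem potB_F2 : 0 < p.F (k - 2) := div_pos (potB_k2 hn) (potB_kb2 hn)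

theorem potB_k : k ≤ Real.exp (2 / k + 5 / k ^ 2) * (k - 2) := by
  have hk := hn.k_big
  have hk0 := hn.k_pos
  have h1 : 2 / k + 5 / k ^ 2 + 1 ≤ Real.exp (2 / k + 5 / k ^ 2) := Real.add_one_le_exp _
  refine le_trans ?_ (mul_le_mul_of_nonneg_right h1 (potB_k2 hn).le)
  have : (2 / k + 5 / k ^ 2 + 1) * (k - 2) = k + (k - 10) / k ^ 2 := by
    field_simp
    ring
  rw [this]
  have : 0 ≤ (k - 10) / k ^ 2 := div_nonneg (by linarith) (by positivity)
  linarith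

theorem potB_kb : p.kb (k - 2) ≤ Real.exp (-(2 * p.F k / k)) * p.kb k := by
  have hk0 := hn.k_pos
  have hb := hn.kb_pos
  have h1 : -(2 * p.F k / k) + 1 ≤ Real.exp (-(2 * p.F k / k)) := Real.add_one_le_exp _
  refine le_trans (le_of_eq ?_) (mul_le_mul_of_nonneg_right h1 hb.le)
  rw [Num.F_eq]
  field_simp
  unfold Par.kb
  ring

theorem potB_F : p.F k ≤ Real.exp (2 * (1 - p.F k) / k + 5 / k ^ 2) * p.F (k - 2) := by
  have h1 := potB_k hn
  have h2 := potB_kb hn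
  have hb := hn.kb_pos
  have hb2 := potB_kb2 hn
  have hk2 := potB_k2 hn
  have e : 2 * (1 - p.F k) / k + 5 / k ^ 2 = (2 / k + 5 / k ^ 2) + -(2 * p.F k / k) := by ring
  rw [e, Real.exp_add]
  set A := Real.exp (2 / k + 5 / k ^ 2)
  set B := Real.exp (-(2 * p.F k / k))
  have hA : 0 < A := Real.exp_pos _
  rw [Num.F_eq, Num.F_eq, ← mul_div_assoc, div_le_div_iff₀ hb hb2]
  calc k * p.kb (k - 2) ≤ (A * (k - 2)) * (B * p.kb k) := by gcongr
    _ = _ := by ring

theorem potB_small : 100 / k ^ 2 ≤ 1 / (p.N * k) ∧ 100 / (p.N ^ 100 * k) ≤ 1 / (p.N * k) ∧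
    1000 / k ≤ 1 ∧ 100 / (p.N * k) ≤ 1 ∧ 0 < 1 / (p.N * k) := by
  refine ⟨by lognum hn, by lognum hn, by lognum hn, by lognum hn, ?_⟩
  have := hn.N_pos
  have := hn.k_pos
  positivity

end ratios

theorem potB_Ex_div (W Z : α → α → ℝ) (c : ℝ) : Ex W (fun x y => Z x y / c) = Ex W Z / c := by
  simp only [div_eq_inv_mul _ c]
  exact Ex_const_mul _

theorem potB_Ex_sub (c : Ctx p ϱ h sz X s) (Z : α → α → ℝ) (a : ℝ) :
    Ex ϱ (fun x y => Z x y - a) = Ex ϱ Z - a := by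
  rw [Ex_sub (Z' := fun _ _ => a), c.meas.Ex_const c.num.k_pos]

theorem Ctx.step_P2l (c : Ctx p ϱ h sz X s) :
    Ex ϱ (fun x y => P2l p (kk α - 2) (upd X s x y)) ≤ P2l p (kk α) X + 10 / (p.N * kk α) := by
  have hn := c.num
  have hd := c.drift_t2_lin
  rw [potB_Ex_sub c] at hd
  have h0 := (P_nonneg hn c.sys.symm univ).2.2.1
  have h1 := (c.sys.P_le hn).2.2.1
  have hφ := c.sys.Fa_le hn
  obtain ⟨s1, s2, s3, s4, s5⟩ := potB_small hn
  have hN := hn.N_pos
  have hk := hn.k_pos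
  have hk2 := potB_k2 hn
  have hF := hn.F_pos
  have hF2 := potB_F2 hn
  have r1 := potB_k hn
  have r2 := potB_F hn
  unfold P2l at h0 h1 ⊢
  rw [potB_Ex_div]
  set k := kk α
  set f := tr X 2
  have key := potB_gen (S := f) (G := p.Gf k) (G' := p.Gf (k - 2))
    (E := Ex ϱ fun x y => tr (upd X s x y) 2) (a := (2 * (f / k) - 4 + 1 / p.N) / k)
    (b := (2 / k + 5 / k ^ 2) + (2 * (1 - p.F k) / k + 5 / k ^ 2)) (ε := 1 / (p.N * k))
    (δ := 3 * (1 / (p.N * k))) hn.Gf_pos (by unfold Par.Gf; positivity) h0 h1 ?_ s5.le ?_ ?_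
    (by linarith) ?_ ?_
  · have e : 10 / (p.N * k) = 10 * (1 / (p.N * k)) := by ring
    linarith
  · have e1 : p.Gf k * (1 / (p.N * k)) = p.F k := by unfold Par.Gf; field_simp
    have e2 : f * (1 + (2 * (f / k) - 4 + 1 / p.N) / k) =
        f + (2 * (f / k) - 4 + 1 / p.N) * (f / k) := by ring
    linarith
  · unfold Par.Gf
    rw [Real.exp_add]
    calc p.N * k * p.F k ≤ p.N * (Real.exp (2 / k + 5 / k ^ 2) * (k - 2)) *
          (Real.exp (2 * (1 - p.F k) / k + 5 / k ^ 2) * p.F (k - 2)) := by gcongr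
      _ = _ := by ring
  · have e1 : (2 * (f / k) - 4 + 1 / p.N) / k ≤ (2 * (p.F k + 1 / p.N ^ 100) - 4 + 1 / p.N) / k := by
      gcongr
    have e2 : (2 * (p.F k + 1 / p.N ^ 100) - 4 + 1 / p.N) / k +
        ((2 / k + 5 / k ^ 2) + (2 * (1 - p.F k) / k + 5 / k ^ 2)) =
        1 / 50 * (100 / (p.N ^ 100 * k)) + 1 / (p.N * k) + 1 / 10 * (100 / k ^ 2) := by
      field_simp
      ring
    linarith
  · have e : 100 / (p.N * k) = 100 * (1 / (p.N * k)) := by ring
    linarith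
  · have e : 100 / (p.N * k) = 100 * (1 / (p.N * k)) := by ring
    have e1 : 2 * (1 - p.F k) / k ≤ 2 / k := by gcongr; linarith
    have e2 : 2 / k = 1 / 500 * (1000 / k) := by ring
    have e3 : 5 / k ^ 2 = 1 / 20 * (100 / k ^ 2) := by ring
    linarith

theorem Ctx.step_P4 (c : Ctx p ϱ h sz X s) :
    Ex ϱ (fun x y => P4 p (kk α - 2) (upd X s x y)) ≤ P4 p (kk α) X + 10 / (p.N * kk α) := by
  have hn := c.num
  have hd := c.drift_t4
  rw [potB_Ex_sub c] at hd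
  have h0 := (P_nonneg hn c.sys.symm univ).2.2.2.2.1
  have h1 := (c.sys.P_le hn).2.2.2.2.1
  have hφ := c.sys.Fa_le hn
  obtain ⟨s1, s2, s3, s4, s5⟩ := potB_small hn
  have hN := hn.N_pos
  have hk := hn.k_pos
  have hM := hn.M_pos
  have hnn := hn.n_pos
  have hkb := hn.kb_pos
  have hkb2 := potB_kb2 hn
  have hF := hn.F_pos
  have hF1 := hn.F_le_one
  have hF2 := potB_F2 hn
  have r2 := potB_F hn
  unfold P4 at h0 h1 ⊢
  rw [potB_Ex_div]
  set k := kk α
  set f := tr X 2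
  have key := potB_gen (S := tr X 4) (G := p.G4 k) (G' := p.G4 (k - 2))
    (E := Ex ϱ fun x y => tr (upd X s x y) 4) (a := 8 * (f / k - 1) / k)
    (b := 4 * (2 * (1 - p.F k) / k + 5 / k ^ 2)) (ε := 1 / (p.N * k))
    (δ := 1 / (p.N * k)) hn.G4_pos (by unfold Par.G4; positivity) h0 h1 ?_ s5.le ?_ ?_
    s5.le ?_ ?_
  · have e : 10 / (p.N * k) = 10 * (1 / (p.N * k)) := by ring
    linarith
  · have e1 : p.G4 k * (1 / (p.N * k)) = p.G4 k / (p.N * k) := by ring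
    have e2 : tr X 4 * (1 + 8 * (f / k - 1) / k) = tr X 4 + 8 * (f / k - 1) * tr X 4 / k := by ring
    linarith
  · unfold Par.G4
    have e : Real.exp (4 * (2 * (1 - p.F k) / k + 5 / k ^ 2)) =
        Real.exp (2 * (1 - p.F k) / k + 5 / k ^ 2) ^ 4 := by
      rw [← Real.exp_nat_mul]; norm_num
    rw [e]
    have hA : 1 ≤ Real.exp (2 * (1 - p.F k) / k + 5 / k ^ 2) :=
      Real.one_le_exp (add_nonneg (div_nonneg (by linarith) hk.le) (by positivity))
    set A := Real.exp (2 * (1 - p.F k) / k + 5 / k ^ 2)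
    have hkk : p.kb (k - 2) ≤ p.kb k := by unfold Par.kb; linarith
    have hA2 : A ^ 2 ≤ A ^ 4 := pow_le_pow_right₀ hA (by norm_num)
    calc p.N ^ 20 * (p.n ^ 2 * p.F k ^ 4 / p.kb k + p.M * p.F k ^ 2)
        ≤ p.N ^ 20 * (p.n ^ 2 * (A * p.F (k - 2)) ^ 4 / p.kb (k - 2)
          + p.M * (A * p.F (k - 2)) ^ 2) := by gcongr
      _ = p.N ^ 20 * (p.n ^ 2 * (A * p.F (k - 2)) ^ 4 / p.kb (k - 2)
          + p.M * (A ^ 2 * p.F (k - 2) ^ 2)) := by ring
      _ ≤ p.N ^ 20 * (p.n ^ 2 * (A * p.F (k - 2)) ^ 4 / p.kb (k - 2)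
          + p.M * (A ^ 4 * p.F (k - 2) ^ 2)) := by gcongr
      _ = _ := by ring
  · have e1 : 8 * (f / k - 1) / k ≤ 8 * (p.F k + 1 / p.N ^ 100 - 1) / k := by gcongr
    have e2 : 8 * (p.F k + 1 / p.N ^ 100 - 1) / k + 4 * (2 * (1 - p.F k) / k + 5 / k ^ 2) =
        2 / 25 * (100 / (p.N ^ 100 * k)) + 1 / 5 * (100 / k ^ 2) := by
      field_simp
      ring
    linarith
  · have e : 100 / (p.N * k) = 100 * (1 / (p.N * k)) := by ring
    linarith
  · have e : 100 / (p.N * k) = 100 * (1 / (p.N * k)) := by ring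
    have e1 : 2 * (1 - p.F k) / k ≤ 2 / k := by gcongr; linarith
    have e2 : 2 / k = 1 / 500 * (1000 / k) := by ring
    have e3 : 5 / k ^ 2 = 1 / 20 * (100 / k ^ 2) := by ring
    linarith

theorem Ctx.step_P5 (c : Ctx p ϱ h sz X s) :
    Ex ϱ (fun x y => P5 p (kk α - 2) (rest x y) (upd X s x y))
      ≤ P5 p (kk α) univ X + 10 / (p.N * kk α) := by
  have hn := c.num
  have hd := c.drift_V
  have h0 := (P_nonneg hn c.sys.symm univ).2.2.2.2.2.1
  have h1 := (c.sys.P_le hn).2.2.2.2.2.1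
  obtain ⟨s1, s2, s3, s4, s5⟩ := potB_small hn
  have hN := hn.N_pos
  have hk := hn.k_pos
  have hM := hn.M_pos
  have hF := hn.F_pos
  have hF2 := potB_F2 hn
  have r2 := potB_F hn
  unfold P5 at h0 h1 ⊢
  rw [potB_Ex_div]
  set k := kk α
  have key := potB_gen (S := VV X univ (p.F k)) (G := p.GV k) (G' := p.GV (k - 2))
    (E := Ex ϱ fun x y => VV (upd X s x y) (rest x y) (p.F (k - 2))) (a := -(4 * (1 - p.F k) / k))
    (b := 2 * (2 * (1 - p.F k) / k + 5 / k ^ 2)) (ε := 1 / (p.N * k))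
    (δ := 1 / (p.N * k)) hn.GV_pos (by unfold Par.GV; positivity) h0 h1 ?_ s5.le ?_ ?_
    s5.le ?_ ?_
  · have e : 10 / (p.N * k) = 10 * (1 / (p.N * k)) := by ring
    linarith
  · rw [← sub_eq_add_neg, mul_one_div]
    exact hd
  · unfold Par.GV
    have e : Real.exp (2 * (2 * (1 - p.F k) / k + 5 / k ^ 2)) =
        Real.exp (2 * (1 - p.F k) / k + 5 / k ^ 2) ^ 2 := by
      rw [← Real.exp_nat_mul]; norm_num
    rw [e]
    calc p.N ^ 3 * p.M * p.F k ^ 2
        ≤ p.N ^ 3 * p.M * (Real.exp (2 * (1 - p.F k) / k + 5 / k ^ 2) * p.F (k - 2)) ^ 2 := by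
          gcongr
      _ = _ := by ring
  · have e2 : -(4 * (1 - p.F k) / k) + 2 * (2 * (1 - p.F k) / k + 5 / k ^ 2) =
        1 / 10 * (100 / k ^ 2) := by ring
    linarith
  · have e : 100 / (p.N * k) = 100 * (1 / (p.N * k)) := by ring
    linarith
  · have e : 100 / (p.N * k) = 100 * (1 / (p.N * k)) := by ring
    have e1 : 2 * (1 - p.F k) / k ≤ 2 / k := by gcongr; linarith
    have e2 : 2 / k = 1 / 500 * (1000 / k) := by ring
    have e3 : 5 / k ^ 2 = 1 / 20 * (100 / k ^ 2) := by ring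
    linarith

theorem Ctx.step_P6 (c : Ctx p ϱ h sz X s) :
    Ex ϱ (fun x y => P6 p (kk α - 2) (upd X s x y)) ≤ P6 p (kk α) X + 10 / (p.N * kk α) := by
  have hn := c.num
  have hd := c.drift_R
  have h0 := (P_nonneg hn c.sys.symm univ).2.2.2.2.2.2.1
  have h1 := (c.sys.P_le hn).2.2.2.2.2.2.1
  obtain ⟨s1, s2, s3, s4, s5⟩ := potB_small hn
  have hN := hn.N_pos
  have hk := hn.k_pos
  have hF := hn.F_pos
  have hF2 := potB_F2 hn
  have r2 := potB_F hn
  unfold P6 at h0 h1 ⊢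
  rw [potB_Ex_div]
  set k := kk α
  have key := potB_gen (S := RR X) (G := p.GR k) (G' := p.GR (k - 2))
    (E := Ex ϱ fun x y => RR (upd X s x y)) (a := -(2 * (1 - p.F k) / k))
    (b := 2 * (1 - p.F k) / k + 5 / k ^ 2) (ε := 1 / (p.N * k))
    (δ := 1 / (p.N * k)) hn.GR_pos (by unfold Par.GR; positivity) h0 h1 ?_ s5.le ?_ ?_
    s5.le ?_ ?_
  · have e : 10 / (p.N * k) = 10 * (1 / (p.N * k)) := by ring
    linarith
  · rw [← sub_eq_add_neg, mul_one_div]
    exact hd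
  · unfold Par.GR
    calc p.N ^ 40 * p.F k
        ≤ p.N ^ 40 * (Real.exp (2 * (1 - p.F k) / k + 5 / k ^ 2) * p.F (k - 2)) := by gcongr
      _ = _ := by ring
  · have e3 : 5 / k ^ 2 = 1 / 20 * (100 / k ^ 2) := by ring
    linarith
  · have e : 100 / (p.N * k) = 100 * (1 / (p.N * k)) := by ring
    linarith
  · have e : 100 / (p.N * k) = 100 * (1 / (p.N * k)) := by ring
    have e1 : 2 * (1 - p.F k) / k ≤ 2 / k := by gcongr; linarith
    have e2 : 2 / k = 1 / 500 * (1000 / k) := by ring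
    have e3 : 5 / k ^ 2 = 1 / 20 * (100 / k ^ 2) := by ring
    linarith

theorem step_P9 (cX : Ctx p ϱ h sz X 1) (cY : Ctx p ϱ h sz Y (-1)) (h9 : P9 p (kk α) X Y ≤ 1) :
    Ex ϱ (fun x y => P9 p (kk α - 2) (upd X 1 x y) (upd Y (-1) x y))
      ≤ P9 p (kk α) X Y + 10 / (p.N * kk α) := by
  have hn := cX.num
  have h0 := P9_nonneg hn cX.sys.symm cY.sys.symm
  obtain ⟨-, -, -, -, s5⟩ := potB_small hn
  have e : 10 / (p.N * kk α) = 10 * (1 / (p.N * kk α)) := by ring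
  by_cases hk : p.k1 ≤ kk α - 2
  · have hk' : p.k1 ≤ kk α := by linarith
    unfold P9 at h9 ⊢
    simp only [if_pos hk, if_pos hk'] at h9 ⊢
    have hG := hn.GD_pos
    have hd := drift_D cX cY hk' ((div_le_one hG).1 h9)
    rw [potB_Ex_div]
    have h2 : (DD X Y + p.GD / (p.N * kk α)) / p.GD = DD X Y / p.GD + 1 / (p.N * kk α) := by
      field_simp
    have h3 := div_le_div_of_nonneg_right hd hG.le
    linarith
  · have : (fun x y => P9 p (kk α - 2) (upd X 1 x y) (upd Y (-1) x y)) = fun _ _ => 0 := by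
      funext x y
      unfold P9
      rw [if_neg hk]
    rw [this, cX.meas.Ex_const hn.k_pos]
    linarith

end Crest.Agent.R062
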