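import Crest.Agent.R062.PotA
import Crest.Agent.R062.PotB
import Crest.Agent.R062.MeasC

/-! Existence of a good pair. -/

open Matrix Finset

namespace Crest.Agent.R062
variable {α : Type} [Fintype α] [DecidableEq α] {p : Par ℝ} {X Y : Matrix α α ℝ}

/-- Symmetric, zero row sums, `X + m ≥ 0`. -/
structure Pre (p : Par ℝ) (X : Matrix α α ℝ) : Prop where
  symm : X.IsSymm
  rowsum : ∀ x, ∑ y, X x y = 0
  psd : ∀ h : α → ℝ, 0 ≤ h ⬝ᵥ (X *ᵥ h) + p.m * (h ⬝ᵥ h)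

theorem exists_good_pair (hn : Num p (kk α)) (hX : Pre p X) (hY : Pre p Y)
    (hpot : pot p (kk α) univ X Y ≤ 1) (forb : α → α → Prop) [DecidableRel forb]
    (hsymm : ∀ x y, forb x y → forb y x)
    (hcount : ∀ x, ((univ.filter (forb x)).card : ℝ) ≤ p.N) :
    ∃ x y, x ≠ y ∧ ¬ forb x y ∧ 0 < Del X 1 x y ∧ 0 < Del Y (-1) x y ∧
      pot p (kk α - 2) (rest x y) (upd X 1 x y) (upd Y (-1) x y)
        ≤ pot p (kk α) univ X Y + 250 / (p.N * kk α) := by
  have nX := pot1_nonneg hn hX.symm univ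
  have nY := pot1_nonneg hn hY.symm univ
  have n9 := P9_nonneg hn hX.symm hY.symm
  unfold pot at hpot
  have sX : Sys p X := ⟨hX.symm, hX.rowsum, hX.psd, by linarith⟩
  have sY : Sys p Y := ⟨hY.symm, hY.rowsum, hY.psd, by linarith⟩
  have h9 : P9 p (kk α) X Y ≤ 1 := by linarith
  have hD : p.k1 ≤ kk α → DD X Y ≤ p.GD := fun hk => by
    unfold P9 at h9
    rwa [if_pos hk, div_le_one hn.GD_pos] at h9
  obtain ⟨h, hh, tX, tY⟩ := exists_tilt hn sX sY hD
  obtain ⟨ϱ, sz, hm, aX, aY, hf⟩ := exists_meas hn sX sY hh forb hsymm hcount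
  have cX : Ctx p ϱ h sz X 1 := ⟨hn, sX, Or.inl rfl, hm, aX⟩
  have cY : Ctx p ϱ h sz Y (-1) := ⟨hn, sY, Or.inr rfl, hm, aY⟩
  obtain ⟨x, y, hxy, hle⟩ := hm.exists_le hn.k_pos
    (fun x y => pot p (kk α - 2) (rest x y) (upd X 1 x y) (upd Y (-1) x y))
  refine ⟨x, y, cX.ne hxy, hf x y hxy, cX.Del_pos hxy, cY.Del_pos hxy, hle.trans ?_⟩
  have a1 := cX.step_P1 tX; have a2 := cX.step_P2; have a3 := cX.step_P3; have a8 := cX.step_P8
  have a2l := cX.step_P2l; have a4 := cX.step_P4; have a5 := cX.step_P5; have a6 := cX.step_P6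
  have b1 := cY.step_P1 tY; have b2 := cY.step_P2; have b3 := cY.step_P3; have b8 := cY.step_P8
  have b2l := cY.step_P2l; have b4 := cY.step_P4; have b5 := cY.step_P5; have b6 := cY.step_P6
  have c9 := step_P9 cX cY h9
  have e : ∀ a : ℝ, a / (p.N * kk α) = a * (1 / (p.N * kk α)) := fun a => by ring
  have hpos : 0 ≤ 1 / (p.N * kk α) := by have := hn.N_pos; have := hn.k_pos; positivity
  rw [e] at a1 a2 a3 a8 a2l a4 a5 a6 b1 b2 b3 b8 b2l b4 b5 b6 c9 ⊢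
  unfold pot pot1
  simp only [Ex_add]
  linarith

end Crest.Agent.R062
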