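import Crest.Agent.R062.Init
import Crest.Agent.R062.Graph
import Crest.Agent.R062.Step

/-! The greedy phase, the completion and the spectral bound. -/

open Matrix Finset

namespace Crest.Agent.R062
variable {d n : ℕ} {l : St} {s : ℚ}

theorem kf_cons (k₀ : ℕ) (e : ℕ × ℕ) : kf k₀ (e :: l) = kf k₀ l - 2 := by
  simp only [kf, List.length_cons]; omega

theorem kf_cons_real {k₀ : ℕ} (e : ℕ × ℕ) (h : 2 ≤ kf k₀ l) :
    (kf k₀ (e :: l) : ℝ) = (kf k₀ l : ℝ) - 2 := by
  rw [kf_cons, Nat.cast_sub h]; norm_num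

/-- The invariant along a sequence of allowed moves. -/
theorem Good.Jinv (h : Big d n) (hg : Good d n l) (hs : s = 1 ∨ s = -1) (hk : 0 < kf (n * d) l)
    (x : Fin n → ℝ) (hx : ∑ i, x i = 0) :
    Jinv (free (n * d) l) (XR d n s l) (s : ℝ) (mm d n : ℝ) (fun z => lift x ((z : ℕ) / d))
      ((theta d n : ℝ) * (x ⬝ᵥ x) - 2 * (s : ℝ) * edgeSum d x l) := by
  induction hg with
  | nil => simpa [edgeSum] using h.Jinv_nil hs x hx
  | @cons l a b hg hv ih =>
    have hk2 : 2 < kf (n * d) l := by rw [kf_cons] at hk; omega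
    have ih' := ih (by omega)
    set a' : ↥(free (n * d) l) := ⟨a, mem_free.2 hv.1⟩
    set b' : ↥(free (n * d) l) := ⟨b, mem_free.2 hv.2.1⟩
    have hv' : valid d n l a' b' := hv
    rw [← free_map, Jinv_submatrix (supp_XR d n s l)] at ih'
    have hdel : 0 < Del (XF d n s l) (s : ℝ) a' b' := by
      rw [hg.Del_XF]
      rcases hs with rfl | rfl
      · exact_mod_cast hv.2.2.2.1
      · exact_mod_cast hv.2.2.2.2
    have m0 : (0 : ℝ) ≤ (mm d n : ℝ) := by exact_mod_cast h.mm_pos.le
    have m1 : (mm d n : ℝ) < 1 := by exact_mod_cast h.mm_lt_one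
    have := Jinv.step (hg.piv hs hk2 hv') hdel m0 m1 ih'
    rw [← hg.link hs hk2 hv', ← Jinv_submatrix (supp_XR_cons d n s l _), ← free_cons] at this
    convert this using 1
    rw [edgeSum_cons]
    simp only [Function.comp, incl, Function.Embedding.coe_subtype, a', b']
    ring

theorem Good.pre (h : Big d n) (hg : Good d n l) (hs : s = 1 ∨ s = -1) (hk : 0 < kf (n * d) l) :
    Pre (par d n).cast (XF d n s l) := by
  have hn : 0 < n * d := Nat.mul_pos h.n_pos (by have := h.hd; omega)
  refine ⟨hg.XF_symm hs, hg.XF_rowsum hs hn hk, ?_⟩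
  have := hg.Jinv h hs hk 0 (by simp)
  rw [← free_map, Jinv_submatrix (supp_XR d n s l)] at this
  have e1 : ((fun z : Fin (n * d) => lift (0 : Fin n → ℝ) ((z : ℕ) / d)) ∘ incl (n * d) l) = 0 := by
    funext z; simp [lift]
  have e2 : edgeSum d (0 : Fin n → ℝ) l = 0 := by simp [edgeSum, lift]
  rw [e1, e2] at this
  simp only [dotProduct_zero, mul_zero, sub_zero] at this
  have m0 : (0 : ℝ) ≤ (mm d n : ℝ) := by exact_mod_cast h.mm_pos.le
  exact this.psd m0

theorem Good.Phi_eq (hg : Good d n l) :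
    (Phi d n l : ℝ) = pot (par d n).cast (kk ↥(free (n * d) l)) univ (XF d n 1 l) (XF d n (-1) l) := by
  have := pot_submatrix (supp_XR d n 1 l) (supp_XR d n (-1) l) (par d n).cast
    (kf (n * d) l : ℝ) univ
  rw [free_map] at this
  rw [Phi, pot_cast, hg.kk_free]
  simpa [XR, XF] using this

theorem Good.Phi_cons (hg : Good d n l) (hk : 2 < kf (n * d) l) {x y : ↥(free (n * d) l)}
    (hv : valid d n l x y) :
    (Phi d n ((((x : Fin (n * d)) : ℕ), ((y : Fin (n * d)) : ℕ)) :: l) : ℝ)
      = pot (par d n).cast (kk ↥(free (n * d) l) - 2) (rest x y) (upd (XF d n 1 l) 1 x y)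
          (upd (XF d n (-1) l) (-1) x y) := by
  have := pot_submatrix (supp_XR_cons d n 1 l (((x : Fin (n * d)) : ℕ), ((y : Fin (n * d)) : ℕ)))
    (supp_XR_cons d n (-1) l (((x : Fin (n * d)) : ℕ), ((y : Fin (n * d)) : ℕ))) (par d n).cast
    (kk ↥(free (n * d) l) - 2) (rest x y)
  rw [hg.link (Or.inl rfl) hk hv, hg.link (Or.inr rfl) hk hv, ← free_cons] at this
  rw [Phi, pot_cast, Rat.cast_natCast, kf_cons_real _ hk.le, ← hg.kk_free]
  simpa [XR] using this

theorem Good.num (h : Big d n) (hg : Good d n l) (hl : l.length ≤ steps d n) :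
    Num (par d n).cast (kk ↥(free (n * d) l)) := by
  have h1 := h.steps_lo
  rw [hg.kk_free]
  refine h.num ?_ ?_
  · have : NN n ^ 3409 ≤ kf (n * d) l := by unfold kf; omega
    exact_mod_cast this
  · have : kf (n * d) l ≤ n * d := by unfold kf; omega
    exact_mod_cast this

/-- One greedy step. -/
theorem Good.gstep (h : Big d n) (hg : Good d n l) (hl : l.length ≤ steps d n)
    (hP : (Phi d n l : ℝ) ≤ 1) :
    Good d n (gstep d n l) ∧ (gstep d n l).length = l.length + 1 ∧
      (Phi d n (gstep d n l) : ℝ) ≤ Phi d n l + 250 / ((NN n : ℝ) * (kf (n * d) l : ℝ)) := by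
  have hn := hg.num h hl
  have hk : 2 < kf (n * d) l := by
    have := hn.k_big
    rw [hg.kk_free] at this
    have : (2 : ℝ) < (kf (n * d) l : ℝ) := lt_of_lt_of_le (by norm_num) this
    exact_mod_cast this
  have hd : 0 < d := by have := h.hd; omega
  rw [hg.Phi_eq] at hP
  obtain ⟨x, y, -, hf, dx, dy, hle⟩ := exists_good_pair hn (hg.pre h (Or.inl rfl) (by omega))
    (hg.pre h (Or.inr rfl) (by omega)) hP
    (fun x y => okPair d l ((x : Fin (n * d)) : ℕ) ((y : Fin (n * d)) : ℕ) = false)
    (fun x y hxy => by rwa [okPair_comm])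
    (fun x => by
      have h1 := card_not_ok hd hg.nodup ((x : Fin (n * d)) : ℕ) (Finset.range (n * d))
      have h2 : (univ.filter fun y : ↥(free (n * d) l) =>
          okPair d l ((x : Fin (n * d)) : ℕ) ((y : Fin (n * d)) : ℕ) = false).card
          ≤ ((Finset.range (n * d)).filter
            fun y => okPair d l ((x : Fin (n * d)) : ℕ) y = false).card := by
        refine Finset.card_le_card_of_injOn (fun y => ((y : Fin (n * d)) : ℕ)) ?_ ?_
        · intro y hy
          simp only [coe_filter, mem_univ, true_and, Set.mem_ofPred_eq, mem_range] at hy ⊢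
          exact ⟨(y : Fin (n * d)).2, hy⟩
        · intro y _ y' _ e
          exact Subtype.ext (Fin.ext e)
      have h3 := (h2.trans h1).trans h.count_le
      show _ ≤ ((NN n : ℚ) : ℝ)
      exact_mod_cast h3)
  have e1 := hg.Del_XF (s := 1) x y
  have e2 := hg.Del_XF (s := -1) x y
  simp only [Rat.cast_one, Rat.cast_neg] at e1 e2
  have hv : valid d n l x y := by
    refine ⟨mem_free.1 x.2, mem_free.1 y.2, by simpa using hf, ?_, ?_⟩
    · rw [e1] at dx; exact_mod_cast dx
    · rw [e2] at dy; exact_mod_cast dy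
  obtain ⟨x', y', hv', he, hmin⟩ := gstep_spec hv
  rw [he]
  refine ⟨hg.cons hv', rfl, ?_⟩
  have hmin' : (Phi d n (((x' : ℕ), (y' : ℕ)) :: l) : ℝ)
      ≤ Phi d n ((((x : Fin (n * d)) : ℕ), ((y : Fin (n * d)) : ℕ)) :: l) := by exact_mod_cast hmin
  rw [hg.Phi_cons hk hv] at hmin'
  have e : ((par d n).cast).N = (NN n : ℝ) := by simp [Par.cast, par]
  rw [← hg.Phi_eq, hg.kk_free, e] at hle
  rw [hg.kk_free] at hmin'
  exact hmin'.trans hle

theorem Big.run_spec (h : Big d n) (i : ℕ) (hi : i ≤ steps d n) :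
    Good d n (run d n i) ∧ (run d n i).length = i ∧
      (Phi d n (run d n i) : ℝ)
        ≤ 1 / 4 + 250 / (NN n : ℝ) * Real.log ((n : ℝ) * d / (kf (n * d) (run d n i) : ℝ)) := by
  have hd : 0 < d := by have := h.hd; omega
  have hnd : (0 : ℝ) < (n : ℝ) * d := by have := h.n_pos; positivity
  have hN : (0 : ℝ) < (NN n : ℝ) := by
    have := h.N_ge
    have : 0 < NN n := lt_of_lt_of_le (by norm_num) this
    exact_mod_cast this
  induction i with
  | zero =>
    refine ⟨Good.nil, rfl, ?_⟩
    have : (kf (n * d) (run d n 0) : ℝ) = (n : ℝ) * d := by simp [run, kf]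
    rw [this, div_self hnd.ne', Real.log_one, mul_zero, add_zero]
    exact h.Phi_nil
  | succ i ih =>
    obtain ⟨hg, hl, hP⟩ := ih (by omega)
    have hn := hg.num h (by omega)
    have hk := hn.k_big
    rw [hg.kk_free] at hk
    set k : ℝ := (kf (n * d) (run d n i) : ℝ) with hkdef
    have hlog := h.log_le (k := k) (le_trans (by norm_num) hk)
    obtain ⟨hg', hl', hP'⟩ := hg.gstep h (by omega) (by linarith)
    have e : run d n (i + 1) = gstep d n (run d n i) := Function.iterate_succ_apply' _ _ _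
    rw [e]
    refine ⟨hg', by omega, ?_⟩
    have hk2 : 2 ≤ kf (n * d) (run d n i) := by
      have : (2 : ℝ) ≤ k := le_trans (by norm_num) hk
      rw [hkdef] at this
      exact_mod_cast this
    have ek : (kf (n * d) (gstep d n (run d n i)) : ℝ) = k - 2 := by
      have : kf (n * d) (gstep d n (run d n i)) = kf (n * d) (run d n i) - 2 := by
        unfold kf; omega
      rw [this, Nat.cast_sub hk2, hkdef]; norm_num
    rw [ek]
    have k0 : 0 < k := lt_of_lt_of_le (by norm_num) hk
    have k2 : 0 < k - 2 := by linarith [show (3 : ℝ) ≤ k from le_trans (by norm_num) hk]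
    have hl2 : Real.log ((n : ℝ) * d / k) + 1 / k ≤ Real.log ((n : ℝ) * d / (k - 2)) := by
      rw [Real.log_div hnd.ne' k0.ne', Real.log_div hnd.ne' k2.ne']
      have h1 := Real.log_le_sub_one_of_pos (div_pos k2 k0)
      rw [Real.log_div k2.ne' k0.ne'] at h1
      have h2 : (k - 2) / k - 1 = -2 * (1 / k) := by field_simp; ring
      have h3 : 0 < 1 / k := by positivity
      linarith
    have h4 : 250 / ((NN n : ℝ) * k) = 250 / (NN n : ℝ) * (1 / k) := by field_simp
    have h5 : 0 ≤ 250 / (NN n : ℝ) := by positivity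
    nlinarith [mul_le_mul_of_nonneg_left hl2 h5]

/-- The state at the end of the greedy phase. -/
theorem Big.last_spec (h : Big d n) (hs : s = 1 ∨ s = -1) :
    Sys (par d n).cast (XF d n s (run d n (steps d n))) := by
  obtain ⟨hg, hl, hP⟩ := h.run_spec (steps d n) le_rfl
  have hn := hg.num h hl.le
  have hk := hn.k_big
  rw [hg.kk_free] at hk
  have hk0 : 0 < kf (n * d) (run d n (steps d n)) := by
    have : (0 : ℝ) < (kf (n * d) (run d n (steps d n)) : ℝ) := lt_of_lt_of_le (by norm_num) hk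
    exact_mod_cast this
  have hlog := h.log_le (le_trans (by norm_num) hk)
  have pX := hg.pre h (Or.inl rfl) hk0
  have pY := hg.pre h (Or.inr rfl) hk0
  have nX := pot1_nonneg hn pX.symm univ
  have nY := pot1_nonneg hn pY.symm univ
  have n9 := P9_nonneg hn pX.symm pY.symm
  rw [hg.Phi_eq] at hP
  unfold pot at hP
  rcases hs with rfl | rfl
  · exact ⟨pX.symm, pX.rowsum, pX.psd, by linarith⟩
  · exact ⟨pY.symm, pY.rowsum, pY.psd, by linarith⟩

end Crest.Agent.R062
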