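import Crest.Agent.R062.Defs

/-! The algorithm.  Stubs are the numbers below `n * d`, stub `z` belongs to the vertex `z / d`.
A state is the list of glued pairs. -/

open Matrix Finset

namespace Crest.Agent.R062

noncomputable section

/-- The basic scale: `NN n ^ 10000 ≤ n < (NN n + 1) ^ 10000`. -/
def NN (n : ℕ) : ℕ := Nat.findGreatest (fun N => N ^ 10000 ≤ n) n
def LL (n : ℕ) : ℕ := NN n ^ 3150
/-- `jj d n = ⌊LL n / √(d - 1)⌋`. -/
def jj (d n : ℕ) : ℕ := Nat.findGreatest (fun j => (d - 1) * j ^ 2 ≤ LL n ^ 2) (LL n)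
def mm (d n : ℕ) : ℚ := ((jj d n : ℚ) - 1) / (LL n : ℚ)
def cc (d n : ℕ) : ℚ := mm d n + 8 * (d : ℚ) / (LL n : ℚ) ^ 2
def pp (d n : ℕ) : ℚ := ((d : ℚ) - 1) * mm d n ^ 2
def MM (d n : ℕ) : ℚ := (n : ℚ) * d * (1 - pp d n) / pp d n
def TT (d n : ℕ) : ℚ :=
  ((n : ℚ) - 1) * (cc d n * d - mm d n) ^ 3 - (n : ℚ) * ((d : ℚ) - 1) * mm d n ^ 3
def par (d n : ℕ) : Par ℚ := ⟨NN n, n, MM d n, mm d n, TT d n⟩
/-- The spectral bound that is achieved. -/
def theta (d n : ℕ) : ℚ := mm d n * d + (1 - mm d n ^ 2) / cc d n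
/-- Number of steps of the greedy phase. -/
def steps (d n : ℕ) : ℕ := (n * d - NN n ^ 3410 + 1) / 2

/-- `n` is large enough. -/
structure Big (d n : ℕ) : Prop where
  hd : 3 ≤ d
  hN : 10 ^ 14 * d ^ 10 ≤ NN n

abbrev St := List (ℕ × ℕ)

/-- The glued stubs. -/
def used (l : St) : List ℕ := l.flatMap fun e => [e.1, e.2]
/-- The free stubs. -/
def free (k₀ : ℕ) (l : St) : Finset (Fin k₀) := univ.filter fun z => (z : ℕ) ∉ used l
/-- The number of free stubs. -/
def kf (k₀ : ℕ) (l : St) : ℕ := k₀ - 2 * l.length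
/-- The partial matching as a matrix. -/
def Pm (k₀ : ℕ) (l : St) : Matrix (Fin k₀) (Fin k₀) ℚ :=
  Matrix.of fun z t => if ((z : ℕ), (t : ℕ)) ∈ l ∨ ((t : ℕ), (z : ℕ)) ∈ l then 1 else 0

def K0 (d n : ℕ) (s : ℚ) : Matrix (Fin (n * d)) (Fin (n * d)) ℚ :=
  Matrix.of fun z t => (if (z : ℕ) / d = (t : ℕ) / d then cc d n else 0)
    - (if (z : ℕ) = (t : ℕ) then mm d n else 0) + (mm d n - cc d n * d + s) / ((n : ℚ) * d)

def Kt (d n : ℕ) (s : ℚ) (l : St) : Matrix (Fin (n * d)) (Fin (n * d)) ℚ :=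
  (1 - s • (K0 d n s * Pm (n * d) l))⁻¹ * K0 d n s

/-- The centred matrix on the free stubs, extended by zero. -/
def Xs (d n : ℕ) (s : ℚ) (l : St) : Matrix (Fin (n * d)) (Fin (n * d)) ℚ :=
  Matrix.of fun z t => if (z : ℕ) ∉ used l ∧ (t : ℕ) ∉ used l then
    Kt d n s l z t - s / (kf (n * d) l : ℚ) else 0

/-- The vertices `u` and `v` are joined by a glued pair. -/
def adjV (d : ℕ) (l : St) (u v : ℕ) : Bool :=
  l.any fun e => (e.1 / d == u && e.2 / d == v) || (e.1 / d == v && e.2 / d == u)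

/-- Gluing the stubs `x` and `y` creates neither a loop nor a double edge. -/
def okPair (d : ℕ) (l : St) (x y : ℕ) : Bool := !(x / d == y / d) && !adjV d l (x / d) (y / d)

/-- No loops and no double edges. -/
def Simple (d : ℕ) : St → Prop
  | [] => True
  | e :: l => okPair d l e.1 e.2 = true ∧ Simple d l

def DelQ (d n : ℕ) (s : ℚ) (l : St) (x y : Fin (n * d)) : ℚ :=
  (s - Kt d n s l x y) ^ 2 - Kt d n s l x x * Kt d n s l y y

/-- An allowed move. -/
def valid (d n : ℕ) (l : St) (x y : Fin (n * d)) : Prop :=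
  (x : ℕ) ∉ used l ∧ (y : ℕ) ∉ used l ∧ okPair d l x y = true ∧
    0 < DelQ d n 1 l x y ∧ 0 < DelQ d n (-1) l x y

instance (d n : ℕ) (l : St) (x y : Fin (n * d)) : Decidable (valid d n l x y) := by
  unfold valid; infer_instance

/-- States reached by allowed moves. -/
inductive Good (d n : ℕ) : St → Prop
  | nil : Good d n []
  | cons {l : St} {x y : Fin (n * d)} : Good d n l → valid d n l x y →
      Good d n (((x : ℕ), (y : ℕ)) :: l)

/-- The potential of a state. -/
def Phi (d n : ℕ) (l : St) : ℚ :=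
  pot (par d n) (kf (n * d) l : ℚ) (free (n * d) l) (Xs d n 1 l) (Xs d n (-1) l)

/-- The list of allowed moves. -/
def cands (d n : ℕ) (l : St) : St :=
  (List.ofFn fun x : Fin (n * d) => (List.ofFn fun y : Fin (n * d) =>
    if valid d n l x y then [((x : ℕ), (y : ℕ))] else []).flatten).flatten

/-- The greedy step. -/
def gstep (d n : ℕ) (l : St) : St :=
  ((cands d n l).argmin fun e => Phi d n (e :: l)).toList ++ l

def run (d n i : ℕ) : St := (gstep d n)^[i] []

/-- Repair one forbidden pair of a matching by a switch. -/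
def fixStep (ok : ℕ → ℕ → Bool) (L : St) : St :=
  ((L.find? fun e => !ok e.1 e.2).bind fun e =>
    ((L.erase e).find? fun e' => ok e.1 e'.1 && ok e.2 e'.2).map fun e' =>
      (e.1, e'.1) :: (e.2, e'.2) :: (L.erase e).erase e').getD L

/-- A perfect matching of the list `u` without forbidden pairs. -/
def complete (ok : ℕ → ℕ → Bool) (u : List ℕ) : St :=
  (fixStep ok)^[u.length] ((u.take (u.length / 2)).zip (u.drop (u.length / 2)))

/-- The free stubs as a list. -/
def freeL (k₀ : ℕ) (l : St) : List ℕ := (List.range k₀).filter fun z => decide (z ∉ used l)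

/-- The final perfect matching of the stubs. -/
def final (d n : ℕ) : St :=
  complete (okPair d (run d n (steps d n))) (freeL (n * d) (run d n (steps d n)))
    ++ run d n (steps d n)

/-- The adjacency matrix as a bit string. -/
def outBits (d n : ℕ) (l : St) : List Bool :=
  (List.range (n * n)).map fun i => adjV d l (i / n) (i % n)

/-- The polynomial-time map. -/
def algo (d : ℕ) (w : List Bool) : List Bool := outBits d w.length (final d w.length)

/-- A vector on the vertices, extended by zero. -/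
def lift {n : ℕ} (x : Fin n → ℝ) (v : ℕ) : ℝ := if h : v < n then x ⟨v, h⟩ else 0

/-- Half of the quadratic form of the multigraph. -/
def edgeSum {n : ℕ} (d : ℕ) (x : Fin n → ℝ) (l : St) : ℝ :=
  (l.map fun e => lift x (e.1 / d) * lift x (e.2 / d)).sum

/-- The real matrix on all stubs. -/
def XR (d n : ℕ) (s : ℚ) (l : St) : Matrix (Fin (n * d)) (Fin (n * d)) ℝ :=
  (Xs d n s l).map fun q : ℚ => (q : ℝ)

/-- The inclusion of the free stubs. -/
def incl (k₀ : ℕ) (l : St) : ↥(free k₀ l) ↪ Fin k₀ := Function.Embedding.subtype _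

/-- The real matrix on the free stubs. -/
def XF (d n : ℕ) (s : ℚ) (l : St) :
    Matrix ↥(free (n * d) l) ↥(free (n * d) l) ℝ :=
  (XR d n s l).submatrix (incl _ l) (incl _ l)

end

end Crest.Agent.R062
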