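import Crest.Agent.R062.T1Aux

/-! Drift and variance of `tr X`. -/

open Matrix Finset

namespace Crest.Agent.R062
variable {α : Type} [Fintype α] [DecidableEq α] {p : Par ℝ} {ϱ h sz : α → α → ℝ}
  {X Y : Matrix α α ℝ} {s : ℝ}

theorem Ctx.drift_t1 (c : Ctx p ϱ h sz X s) :
    |Ex ϱ (fun x y => tr (upd X s x y) 1 - tr X 1)
      - (2 * (s * cor h X) / kk α ^ 2 + 2 * (tr X 2 / kk α - 1) * tr X 1 / kk α)|
      ≤ p.stau (kk α) / (p.N * kk α) := by
  have hn := c.num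
  have hk := hn.k_pos
  have h1 := c.nu_eta
  have h2 := c.nu_invDel
  have e : Ex ϱ (fun x y => tr (upd X s x y) 1 - tr X 1) =
      Ex ϱ (fun x y => (s * eta X s x y) * (2 * s * pw X 2 x y - X x x - X y y)
        + (1 / Del X s x y) * (rho X x * ah X s y + ah X s x * rho X y
          - s * (X x y * ah X s y) - s * (X x y * ah X s x))) := by
    refine Ex_congr fun x y hxy => ?_
    rw [(c.piv hxy).tr_one]
    simp only [el1, trC, e11, e22, zero_add, pw_one, pw_two_self]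
    linear_combination (-2 * eta X s x y * pw X 2 x y) * c.s_sq
  rw [e, Ex_add, Ex_weight, Ex_weight, Ex_sub, Ex_sub, Ex_const_mul, Ex_sub, Ex_sub, Ex_add,
    Ex_const_mul, Ex_const_mul]
  have sR := Real.sqrt_le_sqrt (c.sys.R_le hn)
  have sRh := Real.sqrt_le_sqrt (c.sys.Rh_le hn c.sgn)
  have sQ := Real.sqrt_le_sqrt (c.sys.Q_le hn)
  have sf := Real.sqrt_le_sqrt c.t12_f
  have a1 : |Ex (fun x y => ϱ x y * (s * eta X s x y)) (fun x y => pw X 2 x y)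
      - cor h X / kk α ^ 2| ≤ p.Ups (kk α) * p.Om (kk α) ^ 2 / kk α ^ 2 := by
    refine (h1.Ex_tilt (c.t12_sum_pw 2 (by norm_num))).trans ?_
    have := hn.Ups_pos
    have := c.t12_c2'
    gcongr
  have a2 := h1.t12_left hk (fun x => X x x) sR
  have a3 := h1.t12_right hk (fun x => X x x) sR
  have a4 := h2.t12_prod hk (rho X) (ah X s) sQ sRh
  have a5 := h2.t12_prod hk (ah X s) (rho X) sRh sQ
  have a6 := h2.t12_mul_right (fun x y => X x y) (ah X s) sf (c.sys.Rh_le hn c.sgn)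
  have a7 := h2.t12_mul_left (fun x y => X x y) (ah X s) sf (c.sys.Rh_le hn c.sgn)
  have a8 : |tr X 2 / kk α ^ 2| ≤ p.N * kk α * p.F (kk α) / kk α ^ 2 := by
    rw [abs_of_nonneg (div_nonneg (c.sys.f_nonneg hn) (sq_nonneg _))]
    have := c.sys.f_le hn
    gcongr
  rw [c.t12_tau] at a2 a3
  rw [sum_rho, c.sys.sum_ah hn] at a4 a5
  have b1 := abs_le.1 (c.t12_abs_s_mul a1)
  have b2 := abs_le.1 a2
  have b3 := abs_le.1 a3
  have b4 := abs_le.1 a4
  have b5 := abs_le.1 a5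
  have b6 := abs_le.1 (c.t12_abs_s_mul a6)
  have b7 := abs_le.1 (c.t12_abs_s_mul a7)
  have b8 := abs_le.1 (c.t12_abs_s_mul a8)
  have m : 2 * (s * cor h X) / kk α ^ 2 + 2 * (tr X 2 / kk α - 1) * tr X 1 / kk α =
      2 * (s * (cor h X / kk α ^ 2)) - 2 * (tr X 1 / kk α) + tr X 2 * (tr X 1 + s) / kk α ^ 2
        + (tr X 1 + s) * tr X 2 / kk α ^ 2 - 2 * (s * (tr X 2 / kk α ^ 2)) := by ring
  have err : 2 * (p.Ups (kk α) * p.Om (kk α) ^ 2 / kk α ^ 2)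
      + 2 * (p.Ups (kk α) * Real.sqrt (p.N ^ 40 * p.F (kk α)) * Real.sqrt (kk α) / kk α ^ 2)
      + p.Ups (kk α) * Real.sqrt (p.N ^ 4 * kk α * p.F (kk α)) * Real.sqrt (p.N ^ 41 * p.F (kk α))
        / kk α ^ 2
      + p.Ups (kk α) * Real.sqrt (p.N ^ 41 * p.F (kk α)) * Real.sqrt (p.N ^ 4 * kk α * p.F (kk α))
        / kk α ^ 2
      + 2 * (2 * Real.sqrt (p.N * kk α * p.F (kk α)) * Real.sqrt (kk α * (p.N ^ 41 * p.F (kk α)))
        / kk α ^ 2)
      + 2 * (p.N * kk α * p.F (kk α) / kk α ^ 2) ≤ p.stau (kk α) / (p.N * kk α) := by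
    lognum hn
  rw [m, abs_le]
  constructor <;>
    linarith [b1.1, b1.2, b2.1, b2.2, b3.1, b3.2, b4.1, b4.2, b5.1, b5.2, b6.1, b6.2, b7.1, b7.2,
      b8.1, b8.2]

theorem Ctx.var_t1 (c : Ctx p ϱ h sz X s) :
    Ex ϱ (fun x y => (tr (upd X s x y) 1 - tr X 1) ^ 2) ≤ p.stau2 (kk α) / (p.N * kk α) := by
  have hn := c.num
  have e : Ex ϱ (fun x y => (tr (upd X s x y) 1 - tr X 1) ^ 2) =
      Ex ϱ (fun x y => el1 X s x y ^ 2) :=
    Ex_congr fun x y hxy => by rw [(c.piv hxy).tr_one, add_sub_cancel_left]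
  rw [e]
  refine c.mom_el1.trans ?_
  lognum hn

end Crest.Agent.R062
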