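import Crest.Agent.R062.Mom

/-! Mean-field values of the elementary pair variables (used for `tr X` and `tr X ^ 2`). -/

open Matrix Finset

namespace Crest.Agent.R062
variable {α : Type} [Fintype α] [DecidableEq α] {p : Par ℝ} {ϱ h sz W : α → α → ℝ}
  {X Y : Matrix α α ℝ} {s : ℝ}

omit [DecidableEq α] in
theorem t12_sum_left (φ : α → ℝ) : ∑ x, ∑ _y : α, φ x ^ 2 = kk α * ∑ x, φ x ^ 2 := by
  simp only [sum_const, card_univ, nsmul_eq_mul, ← mul_sum, kk]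

omit [DecidableEq α] in
theorem t12_sum_right (φ : α → ℝ) : ∑ _x : α, ∑ y, φ y ^ 2 = kk α * ∑ x, φ x ^ 2 := by
  simp only [sum_const, card_univ, nsmul_eq_mul, kk]

theorem NU.t12_mul_left (hW : NU p W h) (Z : α → α → ℝ) (φ : α → ℝ) {A B : ℝ}
    (hA : Real.sqrt (∑ x, ∑ y, Z x y ^ 2) ≤ A) (hB : ∑ x, φ x ^ 2 ≤ B) :
    |Ex W (fun x y => Z x y * φ x)| ≤ 2 * A * Real.sqrt (kk α * B) / kk α ^ 2 := by
  have h1 := abs_Ex_le (Z := fun x y => Z x y * φ x) (Z' := fun x y => |Z x y| * |φ x|)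
    hW.nonneg (fun x y _ => (abs_mul _ _).le)
  have h2 := hW.Ex_abs_mul_le (Z := Z) (Z' := fun x _ => φ x)
  rw [t12_sum_left] at h2
  have hA0 : 0 ≤ A := (Real.sqrt_nonneg _).trans hA
  have hk := pair_kk_nonneg α
  refine h1.trans (h2.trans ?_)
  gcongr
  norm_num

theorem NU.t12_mul_right (hW : NU p W h) (Z : α → α → ℝ) (φ : α → ℝ) {A B : ℝ}
    (hA : Real.sqrt (∑ x, ∑ y, Z x y ^ 2) ≤ A) (hB : ∑ x, φ x ^ 2 ≤ B) :
    |Ex W (fun x y => Z x y * φ y)| ≤ 2 * A * Real.sqrt (kk α * B) / kk α ^ 2 := by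
  have h1 := abs_Ex_le (Z := fun x y => Z x y * φ y) (Z' := fun x y => |Z x y| * |φ y|)
    hW.nonneg (fun x y _ => (abs_mul _ _).le)
  have h2 := hW.Ex_abs_mul_le (Z := Z) (Z' := fun _ y => φ y)
  rw [t12_sum_right] at h2
  have hA0 : 0 ≤ A := (Real.sqrt_nonneg _).trans hA
  have hk := pair_kk_nonneg α
  refine h1.trans (h2.trans ?_)
  gcongr
  norm_num

theorem NU.t12_sq (hW : NU p W h) (Z : α → α → ℝ) {A : ℝ} (hA : ∑ x, ∑ y, Z x y ^ 2 ≤ A) :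
    |Ex W (fun x y => Z x y ^ 2)| ≤ 2 * A / kk α ^ 2 := by
  rw [abs_of_nonneg (Ex_nonneg hW.nonneg fun x y _ => sq_nonneg _)]
  have h0 : 0 ≤ ∑ x, ∑ y, Z x y ^ 2 := sum_nonneg fun _ _ => sum_nonneg fun _ _ => sq_nonneg _
  refine (hW.Ex_le_unif fun x y => sq_nonneg _).trans ?_
  gcongr
  norm_num

theorem NU.t12_prod (hW : NU p W h) (hk : 0 < kk α) (φ ψ : α → ℝ) {A B : ℝ}
    (hA : Real.sqrt (∑ x, φ x ^ 2) ≤ A) (hB : Real.sqrt (∑ x, ψ x ^ 2) ≤ B) :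
    |Ex W (fun x y => φ x * ψ y) - (∑ x, φ x) * (∑ y, ψ y) / kk α ^ 2|
      ≤ p.Ups (kk α) * A * B / kk α ^ 2 := by
  have hU := hW.Ups_nonneg hk
  have hA0 : 0 ≤ A := (Real.sqrt_nonneg _).trans hA
  refine (hW.Ex_prod φ ψ).trans ?_
  gcongr

theorem NU.t12_left (hW : NU p W h) (hk : 0 < kk α) (φ : α → ℝ) {A : ℝ}
    (hA : Real.sqrt (∑ x, φ x ^ 2) ≤ A) :
    |Ex W (fun x _ => φ x) - (∑ x, φ x) / kk α|
      ≤ p.Ups (kk α) * A * Real.sqrt (kk α) / kk α ^ 2 := by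
  have hU := hW.Ups_nonneg hk
  refine (hW.Ex_left' φ).trans ?_
  gcongr

theorem NU.t12_right (hW : NU p W h) (hk : 0 < kk α) (φ : α → ℝ) {A : ℝ}
    (hA : Real.sqrt (∑ x, φ x ^ 2) ≤ A) :
    |Ex W (fun _ y => φ y) - (∑ x, φ x) / kk α|
      ≤ p.Ups (kk α) * A * Real.sqrt (kk α) / kk α ^ 2 := by
  have hU := hW.Ups_nonneg hk
  refine (hW.Ex_right' φ).trans ?_
  gcongr

namespace Ctx
variable (c : Ctx p ϱ h sz X s)
include c

theorem t12_abs_s_mul {a e : ℝ} (ha : |a| ≤ e) : |s * a| ≤ e := by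
  rw [abs_mul, c.abs_s, one_mul]; exact ha

theorem t12_f_eq : ∑ x, ∑ y, X x y ^ 2 = tr X 2 := by
  rw [← sum_rho]
  exact sum_congr rfl fun x _ => (rho_eq c.sys.symm x).symm

theorem t12_f : ∑ x, ∑ y, X x y ^ 2 ≤ p.N * kk α * p.F (kk α) := by
  rw [c.t12_f_eq]; exact c.sys.f_le c.num

theorem t12_c2 : ∑ x, ∑ y, pw X 2 x y ^ 2 ≤ p.Om (kk α) ^ 4 :=
  sum_sum_pw_sq_le c.sys.symm c.num.Om_pos.le (c.sys.t4_le c.num) 0

theorem t12_c2' : Real.sqrt (∑ x, ∑ y, pw X 2 x y ^ 2) ≤ p.Om (kk α) ^ 2 :=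
  Real.sqrt_le_iff.2 ⟨sq_nonneg _, by rw [← pow_mul]; exact c.t12_c2⟩

theorem t12_a3 : Real.sqrt (∑ x, pw X 3 x x ^ 2)
    ≤ p.Om (kk α) * Real.sqrt (p.N ^ 4 * kk α * p.F (kk α)) := by
  have hO := c.num.Om_pos
  have h1 : ∑ x, pw X 3 x x ^ 2 ≤ p.Om (kk α) ^ 2 * ∑ x, rho X x ^ 2 := by
    rw [mul_sum]
    refine sum_le_sum fun x _ => ?_
    have := abs_pw_diag_le c.sys.symm hO.le (c.sys.t4_le c.num) 1 x
    rw [pow_one] at this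
    rw [← mul_pow, ← sq_abs]
    exact pow_le_pow_left₀ (abs_nonneg _) this 2
  calc _ ≤ Real.sqrt (p.Om (kk α) ^ 2 * (p.N ^ 4 * kk α * p.F (kk α))) :=
        Real.sqrt_le_sqrt (h1.trans (mul_le_mul_of_nonneg_left (c.sys.Q_le c.num) (sq_nonneg _)))
    _ = _ := by rw [Real.sqrt_mul (sq_nonneg _), Real.sqrt_sq hO.le]

theorem t12_tau : ∑ x, X x x = tr X 1 := by simp only [tr_eq_sum, pw_one]

theorem t12_tau_s : |tr X 1 + s| ≤ p.tauB (kk α) := by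
  refine (abs_add_le _ _).trans ?_
  rw [c.abs_s]
  exact c.sys.abs_tau_le c.num

theorem t12_sum_pw (j : ℕ) (hj : 1 ≤ j) : ∑ x, ∑ y, pw X j x y = 0 :=
  sum_eq_zero fun x _ => pw_rowsum c.sys.symm c.sys.rowsum j hj x

end Ctx

end Crest.Agent.R062
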