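import Crest.Agent.R062.Mat

/-! Spectral truncation. -/

open Matrix Finset

namespace Crest.Agent.R062
variable {α : Type} [Fintype α] [DecidableEq α]

theorem trunc_spec {X : Matrix α α ℝ} (hX : X.IsSymm) :
    ∃ (U : Matrix α α ℝ) (l : α → ℝ), U * Uᵀ = 1 ∧ Uᵀ * U = 1 ∧ X = U * diagonal l * Uᵀ := by
  have hH : X.IsHermitian := by
    unfold Matrix.IsHermitian
    rw [conjTranspose_eq_transpose_of_trivial]
    exact hX
  refine ⟨(hH.eigenvectorUnitary : Matrix α α ℝ), hH.eigenvalues, ?_, ?_, ?_⟩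
  · have := (Unitary.mem_iff.1 hH.eigenvectorUnitary.2).2
    rwa [star_eq_conjTranspose, conjTranspose_eq_transpose_of_trivial] at this
  · have := (Unitary.mem_iff.1 hH.eigenvectorUnitary.2).1
    rwa [star_eq_conjTranspose, conjTranspose_eq_transpose_of_trivial] at this
  · have h := hH.spectral_theorem
    rw [Unitary.conjStarAlgAut_apply, star_eq_conjTranspose,
      conjTranspose_eq_transpose_of_trivial] at h
    simpa using h

section
variable {U : Matrix α α ℝ}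

theorem trunc_mul (h2 : Uᵀ * U = 1) (g h : α → ℝ) :
    (U * diagonal g * Uᵀ) * (U * diagonal h * Uᵀ) = U * diagonal (fun i => g i * h i) * Uᵀ := by
  calc _ = U * diagonal g * (Uᵀ * U) * diagonal h * Uᵀ := by simp only [Matrix.mul_assoc]
    _ = U * (diagonal g * diagonal h) * Uᵀ := by rw [h2]; simp only [Matrix.mul_assoc, Matrix.mul_one]
    _ = _ := by rw [diagonal_mul_diagonal]

theorem trunc_trace (h2 : Uᵀ * U = 1) (g : α → ℝ) : trace (U * diagonal g * Uᵀ) = ∑ i, g i := by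
  rw [trace_mul_cycle, h2, Matrix.one_mul, trace_diagonal]

theorem trunc_pow (h1 : U * Uᵀ = 1) (h2 : Uᵀ * U = 1) (g : α → ℝ) (j : ℕ) :
    (U * diagonal g * Uᵀ) ^ j = U * diagonal (fun i => g i ^ j) * Uᵀ := by
  induction j with
  | zero => simp [h1]
  | succ j ih => rw [pow_succ, ih, trunc_mul h2]; simp only [pow_succ]

theorem trunc_symm (U : Matrix α α ℝ) (g : α → ℝ) : (U * diagonal g * Uᵀ).IsSymm := by
  unfold Matrix.IsSymm
  simp only [transpose_mul, transpose_transpose, diagonal_transpose, Matrix.mul_assoc]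

theorem trunc_iso (h2 : Uᵀ * U = 1) (w : α → ℝ) : ∑ z, (U *ᵥ w) z ^ 2 = ∑ z, w z ^ 2 := by
  have h : (U *ᵥ w) ⬝ᵥ (U *ᵥ w) = w ⬝ᵥ w := by
    rw [dotProduct_mulVec, vecMul_mulVec, h2, vecMul_one]
  simpa only [dotProduct, ← sq] using h

theorem trunc_mulVec (h2 : Uᵀ * U = 1) (g v : α → ℝ) :
    ∑ z, ((U * diagonal g * Uᵀ) *ᵥ v) z ^ 2 = ∑ i, g i ^ 2 * (Uᵀ *ᵥ v) i ^ 2 := by
  rw [← mulVec_mulVec, ← mulVec_mulVec, trunc_iso h2]
  simp only [mulVec_diagonal, mul_pow]

theorem trunc_frob (h2 : Uᵀ * U = 1) (g : α → ℝ) :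
    ∑ x, ∑ y, (U * diagonal g * Uᵀ) x y ^ 2 = ∑ i, g i ^ 2 := by
  have h := trunc_trace h2 (fun i => g i * g i)
  rw [← trunc_mul h2] at h
  simp only [← sq (g _)] at h
  rw [← h]
  unfold Matrix.trace
  refine sum_congr rfl fun x _ => ?_
  rw [diag_apply, mul_apply]
  refine sum_congr rfl fun y _ => ?_
  rw [sq, (trunc_symm U g).apply x y]

end

/-- `B` is `X` times the spectral projection onto the eigenvalues of modulus at most `lam`. -/
theorem exists_trunc {X : Matrix α α ℝ} (hX : X.IsSymm) {lam : ℝ} (hl : 0 < lam) :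
    ∃ B : Matrix α α ℝ, B.IsSymm ∧
      (∀ v : α → ℝ, ∑ z, (B *ᵥ v) z ^ 2 ≤ lam ^ 2 * ∑ z, v z ^ 2) ∧
      (∀ v : α → ℝ, ∑ z, (B *ᵥ v) z ^ 2 ≤ ∑ z, (X *ᵥ v) z ^ 2) ∧
      (tr X 4 / lam ≤ tr X 3 →
        (tr X 3 - tr X 4 / lam) ^ 2 ≤ tr X 2 * ∑ x, ∑ y, (B * X) x y ^ 2) := by
  obtain ⟨U, l, h1, h2, rfl⟩ := trunc_spec hX
  have htr : ∀ j, tr (U * diagonal l * Uᵀ) j = ∑ i, l i ^ j := fun j => by
    unfold tr
    rw [trunc_pow h1 h2, trunc_trace h2]
  refine ⟨U * diagonal (fun i => if |l i| ≤ lam then l i else 0) * Uᵀ, trunc_symm _ _,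
    fun v => ?_, fun v => ?_, fun h => ?_⟩
  · have h3 : ∑ z, v z ^ 2 = ∑ z, (Uᵀ *ᵥ v) z ^ 2 :=
      (trunc_iso (U := Uᵀ) (by rw [transpose_transpose]; exact h1) v).symm
    rw [trunc_mulVec h2, h3, mul_sum]
    refine sum_le_sum fun i _ => mul_le_mul_of_nonneg_right ?_ (sq_nonneg _)
    split_ifs with hi
    · rw [← sq_abs]; exact pow_le_pow_left₀ (abs_nonneg _) hi 2
    · simpa using sq_nonneg lam
  · rw [trunc_mulVec h2, trunc_mulVec h2]
    refine sum_le_sum fun i _ => mul_le_mul_of_nonneg_right ?_ (sq_nonneg _)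
    split_ifs with hi
    · exact le_rfl
    · simpa using sq_nonneg (l i)
  · rw [trunc_mul h2, trunc_frob h2]
    rw [htr, htr] at h
    rw [htr, htr, htr]
    have k1 : ∑ i, l i ^ 3 - (∑ i, l i ^ 4) / lam ≤
        ∑ i, l i * ((if |l i| ≤ lam then l i else 0) * l i) := by
      rw [sum_div, ← sum_sub_distrib]
      refine sum_le_sum fun i _ => ?_
      have h4 : 0 ≤ l i ^ 4 / lam := by positivity
      split_ifs with hi
      · nlinarith
      · have hi' : lam ≤ |l i| := (not_le.1 hi).le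
        have h5 : l i ^ 3 ≤ l i ^ 4 / lam := by
          rw [le_div_iff₀ hl]
          calc l i ^ 3 * lam ≤ |l i| ^ 3 * |l i| :=
                mul_le_mul (by rw [← abs_pow]; exact le_abs_self _) hi' hl.le (by positivity)
            _ = l i ^ 4 := by
                rw [← pow_succ, ← abs_pow]
                exact abs_of_nonneg (show 0 ≤ l i ^ 4 by positivity)
        simp only [zero_mul, mul_zero]
        linarith
    calc _ ≤ (∑ i, l i * ((if |l i| ≤ lam then l i else 0) * l i)) ^ 2 :=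
          pow_le_pow_left₀ (sub_nonneg.2 h) k1 2
      _ ≤ _ := sum_mul_sq_le_sq_mul_sq _ _ _

end Crest.Agent.R062
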