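import Crest.Agent.R062.Bounds
import Crest.Agent.R062.Trunc

/-! Construction of the tilt. -/

open Matrix Finset

namespace Crest.Agent.R062
variable {α : Type} [Fintype α] [DecidableEq α] {p : Par ℝ} {X Y : Matrix α α ℝ}

/-- Size conditions on the tilt. -/
structure TiltSize (h : α → α → ℝ) : Prop where
  symm : ∀ x y, h x y = h y x
  sup : ∀ x y, |h x y| ≤ 1 / 100
  bil : ∀ u v : α → ℝ, |∑ x, ∑ y, h x y * (u x * v y)|
    ≤ Real.sqrt (kk α) * Real.sqrt (∑ x, u x ^ 2) * Real.sqrt (∑ y, v y ^ 2)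
  row : ∀ x, ∑ y, h x y ^ 2 ≤ Real.sqrt (kk α)

section aux
variable {B : Matrix α α ℝ} {g : α → ℝ} {lam C : ℝ}

/-- The matrix `G Bᵀ B G`. -/
def tiltH (B : Matrix α α ℝ) (g : α → ℝ) (x y : α) : ℝ := g x * g y * ∑ z, B z x * B z y

/-- The squared Frobenius norm of `B G X`. -/
def tiltW (B : Matrix α α ℝ) (g : α → ℝ) (X : Matrix α α ℝ) : ℝ :=
  ∑ t, ∑ z, (B *ᵥ fun x => g x * X x t) z ^ 2

omit [DecidableEq α] in
theorem tiltW_nonneg : 0 ≤ tiltW B g X :=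
  sum_nonneg fun _ _ => sum_nonneg fun _ _ => sq_nonneg _

omit [DecidableEq α] in
theorem tiltH_symm (x y : α) : tiltH B g x y = tiltH B g y x := by
  unfold tiltH
  rw [mul_comm (g x)]
  exact congrArg _ (sum_congr rfl fun z _ => mul_comm _ _)

omit [DecidableEq α] in
theorem tiltH_bil (u v : α → ℝ) : ∑ x, ∑ y, tiltH B g x y * (u x * v y) =
    ∑ z, (B *ᵥ fun x => g x * u x) z * (B *ᵥ fun x => g x * v x) z := by
  simp only [tiltH, mulVec, dotProduct, sum_mul_sum]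
  rw [sum_comm (f := fun z x => ∑ y, B z x * (g x * u x) * (B z y * (g y * v y)))]
  refine sum_congr rfl fun x _ => ?_
  rw [sum_comm (f := fun z y => B z x * (g x * u x) * (B z y * (g y * v y)))]
  refine sum_congr rfl fun y _ => ?_
  rw [mul_sum, sum_mul]
  exact sum_congr rfl fun z _ => by ring

theorem tiltH_cor (hX : X.IsSymm) : cor (tiltH B g) X = tiltW B g X := by
  unfold cor tiltW
  have e : ∀ x y, pw X 2 x y = ∑ t, X x t * X y t := fun x y => by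
    rw [show 2 = 1 + 1 from rfl, pw_add]
    exact sum_congr rfl fun t _ => by rw [pw_one, pw_one, hX.apply t y]
  simp only [e, mul_sum, sq, ← tiltH_bil]
  rw [sum_comm (f := fun t x => ∑ y, tiltH B g x y * (X x t * X y t))]
  exact sum_congr rfl fun x _ => sum_comm

omit [DecidableEq α] in
theorem tiltW_one : tiltW B (fun _ => 1) X = ∑ x, ∑ y, (B * X) x y ^ 2 := by
  unfold tiltW
  rw [sum_comm]
  simp only [one_mul, mulVec, dotProduct, mul_apply]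

omit [DecidableEq α] in
theorem tiltW_add_le (g₁ g₂ : α → ℝ) :
    tiltW B (fun x => g₁ x + g₂ x) X ≤ 2 * tiltW B g₁ X + 2 * tiltW B g₂ X := by
  unfold tiltW
  simp only [mul_sum, ← sum_add_distrib]
  refine sum_le_sum fun t _ => sum_le_sum fun z _ => ?_
  have : (B *ᵥ fun x => (g₁ x + g₂ x) * X x t) z =
      (B *ᵥ fun x => g₁ x * X x t) z + (B *ᵥ fun x => g₂ x * X x t) z := by
    simp only [mulVec, dotProduct, ← sum_add_distrib]
    exact sum_congr rfl fun x _ => by ring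
  rw [this]
  nlinarith [sq_nonneg ((B *ᵥ fun x => g₁ x * X x t) z - (B *ᵥ fun x => g₂ x * X x t) z)]

theorem tiltW_le (hX : X.IsSymm)
    (hB : ∀ v : α → ℝ, ∑ z, (B *ᵥ v) z ^ 2 ≤ lam ^ 2 * ∑ z, v z ^ 2) :
    tiltW B g X ≤ lam ^ 2 * ∑ x, g x ^ 2 * rho X x := by
  refine (sum_le_sum fun t _ => hB _).trans (le_of_eq ?_)
  rw [← mul_sum, sum_comm]
  congr 1
  refine sum_congr rfl fun x _ => ?_
  rw [rho_eq hX, mul_sum]
  exact sum_congr rfl fun t _ => by ring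

theorem tiltW_one_le (hX : X.IsSymm) (hY : Y.IsSymm)
    (hB : ∀ v : α → ℝ, ∑ z, (B *ᵥ v) z ^ 2 ≤ ∑ z, (Y *ᵥ v) z ^ 2) :
    tiltW B (fun _ => 1) X ≤ DD Y X := by
  rw [DD_eq hY hX, ← tiltW_one]
  exact sum_le_sum fun t _ => hB _

theorem tilt_col (hX : X.IsSymm)
    (hB : ∀ v : α → ℝ, ∑ z, (B *ᵥ v) z ^ 2 ≤ ∑ z, (X *ᵥ v) z ^ 2) (x : α) :
    ∑ z, B z x ^ 2 ≤ rho X x := by
  have := hB (Pi.single x 1)
  rw [rho_eq hX]
  simp only [mulVec_single_one, col_apply] at this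
  simpa only [hX.apply x] using this

theorem tiltH_sup (hX : X.IsSymm)
    (hB : ∀ v : α → ℝ, ∑ z, (B *ᵥ v) z ^ 2 ≤ ∑ z, (X *ᵥ v) z ^ 2) (hC : 0 ≤ C)
    (hg : ∀ x, g x = 0 ∨ g x = 1 ∧ rho X x ≤ C) (x y : α) : |tiltH B g x y| ≤ C := by
  unfold tiltH
  rcases hg x with h | ⟨h, hx⟩
  · simpa [h] using hC
  rcases hg y with h' | ⟨h', hy⟩
  · simpa [h'] using hC
  rw [h, h', one_mul, one_mul]
  refine abs_le_of_sq_le_sq ((sum_mul_sq_le_sq_mul_sq _ _ _).trans ?_) hC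
  rw [sq C]
  exact mul_le_mul ((tilt_col hX hB x).trans hx) ((tilt_col hX hB y).trans hy)
    (sum_nonneg fun _ _ => sq_nonneg _) hC

omit [DecidableEq α] in
theorem tiltH_bil_le (hB : ∀ v : α → ℝ, ∑ z, (B *ᵥ v) z ^ 2 ≤ lam ^ 2 * ∑ z, v z ^ 2)
    (hg : ∀ x, g x ^ 2 ≤ 1) (u v : α → ℝ) : |∑ x, ∑ y, tiltH B g x y * (u x * v y)| ≤
      lam ^ 2 * (Real.sqrt (∑ x, u x ^ 2) * Real.sqrt (∑ y, v y ^ 2)) := by
  have k : ∀ w : α → ℝ, ∑ z, (B *ᵥ fun x => g x * w x) z ^ 2 ≤ lam ^ 2 * ∑ z, w z ^ 2 := fun w =>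
    (hB _).trans (mul_le_mul_of_nonneg_left (sum_le_sum fun z _ => by
      rw [mul_pow]
      exact mul_le_of_le_one_left (sq_nonneg _) (hg z)) (sq_nonneg _))
  have hu : 0 ≤ ∑ x, u x ^ 2 := sum_nonneg fun _ _ => sq_nonneg _
  have hv : 0 ≤ ∑ x, v x ^ 2 := sum_nonneg fun _ _ => sq_nonneg _
  rw [tiltH_bil]
  refine abs_le_of_sq_le_sq ((sum_mul_sq_le_sq_mul_sq _ _ _).trans ?_) (by positivity)
  rw [mul_pow, mul_pow, Real.sq_sqrt hu, Real.sq_sqrt hv]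
  calc _ ≤ (lam ^ 2 * ∑ z, u z ^ 2) * (lam ^ 2 * ∑ z, v z ^ 2) :=
        mul_le_mul (k u) (k v) (sum_nonneg fun _ _ => sq_nonneg _) (by positivity)
    _ = _ := by ring

theorem tiltH_row (hX : X.IsSymm) (hBs : B.IsSymm)
    (hB : ∀ v : α → ℝ, ∑ z, (B *ᵥ v) z ^ 2 ≤ lam ^ 2 * ∑ z, v z ^ 2)
    (hB' : ∀ v : α → ℝ, ∑ z, (B *ᵥ v) z ^ 2 ≤ ∑ z, (X *ᵥ v) z ^ 2) (hC : 0 ≤ C)
    (hg : ∀ x, g x = 0 ∨ g x = 1 ∧ rho X x ≤ C) (x : α) :
    ∑ y, tiltH B g x y ^ 2 ≤ lam ^ 2 * C := by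
  rcases hg x with h | ⟨h, hx⟩
  · simp only [tiltH, h, zero_mul, ne_eq, OfNat.ofNat_ne_zero, not_false_eq_true, zero_pow,
      sum_const_zero]
    positivity
  refine le_trans (sum_le_sum fun y _ => ?_) ((hB fun z => B z x).trans
    (mul_le_mul_of_nonneg_left ((tilt_col hX hB' x).trans hx) (sq_nonneg _)))
  have e : (B *ᵥ fun z => B z x) y = ∑ z, B z x * B z y := by
    simp only [mulVec, dotProduct]
    exact sum_congr rfl fun z _ => by rw [mul_comm, hBs.apply z y]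
  rw [e, tiltH, h, one_mul, mul_pow]
  refine mul_le_of_le_one_left (sq_nonneg _) ?_
  rcases hg y with h' | ⟨h', -⟩ <;> simp [h']

theorem tilt_bad_pt {a b F C : ℝ} (hF : F ≤ 1) (hC : 2 ≤ C) (h : ¬(a ≤ C ∧ b ≤ C)) :
    a ≤ 4 * ((a - F) ^ 2 + (b - F) ^ 2) / C := by
  have k : ∀ t, C < t → t * C ≤ 4 * (t - F) ^ 2 := fun t ht => by
    have h1 : t ≤ 2 * (t - F) := by linarith
    have h2 : t * C ≤ t * t := mul_le_mul_of_nonneg_left ht.le (by linarith)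
    have h3 : t * t ≤ (2 * (t - F)) * (2 * (t - F)) :=
      mul_le_mul h1 h1 (by linarith) (by linarith)
    linarith
  rw [le_div_iff₀ (by linarith)]
  by_cases ha : a ≤ C
  · have hb : C < b := not_le.1 fun hb => h ⟨ha, hb⟩
    have h1 := k b hb
    have h2 : a * C ≤ b * C := mul_le_mul_of_nonneg_right (by linarith) (by linarith)
    nlinarith [sq_nonneg (a - F)]
  · have h1 := k a (not_le.1 ha)
    nlinarith [sq_nonneg (b - F)]

theorem tilt_bad (hn : Num p (kk α)) (hX : Sys p X) (hY : Sys p Y) (hC : 2 ≤ C)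
    (hg : ∀ x, g x = 1 ∨ g x = 0 ∧ ¬(rho X x ≤ C ∧ rho Y x ≤ C)) :
    ∑ x, (1 - g x) ^ 2 * rho X x ≤ 8 * p.GV (kk α) / C := by
  have h1 := hX.V_le hn
  have h2 := hY.V_le hn
  have hC0 : 0 < C := by linarith
  calc ∑ x, (1 - g x) ^ 2 * rho X x
      ≤ ∑ x, 4 * ((rho X x - p.F (kk α)) ^ 2 + (rho Y x - p.F (kk α)) ^ 2) / C := by
        refine sum_le_sum fun x _ => ?_
        rcases hg x with h | ⟨h, h'⟩
        · rw [h, sub_self, zero_pow two_ne_zero, zero_mul]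
          positivity
        · rw [h, sub_zero, one_pow, one_mul]
          exact tilt_bad_pt hn.F_le_one hC h'
    _ = 4 * (VV X univ (p.F (kk α)) + VV Y univ (p.F (kk α))) / C := by
        rw [← sum_div, ← mul_sum, sum_add_distrib]
        rfl
    _ ≤ _ := div_le_div_of_nonneg_right (by linarith) hC0.le

end aux

section num
attribute [local irreducible] Par.k1 Par.stau2 Par.sT Par.GR Par.GD Par.GV Par.G4 Par.G3sq Par.Gf
  Par.s3
variable {k : ℝ}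

theorem tilt_num (hn : Num p k) (hk : p.k1 ≤ k) (hk' : k ≤ 4 * p.k1) :
    (1 / p.N ^ 150 * (2 * p.GD) + 1 / p.N ^ 150 *
      (2 * ((p.N ^ 23 * p.n / p.k1) ^ 2 * (8 * p.GV k / (p.N ^ 150 / (2 * 100))))) ≤
        p.stau k * k / p.N) ∧
    (p.Om k ^ 4 / (p.N ^ 23 * p.n / p.k1) ≤ p.n / p.N / 4) ∧
    (k ^ 2 * (p.N ^ 3710 * (2 / p.k1)) + 1 / p.N ^ 150 * (2 * p.GD) + 1 / p.N ^ 150 *
      (3 * ((p.N ^ 23 * p.n / p.k1) ^ 2 * (8 * p.GV k / (p.N ^ 150 / (2 * 100))))) ≤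
        1 / p.N ^ 150 * ((p.n / p.N / 4) ^ 2 / k / 2)) ∧
    (2 * (1 / p.N ^ 150) * (p.N ^ 23 * p.n / p.k1) ^ 2 ≤ Real.sqrt k) ∧
    (4 * (1 / p.N ^ 150) ^ 2 * ((p.N ^ 23 * p.n / p.k1) ^ 2 * (p.N ^ 150 / (2 * 100))) ≤
      Real.sqrt k) ∧
    (2 ≤ p.N ^ 150 / (2 * 100)) ∧ p.s3 ≤ p.n / p.N / 2 := by
  have l1 := hn.log_k1_le hk
  have l2 := hn.log_le_k1 hk'
  clear hk hk'
  refine ⟨?_, ?_, ?_, ?_, ?_, ?_, ?_⟩ <;> lognum hn

end num

theorem tilt_range {k : ℝ} (hn : Num p k) (h : p.gtau (k - 2) < p.gtau k) :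
    p.k1 ≤ k ∧ k ≤ 4 * p.k1 ∧ p.gtau k - p.gtau (k - 2) ≤ p.N ^ 3710 * (2 / p.k1) := by
  have hk1 := hn.k1_pos
  have hN : 0 < p.N ^ 3710 := pow_pos hn.N_pos _
  have h1 : 1 ≤ p.k1 := one_le_pow₀ hn.one_le_N
  refine ⟨?_, ?_, ?_⟩
  · by_contra hc
    rw [hn.gtau_eq_zero (not_le.1 hc).le] at h
    exact absurd h (not_lt.2 (mul_nonneg hN.le (le_min zero_le_one (le_max_left _ _))))
  · by_contra hc
    have h2 : 1 ≤ (k - 2 - p.k1) / p.k1 := by
      rw [le_div_iff₀ hk1]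
      linarith [not_le.1 hc]
    have h3 : p.gtau (k - 2) = p.N ^ 3710 := by
      unfold Par.gtau
      rw [min_eq_left (h2.trans (le_max_right _ _)), mul_one]
    rw [h3] at h
    exact absurd h (not_lt.2 hn.gtau_le)
  · unfold Par.gtau
    rw [← mul_sub]
    refine mul_le_mul_of_nonneg_left ?_ hN.le
    have e : 2 / p.k1 = (k - p.k1) / p.k1 - (k - 2 - p.k1) / p.k1 := by ring
    have h2 : 0 ≤ 2 / p.k1 := div_nonneg zero_le_two hk1.le
    rw [e] at h2 ⊢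
    generalize (k - p.k1) / p.k1 = a at h2 ⊢
    generalize (k - 2 - p.k1) / p.k1 = b at h2 ⊢
    simp only [min_def, max_def]
    split_ifs <;> linarith

/-- The three conditions on the tilt, for one of the two matrices. -/
theorem tilt_one (hn : Num p (kk α)) (hX : Sys p X) (hY : Y.IsSymm) (hD : DD Y X ≤ p.GD)
    {BX BY : Matrix α α ℝ} {g : α → ℝ} {β lam bad q iY s : ℝ} {h : α → α → ℝ} (hβ : 0 ≤ β)
    (hBX : ∀ v : α → ℝ, ∑ z, (BX *ᵥ v) z ^ 2 ≤ lam ^ 2 * ∑ z, v z ^ 2)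
    (hBX' : tr X 4 / lam ≤ tr X 3 →
      (tr X 3 - tr X 4 / lam) ^ 2 ≤ tr X 2 * ∑ x, ∑ y, (BX * X) x y ^ 2)
    (hBY : ∀ v : α → ℝ, ∑ z, (BY *ᵥ v) z ^ 2 ≤ lam ^ 2 * ∑ z, v z ^ 2)
    (hBY' : ∀ v : α → ℝ, ∑ z, (BY *ᵥ v) z ^ 2 ≤ ∑ z, (Y *ᵥ v) z ^ 2)
    (hbad : ∑ x, (1 - g x) ^ 2 * rho X x ≤ bad) (hi0 : 0 ≤ iY) (hi1 : iY ≤ 1)
    (hq0 : 0 ≤ q) (hq : q ≤ tr X 3 - tr X 4 / lam)
    (n1 : β * (2 * p.GD) + β * (2 * (lam ^ 2 * bad)) ≤ p.stau (kk α) * kk α / p.N)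
    (n2 : kk α ^ 2 * (p.gtau (kk α) - p.gtau (kk α - 2)) + β * (2 * p.GD) +
      β * (3 * (lam ^ 2 * bad)) ≤ β * (q ^ 2 / kk α / 2))
    (hc : s * cor h X =
      -(β * ((if 0 < tr X 1 then 1 else 0) * tiltW BX g X)) + β * (iY * tiltW BY g X)) :
    Tilt p h X s := by
  have hk := hn.k_pos
  have w1 : 0 ≤ tiltW BX g X := tiltW_nonneg
  have w2 : 0 ≤ tiltW BY g X := tiltW_nonneg
  have c1 : tiltW BY g X ≤ 2 * p.GD + 2 * (lam ^ 2 * bad) := by
    have a1 := tiltW_add_le (B := BY) (X := X) (fun _ => 1) fun x => g x - 1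
    have a2 := tiltW_one_le hX.symm hY hBY'
    have a3 := tiltW_le (g := fun x => g x - 1) hX.symm hBY
    have a4 : ∑ x, (g x - 1) ^ 2 * rho X x = ∑ x, (1 - g x) ^ 2 * rho X x :=
      sum_congr rfl fun x _ => by ring
    have a5 := mul_le_mul_of_nonneg_left hbad (sq_nonneg lam)
    simp only [add_sub_cancel] at a1
    rw [a4] at a3
    linarith
  have c2 : β * (iY * tiltW BY g X) ≤ β * (2 * p.GD + 2 * (lam ^ 2 * bad)) :=
    mul_le_mul_of_nonneg_left ((mul_le_of_le_one_left w2 hi1).trans c1) hβ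
  have c3 : 0 ≤ β * (iY * tiltW BY g X) := by positivity
  refine ⟨?_, fun ht => ?_, fun ht _ => ?_⟩
  · have : 0 ≤ β * ((if 0 < tr X 1 then 1 else 0) * tiltW BX g X) := by
      split_ifs <;> positivity
    linarith
  · rw [hc, if_neg (not_lt.2 ht)]
    have := hn.stau_pos
    have := hn.N_pos
    have : 0 ≤ p.stau (kk α) * kk α / p.N := by positivity
    linarith
  · rw [hc, if_pos ht, one_mul]
    have a1 := tiltW_add_le (B := BX) (X := X) g fun x => 1 - g x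
    have a3 := tiltW_le (g := fun x => 1 - g x) hX.symm hBX
    have a5 := mul_le_mul_of_nonneg_left hbad (sq_nonneg lam)
    simp only [add_sub_cancel] at a1
    rw [tiltW_one] at a1
    have a6 := hBX' (by linarith)
    have a7 : q ^ 2 / kk α ≤ ∑ x, ∑ y, (BX * X) x y ^ 2 := by
      rw [div_le_iff₀ hk, mul_comm]
      exact (pow_le_pow_left₀ hq0 hq 2).trans (a6.trans (mul_le_mul_of_nonneg_right (hX.f_le_k hn)
        (sum_nonneg fun _ _ => sum_nonneg fun _ _ => sq_nonneg _)))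
    have a8 : q ^ 2 / kk α / 2 - lam ^ 2 * bad ≤ tiltW BX g X := by linarith
    have a9 := mul_le_mul_of_nonneg_left a8 hβ
    linarith

theorem exists_tilt (hn : Num p (kk α)) (hX : Sys p X) (hY : Sys p Y)
    (hD : p.k1 ≤ kk α → DD X Y ≤ p.GD) :
    ∃ h : α → α → ℝ, TiltSize h ∧ Tilt p h X 1 ∧ Tilt p h Y (-1) := by
  classical
  have hN := hn.N_pos
  have hk := hn.k_pos
  have hσ : 0 ≤ p.stau (kk α) * kk α / p.N := by
    have := hn.stau_pos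
    positivity
  by_cases hg : p.gtau (kk α - 2) < p.gtau (kk α)
  swap
  · have z : ∀ (Z : Matrix α α ℝ) (s : ℝ), Tilt p (fun _ _ => 0) Z s := fun Z s => by
      have : cor (fun _ _ => 0) Z = 0 := by simp [cor]
      exact ⟨by rwa [this, mul_zero], fun _ => by rwa [this, mul_zero, neg_zero],
        fun _ h => absurd h hg⟩
    refine ⟨fun _ _ => 0, ⟨fun _ _ => rfl, fun _ _ => by norm_num, fun u v => ?_, fun x => ?_⟩,
      z _ _, z _ _⟩
    · simp only [zero_mul, sum_const_zero, abs_zero]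
      positivity
    · simp
  obtain ⟨r1, r2, r3⟩ := tilt_range hn hg
  obtain ⟨n1, n2, n3, n4, n5, n6, n7⟩ := tilt_num hn r1 r2
  have hβC : 1 / p.N ^ 150 * (p.N ^ 150 / (2 * 100)) = 1 / 200 := by
    field_simp
    norm_num
  have hβ : 0 < 1 / p.N ^ 150 := by positivity
  have hl : 0 < p.N ^ 23 * p.n / p.k1 := div_pos (mul_pos (pow_pos hN _) hn.n_pos) hn.k1_pos
  have n3' := (add_le_add (add_le_add (mul_le_mul_of_nonneg_left r3 (sq_nonneg (kk α))) le_rfl)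
    le_rfl).trans n3
  have hq0 : 0 ≤ p.n / p.N / 4 := by
    have := hn.n_pos
    positivity
  clear n3 r3
  generalize 1 / p.N ^ 150 = β at *
  generalize p.N ^ 23 * p.n / p.k1 = lam at *
  generalize p.N ^ 150 / (2 * 100) = C at *
  have hq : ∀ Z : Matrix α α ℝ, Sys p Z → p.n / p.N / 4 ≤ tr Z 3 - tr Z 4 / lam := fun Z hZ => by
    have a1 := (abs_le.1 (hZ.t3_dev hn r1)).1
    have a2 := div_le_div_of_nonneg_right (hZ.t4_le hn) hl.le
    have a3 := hn.T3_lo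
    linarith
  obtain ⟨BX, x1, x2, x3, x4⟩ := exists_trunc hX.symm hl
  obtain ⟨BY, y1, y2, y3, y4⟩ := exists_trunc hY.symm hl
  set g : α → ℝ := fun z => if rho X z ≤ C ∧ rho Y z ≤ C then 1 else 0 with hgdef
  have gX : ∀ x, g x = 0 ∨ g x = 1 ∧ rho X x ≤ C := fun x => by
    by_cases h : rho X x ≤ C ∧ rho Y x ≤ C
    · exact Or.inr ⟨if_pos h, h.1⟩
    · exact Or.inl (if_neg h)
  have gY : ∀ x, g x = 0 ∨ g x = 1 ∧ rho Y x ≤ C := fun x => by
    by_cases h : rho X x ≤ C ∧ rho Y x ≤ C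
    · exact Or.inr ⟨if_pos h, h.2⟩
    · exact Or.inl (if_neg h)
  have g1 : ∀ x, g x ^ 2 ≤ 1 := fun x => by
    rcases gX x with h | ⟨h, -⟩ <;> simp [h]
  have bX : ∑ x, (1 - g x) ^ 2 * rho X x ≤ 8 * p.GV (kk α) / C :=
    tilt_bad hn hX hY n6 fun x => by
      by_cases h : rho X x ≤ C ∧ rho Y x ≤ C
      · exact Or.inl (if_pos h)
      · exact Or.inr ⟨if_neg h, h⟩
  have bY : ∑ x, (1 - g x) ^ 2 * rho Y x ≤ 8 * p.GV (kk α) / C :=
    tilt_bad hn hY hX n6 fun x => by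
      by_cases h : rho X x ≤ C ∧ rho Y x ≤ C
      · exact Or.inl (if_pos h)
      · exact Or.inr ⟨if_neg h, fun h' => h ⟨h'.2, h'.1⟩⟩
  have hC : 0 ≤ C := by linarith
  obtain ⟨iX, hiX⟩ : ∃ iX : ℝ, iX = if 0 < tr X 1 then 1 else 0 := ⟨_, rfl⟩
  obtain ⟨iY, hiY⟩ : ∃ iY : ℝ, iY = if 0 < tr Y 1 then 1 else 0 := ⟨_, rfl⟩
  have iX0 : 0 ≤ iX ∧ iX ≤ 1 := by rw [hiX]; split_ifs <;> norm_num
  have iY0 : 0 ≤ iY ∧ iY ≤ 1 := by rw [hiY]; split_ifs <;> norm_num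
  have hcor : ∀ Z : Matrix α α ℝ, Z.IsSymm →
      cor (fun x y => -(β * (iX * tiltH BX g x y)) + β * (iY * tiltH BY g x y)) Z =
        -(β * (iX * tiltW BX g Z)) + β * (iY * tiltW BY g Z) := fun Z hZ => by
    rw [← tiltH_cor hZ, ← tiltH_cor hZ]
    simp only [cor, mul_sum, ← sum_neg_distrib, ← sum_add_distrib]
    exact sum_congr rfl fun x _ => sum_congr rfl fun y _ => by ring
  have habs : ∀ a b A : ℝ, |a| ≤ A → |b| ≤ A → |-(β * (iX * a)) + β * (iY * b)| ≤ 2 * β * A := by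
    intro a b A ha hb
    have k : ∀ i t : ℝ, 0 ≤ i → i ≤ 1 → |t| ≤ A → |β * (i * t)| ≤ β * A := fun i t i0 i1 ht => by
      rw [abs_mul, abs_mul, abs_of_pos hβ, abs_of_nonneg i0]
      exact mul_le_mul_of_nonneg_left ((mul_le_of_le_one_left (abs_nonneg _) i1).trans ht) hβ.le
    have h1 := abs_add_le (-(β * (iX * a))) (β * (iY * b))
    rw [abs_neg] at h1
    linarith [k iX a iX0.1 iX0.2 ha, k iY b iY0.1 iY0.2 hb]
  refine ⟨fun x y => -(β * (iX * tiltH BX g x y)) + β * (iY * tiltH BY g x y),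
    ⟨fun x y => by rw [tiltH_symm x y, tiltH_symm (B := BY) x y], fun x y => ?_, fun u v => ?_,
      fun x => ?_⟩, ?_, ?_⟩
  · have := habs _ _ C (tiltH_sup hX.symm x3 hC gX x y) (tiltH_sup hY.symm y3 hC gY x y)
    linarith
  · have e : ∑ x, ∑ y, (-(β * (iX * tiltH BX g x y)) + β * (iY * tiltH BY g x y)) * (u x * v y) =
        -(β * (iX * ∑ x, ∑ y, tiltH BX g x y * (u x * v y))) +
          β * (iY * ∑ x, ∑ y, tiltH BY g x y * (u x * v y)) := by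
      simp only [mul_sum, ← sum_neg_distrib, ← sum_add_distrib]
      exact sum_congr rfl fun x _ => sum_congr rfl fun y _ => by ring
    rw [e, mul_assoc]
    refine (habs _ _ _ (tiltH_bil_le x2 g1 u v) (tiltH_bil_le y2 g1 u v)).trans ?_
    rw [← mul_assoc]
    exact mul_le_mul_of_nonneg_right n4 (by positivity)
  · have a1 := tiltH_row hX.symm x1 x2 x3 hC gX x
    have a2 := tiltH_row hY.symm y1 y2 y3 hC gY x
    have a3 : ∑ y, (-(β * (iX * tiltH BX g x y)) + β * (iY * tiltH BY g x y)) ^ 2 ≤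
        2 * β ^ 2 * (∑ y, tiltH BX g x y ^ 2 + ∑ y, tiltH BY g x y ^ 2) := by
      rw [← sum_add_distrib, mul_sum]
      refine sum_le_sum fun y _ => ?_
      have k : ∀ i t : ℝ, 0 ≤ i → i ≤ 1 → (i * t) ^ 2 ≤ t ^ 2 := fun i t i0 i1 => by
        rw [mul_pow]
        exact mul_le_of_le_one_left (sq_nonneg _) (pow_le_one₀ i0 i1)
      have b1 := k iX (tiltH BX g x y) iX0.1 iX0.2
      have b2 := k iY (tiltH BY g x y) iY0.1 iY0.2
      have b3 : (-(iX * tiltH BX g x y) + iY * tiltH BY g x y) ^ 2 ≤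
          2 * (tiltH BX g x y ^ 2 + tiltH BY g x y ^ 2) := by
        nlinarith [sq_nonneg (iX * tiltH BX g x y + iY * tiltH BY g x y)]
      have b4 := mul_le_mul_of_nonneg_left b3 (sq_nonneg β)
      linarith
    have a4 := mul_le_mul_of_nonneg_left (add_le_add a1 a2) (show 0 ≤ 2 * β ^ 2 by positivity)
    linarith
  · refine tilt_one hn hX hY.symm (DD_comm (X := X) (Y := Y) ▸ hD r1) hβ.le x2 x4 y2 y3 bX iY0.1
      iY0.2 hq0 (hq X hX) n1 n3' ?_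
    rw [hcor X hX.symm, one_mul, hiX]
  · refine tilt_one hn hY hX.symm (hD r1) hβ.le y2 y4 x2 x3 bY iX0.1 iX0.2 hq0 (hq Y hY) n1 n3' ?_
    rw [hcor Y hY.symm, hiY]
    ring

end Crest.Agent.R062
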